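import Vale.Agent.P218Z.Pre

/-!
# P218Y: weak flows for which almost every time is regular
-/

open MeasureTheory Metric Filter Topology Set
open scoped ContDiff ENNReal RealInnerProductSpace
open Vale.Agent.P366.Stmt (E)
open Vale.Agent.P366W (trc dvg Fr)
open Vale.Agent.P218 (limitSet WeakTendsto Slow IsIntegralBrakkeFlow IsTangentFlow)
open Vale.Agent.P218.H552 (NN ext)
open Vale.Agent.P218R Vale.Agent.P218E Vale.Agent.P218Z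

noncomputable section

namespace Vale.Agent.P218Y

/-- `(M t)_{a < t < b}` is a unit-regular flow of compact sets with bounded genus, and almost every
time is regular -/
structure IsAlmostReg (M : ℝ → Set E3) (a b : ℝ) : Prop where
  cpt : ∀ c d, a < c → d < b → IsCompact {p : ℝ × E3 | p.1 ∈ Icc c d ∧ p.2 ∈ M p.1}
  dense : ∀ t ∈ Ioo a b, ∀ x ∈ M t,
    (t, x) ∈ closure {p : ℝ × E3 | p.2 ∈ M p.1 ∧ RegPt M p.1 p.2}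
  ae : ∀ᵐ t, t ∈ Ioo a b → RegT M t
  unit : ∀ t ∈ Ioo a b, ∀ x ∈ M t,
    Tendsto (fun r => gs (H2.restrict (M (t - r ^ 2))) x r) (𝓝[>] 0) (𝓝 1) → RegPt M t x
  genus : ∃ g : ℝ, ∀ t ∈ Ioo a b, RegT M t → ∀ S : Srf, S.Ok → S.G = M t → ∀ x ∈ M t,
    -g ≤ ∫ y in connectedComponentIn (M t) x, S.K y ∂S.μ

/-- almost every time is regular, area ratios, Gauss-Bonnet bound at regular times -/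
structure Yc (F : Flw) (a b Λ G : ℝ) : Prop where
  cpt : ∀ c d, a < c → d < b → IsCompact {p : ℝ × E3 | p.1 ∈ Icc c d ∧ p.2 ∈ trk F p.1}
  ae : ∀ᵐ t, t ∈ Ioo a b → RegT (trk F) t
  ok : ∀ t ∈ Ioo a b, RegT (trk F) t → (F.sl t).Ok ∧ (F.sl t).GBd G
  ar : ∀ t ∈ Ioo a b, AR Λ (F.μ t)

/-- monotonicity across all times, and the lower density bound -/
structure Ym (F : Flw) (a b Λ G : ℝ) : Prop extends Yc F a b Λ G where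
  mono : ∀ (s₁ s₂ t₀ : ℝ) (x : E3), a < s₁ → s₁ ≤ s₂ → s₂ < b → s₂ < t₀ →
    gs (F.μ s₂) x √(t₀ - s₂) ≤ gs (F.μ s₁) x √(t₀ - s₁)
  ld : ∀ (s t : ℝ) (y : E3), a < t → t < s → s < b → F.u (s, y) = 0 → 1 ≤ gs (F.μ t) y √(s - t)

/-- the density gap at singular points -/
structure Yf (F : Flw) (a b Λ G ε : ℝ) : Prop extends Ym F a b Λ G where
  gap : ∀ (s t : ℝ) (y : E3), a < t → t < s → s < b → (s, y) ∈ Sing (trk F) →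
    1 + ε ≤ gs (F.μ t) y √(s - t)

variable {F : Flw} {a b Λ G ε c d : ℝ}

theorem Yc.mono' (h : Yc F a b Λ G) (hc : a ≤ c) (hd : d ≤ b) : Yc F c d Λ G :=
  have s := Ioo_subset_Ioo hc hd
  ⟨fun c' d' h1 h2 => h.cpt c' d' (hc.trans_lt h1) (h2.trans_le hd),
    h.ae.mono fun _ h1 h2 => h1 (s h2), fun t ht => h.ok t (s ht), fun t ht => h.ar t (s ht)⟩

theorem Ym.mono' (h : Ym F a b Λ G) (hc : a ≤ c) (hd : d ≤ b) : Ym F c d Λ G :=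
  ⟨h.toYc.mono' hc hd, fun _ _ _ x h1 h2 h3 => h.mono _ _ _ x (hc.trans_lt h1) h2 (h3.trans_le hd),
    fun _ _ y h1 h2 h3 => h.ld _ _ y (hc.trans_lt h1) h2 (h3.trans_le hd)⟩

theorem Yf.mono' (h : Yf F a b Λ G ε) (hc : a ≤ c) (hd : d ≤ b) : Yf F c d Λ G ε :=
  ⟨h.toYm.mono' hc hd, fun _ _ y h1 h2 h3 => h.gap _ _ y (hc.trans_lt h1) h2 (h3.trans_le hd)⟩

/-! ### the rows of P218Z, for the larger class -/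

/-- **TOP**: regular points and regular times -/
def TOP : Prop := (∀ (M : ℝ → Set E3) (t : ℝ) (x : E3), RegPt M t x →
    ∀ᶠ p : ℝ × E3 in 𝓝 (t, x), p.2 ∈ M p.1 → RegPt M p.1 p.2) ∧
  (∀ (M : ℝ → Set E3) (a b : ℝ),
    (∀ c d, a < c → d < b → IsCompact {p : ℝ × E3 | p.1 ∈ Icc c d ∧ p.2 ∈ M p.1}) →
    (∀ t ∈ Ioo a b, IsCompact (M t)) ∧
    (∀ t ∈ Ioo a b, ∀ y, y ∉ M t → ∀ᶠ p : ℝ × E3 in 𝓝 (t, y), p.2 ∉ M p.1) ∧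
    (∀ c d, a < c → d < b → IsCompact (Sing M ∩ Icc c d ×ˢ univ)) ∧
    IsOpen {t | t ∈ Ioo a b ∧ RegT M t} ∧
    (∀ c d, a ≤ c → d ≤ b → (∀ t ∈ Ioo c d, RegT M t) → IsSmoothFlow M c d) ∧
    (PNull (Sing M ∩ Ioo a b ×ˢ univ) → ∀ c d, a < c → d < b → ∀ δ > (0 : ℝ),
      ∃ T : Finset ((ℝ × E3) × ℝ), (∀ q ∈ T, 0 < q.2) ∧
        Sing M ∩ Icc c d ×ˢ univ ⊆ ⋃ q ∈ T, pcyl q.1 q.2 ∧ ∑ q ∈ T, q.2 ^ 2 ≤ δ)) ∧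
  ∀ (F : Flw) (a b Λ G : ℝ), Yc F a b Λ G → (∀ᵐ t, t ∈ Ioo a b → RegT (trk F) t) ∧
    ∀ c d, a < c → c ≤ d → d < b → (∀ t ∈ Icc c d, RegT (trk F) t) →
      ∃ (F' : Flw) (c' d' : ℝ), a ≤ c' ∧ c' < c ∧ d < d' ∧ d' ≤ b ∧ F'.OkA c' d' Λ ∧
        ∀ t ∈ Ioo c' d', RegT (trk F) t ∧ (F'.sl t).G = (F.sl t).G

/-- **RSZ**: rescaling -/
def RSZ : Prop := ∀ (F : Flw) (a b t₀ l Λ G : ℝ) (x₀ : E3), 0 < l →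
  (∀ s y, RegPt (trk (F.rs x₀ t₀ l)) s y ↔ RegPt (trk F) (t₀ + s / l ^ 2) (x₀ + l⁻¹ • y)) ∧
  (∀ s, RegT (trk (F.rs x₀ t₀ l)) s ↔ RegT (trk F) (t₀ + s / l ^ 2)) ∧
  (Yc F a b Λ G → Yc (F.rs x₀ t₀ l) (l ^ 2 * (a - t₀)) (l ^ 2 * (b - t₀)) Λ G) ∧
  (Ym F a b Λ G → Ym (F.rs x₀ t₀ l) (l ^ 2 * (a - t₀)) (l ^ 2 * (b - t₀)) Λ G) ∧
  ∀ ε, Yf F a b Λ G ε → Yf (F.rs x₀ t₀ l) (l ^ 2 * (a - t₀)) (l ^ 2 * (b - t₀)) Λ G ε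

/-- **HUZ**: monotonicity with dissipation; good times -/
def HUZ : Prop := (∀ (F : Flw) (a b Λ G t₀ s₁ s₂ : ℝ) (x₀ : E3), Ym F a b Λ G → a < s₁ → s₁ ≤ s₂ →
    s₂ < b → s₂ < t₀ → ∫⁻ t in Icc s₁ s₂, dsh F x₀ t₀ t ≤
      ENNReal.ofReal (gs (F.μ s₁) x₀ √(t₀ - s₁) - gs (F.μ s₂) x₀ √(t₀ - s₂))) ∧
  ∀ (F : Flw) (a b Λ G s₁ s₂ D : ℝ) (n : ℕ) (p : Fin n → ℝ × E3), Ym F a b Λ G → a < s₁ →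
    s₁ < s₂ → s₂ < b → (∀ j, s₂ < (p j).1 ∧ gs (F.μ s₁) (p j).2 √((p j).1 - s₁) -
      gs (F.μ s₂) (p j).2 √((p j).1 - s₂) ≤ D) → 0 < D →
    ∃ t ∈ Ioo s₁ s₂, RegT (trk F) t ∧
      ∀ j, dsh F (p j).2 (p j).1 t ≤ ENNReal.ofReal ((n + 1) * D / (s₂ - s₁))

/-- **DSW**: the same for the rescaled flow -/
def DSW : Prop := ∀ (F : Flw) (a b Λ G t₀ τ₁ τ₂ : ℝ) (x₀ : E3), Ym F a b Λ G → τ₁ ≤ τ₂ →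
  a < t₀ - Real.exp (-2 * τ₁) → t₀ ≤ b →
  gs (F.rsl x₀ t₀ τ₂).μ 0 1 ≤ gs (F.rsl x₀ t₀ τ₁).μ 0 1 ∧
  (∀ᵐ τ, τ₁ ≤ τ → RegS F t₀ τ) ∧
  (∀ τ, τ₁ ≤ τ → AR Λ (F.rsl x₀ t₀ τ).μ ∧
    (RegS F t₀ τ → (F.rsl x₀ t₀ τ).Ok ∧ (F.rsl x₀ t₀ τ).GBd G)) ∧
  ∫⁻ τ in Icc τ₁ τ₂, dsw (F.rsl x₀ t₀ τ) ≤
    ENNReal.ofReal (2 * Real.pi * (gs (F.rsl x₀ t₀ τ₁).μ 0 1 - gs (F.rsl x₀ t₀ τ₂).μ 0 1))

/-- **DSZ**: the dissipation in a ball -/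
def DSZ : Prop := ∀ R : ℝ, ∃ C > (0 : ℝ), ∀ (F : Flw) (a b Λ G t₀ τ₁ τ₂ : ℝ) (x₀ : E3),
  Ym F a b Λ G → τ₁ ≤ τ₂ → a < t₀ - Real.exp (-2 * τ₁) → t₀ ≤ b →
  ∫⁻ τ in Icc τ₁ τ₂, dsb (F.rsl x₀ t₀ τ) R ≤
    ENNReal.ofReal (C * (gs (F.rsl x₀ t₀ τ₁).μ 0 1 - gs (F.rsl x₀ t₀ τ₂).μ 0 1)) ∧
  (τ₁ + 1 ≤ τ₂ → C * (gs (F.rsl x₀ t₀ τ₁).μ 0 1 - gs (F.rsl x₀ t₀ τ₂).μ 0 1) < 1 →
    ∃ τ ∈ Icc (τ₂ - 1) τ₂, RegS F t₀ τ ∧ dsb (F.rsl x₀ t₀ τ) R ≤ 1)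

/-- **SLZ**: self-similarity of the limits, good regular times -/
def SLZ : Prop := ∀ (F : Flw) (a b Λ G τ₀ : ℝ) (x₀ : E3) (τ : ℕ → ℝ) (κ : Measure E3), a < b →
  Ym F a b Λ G → Slow (NN 2 F.μ x₀ b) τ₀ → IsLocallyFiniteMeasure κ → Tendsto τ atTop atTop →
  WeakTendsto (fun i => NN 2 F.μ x₀ b (τ i)) κ →
  (∀ s < 0, WeakTendsto (fun i => (F.rs x₀ b (Real.exp (τ i))).μ s) (ext 2 κ s)) ∧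
  ∃ σ : ℕ → ℝ, (∀ i, σ i ∈ Icc (τ i) (τ i + 1)) ∧ (∀ᶠ i in atTop, RegS F b (σ i) ∧
    (F.rsl x₀ b (σ i)).Ok ∧ AR Λ (F.rsl x₀ b (σ i)).μ ∧ (F.rsl x₀ b (σ i)).GBd G) ∧
    GSeq (fun i => F.rsl x₀ b (σ i)) (max Λ 1) κ

/-- **PTZ**: ancestors, and the use of two centres -/
def PTZ : Prop := ∀ Λ : ℝ, ∃ R ≥ (1 : ℝ),
  (∀ (F : Flw) (a b G s t : ℝ) (y : E3), Ym F a b Λ G → a < t → t < s → s < b → F.u (s, y) = 0 →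
    2 * Real.pi * (s - t) ≤ (F.μ t).real (closedBall y (R * √(s - t))) ∧
    ∃ z, F.u (t, z) = 0 ∧ ‖z - y‖ ≤ R * √(s - t)) ∧
  ∀ K δ η : ℝ, 0 < δ → 0 < η → ∃ ε > (0 : ℝ), ∀ (F : Flw) (a b G s s' t₀ ρ : ℝ) (y₁ y₂ y : E3),
    Ym F a b Λ G → 0 < ρ → a < t₀ → t₀ ≤ s' - 2 * (δ * ρ) ^ 2 → s' ≤ s → s ≤ s' + (K * ρ) ^ 2 →
    s < b → F.u (s, y₁) = 0 → F.u (s, y₂) = 0 → F.u (s', y) = 0 → ‖y₁ - y‖ ≤ K * ρ →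
    ‖y₂ - y‖ ≤ K * ρ → gs (F.μ t₀) y₁ √(s - t₀) ≤ 1 + ε → gs (F.μ t₀) y₂ √(s - t₀) ≤ 1 + ε →
    ∃ t ∈ Ioo (s' - 2 * (δ * ρ) ^ 2) (s' - (δ * ρ) ^ 2), RegT (trk F) t ∧ ∃ z, F.u (t, z) = 0 ∧
      ‖z - y‖ ≤ 2 * R * δ * ρ ∧ |⟪y₁ - y₂, F.n (t, z)⟫| ≤ η * ρ

/-- **WHZ**: White's theorem for the class with the gap -/
def WHZ : Prop := ∀ Λ : ℝ, ∃ ε₁ > (0 : ℝ), ∀ σ > (0 : ℝ), ∃ c > (0 : ℝ), ∃ C : ℕ → ℝ,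
  C 0 ≤ σ ∧ C 1 ≤ σ ∧ ∀ (F : Flw) (a b G ε θ t r : ℝ) (x : E3), Yf F a b Λ G ε → θ ≤ ε₁ → θ < ε →
    0 < r → a < t - 4 * r ^ 2 → t ≤ b →
    (∀ y ∈ ball x (4 * r), ∀ ρ ∈ Icc r (2 * r), gs (F.μ (t - 4 * r ^ 2)) y ρ ≤ 1 + θ) →
    ∀ s ∈ Ioo (t - r ^ 2) t, RegT (trk F) s → ∀ y ∈ ball x r, F.u (s, y) = 0 →
      ∃ L, Fr (F.n (s, y)) L ∧ (F.sl s).Reg y (F.n (s, y)) L (c * r) C

/-- **LOZ**: White's theorem for the rescaled slices -/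
def LOZ : Prop := ∀ Λ ε₀ : ℝ, 0 < ε₀ → ∃ ε > (0 : ℝ), ∀ σ > (0 : ℝ), ∃ C : ℕ → ℝ, C 0 ≤ σ ∧
  C 1 ≤ σ ∧ ∀ (F : Flw) (a b G τ₀ : ℝ) (x₀ p : E3) (τ : ℕ → ℝ) (κ : Measure E3), a < b →
    Yf F a b Λ G ε₀ → Slow (NN 2 F.μ x₀ b) τ₀ → IsLocallyFiniteMeasure κ →
    Tendsto τ atTop atTop → WeakTendsto (fun i => NN 2 F.μ x₀ b (τ i)) κ →
    (∃ᶠ ρ in 𝓝[>] (0 : ℝ), gs κ p ρ ≤ 1 + ε) → ∃ δ > (0 : ℝ), ∃ r > (0 : ℝ), ∀ᶠ i in atTop,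
      RegS F b (τ i) → ∀ y ∈ ball p δ, (F.rsl x₀ b (τ i)).w y = 0 →
        ∃ L, Fr ((F.rsl x₀ b (τ i)).n y) L ∧
          (F.rsl x₀ b (τ i)).Reg y ((F.rsl x₀ b (τ i)).n y) L r C

/-- **LDZ**: the lower density bound -/
def LDZ : Prop := ∀ (F : Flw) (a b Λ G : ℝ), Yc F a b Λ G →
  (∀ (s₁ s₂ t₀ : ℝ) (x : E3), a < s₁ → s₁ ≤ s₂ → s₂ < b → s₂ < t₀ →
    gs (F.μ s₂) x √(t₀ - s₂) ≤ gs (F.μ s₁) x √(t₀ - s₁)) →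
  (∀ t ∈ Ioo a b, ∀ x ∈ trk F t,
    (t, x) ∈ closure {p : ℝ × E3 | p.2 ∈ trk F p.1 ∧ RegPt (trk F) p.1 p.2}) → Ym F a b Λ G

/-- **GAP**: the density gap -/
def GAP : Prop := ∀ Λ : ℝ, ∃ ε > (0 : ℝ), ∀ (μ : ℝ → Measure E3) (F : Flw) (a b G s t : ℝ)
  (x : E3), IsIntegralBrakkeFlow 2 μ → μ 0 univ < ⊤ → 0 ≤ a →
  (∀ s ∈ Ioo a b, μ s = (μH[2] : Measure E3).restrict (trk F s)) → Ym F a b Λ G →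
  a < s → s < t → t < b → F.u (t, x) = 0 → gs (F.μ s) x √(t - s) < 1 + ε →
  Tendsto (fun r => gs (F.μ (t - r ^ 2)) x r) (𝓝[>] 0) (𝓝 1)

end Vale.Agent.P218Y
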