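import Vale.Agent.P218Y.Defs
import Vale.Agent.P218R.All1

/-!
# P218Y (port of P218Z): the rows DSW and DSZ
-/

open MeasureTheory Metric Filter Topology Set
open scoped ContDiff ENNReal RealInnerProductSpace
open Vale.Agent.P218R Vale.Agent.P218E
open Vale.Agent.P218Z

noncomputable section

namespace Vale.Agent.P218Y

namespace Dsw

/-- the time of the rescaled slice -/
def tm (t₀ τ : ℝ) : ℝ := t₀ - Real.exp (-2 * τ)

theorem tm_cont (t₀ : ℝ) : Continuous (tm t₀) := by unfold tm; fun_prop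

theorem tm_mono (t₀ : ℝ) : Monotone (tm t₀) := fun _ _ h =>
  sub_le_sub_left (Real.exp_le_exp.2 (by linarith)) _

theorem tm_lt (t₀ τ : ℝ) : tm t₀ τ < t₀ := sub_lt_self _ (Real.exp_pos _)

theorem tm_mem {a b t₀ τ₁ τ : ℝ} (ha : a < t₀ - Real.exp (-2 * τ₁)) (hb : t₀ ≤ b) (h : τ₁ ≤ τ) :
    tm t₀ τ ∈ Ioo a b := ⟨ha.trans_le (tm_mono t₀ h), (tm_lt t₀ τ).trans_le hb⟩

theorem rsl_tm (F : Flw) (x₀ : E3) (t₀ τ : ℝ) :
    F.rsl x₀ t₀ τ = (F.sl (tm t₀ τ)).sc x₀ (Real.exp τ) := by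
  have : t₀ + -1 / Real.exp τ ^ 2 = tm t₀ τ := by
    rw [tm, neg_mul, Real.exp_neg, two_mul, Real.exp_add]; ring
  simp only [Flw.rsl, Flw.rs, Flw.sl, Srf.sc, this]

theorem gs_tm (F : Flw) (x₀ : E3) (t₀ τ : ℝ) :
    gs (F.rsl x₀ t₀ τ).μ 0 1 = gs (F.μ (tm t₀ τ)) x₀ √(t₀ - tm t₀ τ) := by
  have e : √(t₀ - tm t₀ τ) = 1 / Real.exp τ := by
    rw [tm, sub_sub_cancel, Real.sqrt_eq_iff_mul_self_eq (Real.exp_pos _).le (by positivity),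
      one_div, ← Real.exp_neg, ← Real.exp_add]
    congr 1; ring
  rw [rsl_tm, gs_sc _ _ (Real.exp_pos τ), smul_zero, add_zero, e]
  rfl

theorem ae_tm {P : ℝ → Prop} (t₀ : ℝ) (h : ∀ᵐ t, P t) : ∀ᵐ τ, P (tm t₀ τ) := by
  have h1 : volume ((fun t => -Real.log (t₀ - t) / 2) '' ({t | ¬ P t} ∩ Iio t₀)) = 0 := by
    refine addHaar_image_eq_zero_of_differentiableOn_of_addHaar_eq_zero _ (fun t ht => ?_)
      (measure_mono_null inter_subset_left (ae_iff.1 h))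
    have : t₀ - t ≠ 0 := (sub_pos.2 ht.2).ne'
    exact DifferentiableAt.differentiableWithinAt (by fun_prop (disch := assumption))
  refine ae_iff.2 (measure_mono_null (fun τ hτ => ?_) h1)
  refine ⟨tm t₀ τ, ⟨hτ, tm_lt t₀ τ⟩, ?_⟩
  simp only [tm, sub_sub_cancel, Real.log_exp]
  ring

theorem dsw_eq (hI : IND) {S T : Srf} {Λ : ℝ} (hS : S.Ok) (hT : T.Ok) (h : S.G = T.G)
    (hA : AR Λ T.μ) {ψ : E3 → ℝ} (hψ : Continuous ψ) (hc : HasCompactSupport ψ) (h0 : ∀ x, 0 ≤ ψ x)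
    (h1 : ∀ x ∈ S.G, ψ x = 1) : dsw S = ENNReal.ofReal
      (∫ x, ψ x * Real.exp (-‖x‖ ^ 2 / 4) * T.φ x ^ 2 ∂T.μ) := by
  have := hA.fin
  have hφ := hT.sφ.continuous
  obtain ⟨e1, -, -, -, e2⟩ := (hI S T hS hT).1 h
  have i1 : Integrable (fun x => ψ x * Real.exp (-‖x‖ ^ 2 / 4) * T.φ x ^ 2) T.μ :=
    Continuous.integrable_of_hasCompactSupport (by fun_prop) hc.mul_right.mul_right
  rw [ofReal_integral_eq_lintegral_ofReal i1 (Eventually.of_forall fun x => by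
    have := h0 x
    positivity), dsw, ← e1]
  refine lintegral_congr_ae (hS.ae.mono fun x hx => ?_)
  dsimp only
  rw [h1 x hx, one_mul, Srf.φ, Srf.φ, (e2 x hx).2.2 x 2]

theorem piece (hT : TOP) (hI : IND) {F : Flw} {a b Λ G t₀ c d : ℝ} (x₀ : E3) (hF : Yc F a b Λ G)
    (hcd : c ≤ d) (ha : a < tm t₀ c) (hb : t₀ ≤ b) (hr : ∀ τ ∈ Icc c d, RegT (trk F) (tm t₀ τ)) :
    ∫⁻ τ in Icc c d, dsw (F.rsl x₀ t₀ τ) ≤ ENNReal.ofReal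
      (2 * Real.pi * gs (F.rsl x₀ t₀ c).μ 0 1 - 2 * Real.pi * gs (F.rsl x₀ t₀ d).μ 0 1) := by
  have hd : tm t₀ d < b := (tm_lt t₀ d).trans_le hb
  obtain ⟨F', c', d', -, q1, q2, -, hF', q3⟩ := (hT.2.2 F a b Λ G hF).2 _ _ ha (tm_mono t₀ hcd) hd
    fun t ht => by
      obtain ⟨τ, hτ, rfl⟩ := intermediate_value_Icc hcd (tm_cont t₀).continuousOn ht
      exact hr τ hτ
  have m1 : ∀ τ ∈ Icc c d, tm t₀ τ ∈ Ioo c' d' := fun τ hτ =>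
    ⟨q1.trans_le (tm_mono t₀ hτ.1), (tm_mono t₀ hτ.2).trans_lt q2⟩
  have m2 : ∀ τ ∈ Icc c d, tm t₀ τ ∈ Ioo a b := fun τ hτ =>
    ⟨ha.trans_le (tm_mono t₀ hτ.1), (tm_mono t₀ hτ.2).trans_lt hd⟩
  have eG : ∀ τ ∈ Icc c d, (F.rsl x₀ t₀ τ).G = (F'.rsl x₀ t₀ τ).G := fun τ hτ => by
    rw [rsl_tm, rsl_tm]
    ext y
    exact (Set.ext_iff.1 (q3 _ (m1 τ hτ)).2 (x₀ + (Real.exp τ)⁻¹ • y)).symm
  have eμ : ∀ τ ∈ Icc c d, (F.rsl x₀ t₀ τ).μ = (F'.rsl x₀ t₀ τ).μ := fun τ hτ => by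
    rw [Srf.μ, Srf.μ, eG τ hτ]
  obtain ⟨R, hR⟩ := ((hF.cpt _ _ ha hd).image continuous_snd).isBounded.subset_closedBall x₀
  obtain ⟨ψ, f1, -, fc, fb⟩ := exists_continuous_one_zero_of_isCompact
    (isCompact_closedBall (0 : E3) (Real.exp d * R)) isClosed_empty (disjoint_empty _)
  have hc := ψ.continuous
  have h1 := (hur' F' c' d' Λ t₀ c d x₀ ψ hF' hcd q1 q2 hc fc fb).2
  have h2 := (hur' F' c' d' Λ t₀ c d x₀ (fun x => ψ x * Real.exp (-‖x‖ ^ 2 / 4)) hF' hcd q1 q2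
    (by fun_prop) fc.mul_right fun x => ⟨mul_nonneg (fb x).1 (Real.exp_pos _).le,
      mul_le_one₀ (fb x).2 (Real.exp_pos _).le (Real.exp_le_one_iff.2 (by
        linarith [sq_nonneg ‖x‖]))⟩).1
  set g : ℝ → ℝ := fun τ => ∫ x, ψ x * Real.exp (-‖x‖ ^ 2 / 4) * (F'.rsl x₀ t₀ τ).φ x ^ 2
    ∂(F'.rsl x₀ t₀ τ).μ with hg
  have g0 : ∀ τ, 0 ≤ g τ := fun τ => integral_nonneg fun x => by
    have := (fb x).1
    positivity
  have g1 : ∀ τ ∈ Icc c d, dsw (F.rsl x₀ t₀ τ) = ENNReal.ofReal (g τ) := fun τ hτ => by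
    have l0 := Real.exp_pos τ
    refine dsw_eq hI (Λ := Λ) ?_ ?_ (eG τ hτ) ?_ hc fc (fun x => (fb x).1) fun y hy => f1 ?_
    · rw [rsl_tm]; exact (hF.ok _ (m2 τ hτ) (hr τ hτ)).1.sc x₀ l0
    · rw [rsl_tm]; exact (hF'.toOk.sl (m1 τ hτ)).sc x₀ l0
    · rw [rsl_tm]; exact AR.sc (S := F'.sl _) (hF'.ar _ (m1 τ hτ)) x₀ l0
    · rw [rsl_tm] at hy
      have b1 := hR ⟨(tm t₀ τ, x₀ + (Real.exp τ)⁻¹ • y),
        ⟨⟨tm_mono t₀ hτ.1, tm_mono t₀ hτ.2⟩, hy⟩, rfl⟩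
      rw [mem_closedBall_iff_norm, add_sub_cancel_left, norm_smul, norm_inv,
        Real.norm_of_nonneg l0.le] at b1
      have b2 : 0 ≤ R := le_trans (by positivity) b1
      rw [inv_mul_le_iff₀ l0] at b1
      exact mem_closedBall_zero_iff.2
        (b1.trans (mul_le_mul_of_nonneg_right (Real.exp_le_exp.2 hτ.2) b2))
  rw [intervalIntegral.integral_of_le hcd, ← integral_Icc_eq_integral_Ioc] at h1
  rw [setLIntegral_congr_fun measurableSet_Icc g1, ← ofReal_integral_eq_lintegral_ofReal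
    h2.integrableOn_Icc (Eventually.of_forall g0), eμ c (left_mem_Icc.2 hcd),
    eμ d (right_mem_Icc.2 hcd), ← mul_sub]
  refine ENNReal.ofReal_le_ofReal ?_
  rw [← inv_mul_le_iff₀ (by positivity)]
  linarith

theorem dsb_le (S : Srf) (R : ℝ) : dsb S R ≤ ENNReal.ofReal (Real.exp (R ^ 2 / 4)) * dsw S := by
  rw [dsw, ← lintegral_const_mul' _ _ ENNReal.ofReal_ne_top]
  refine le_trans (setLIntegral_mono' measurableSet_ball fun x hx => ?_)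
    (setLIntegral_le_lintegral (ball 0 R) _)
  rw [← ENNReal.ofReal_mul (Real.exp_pos _).le, ← mul_assoc, ← Real.exp_add]
  refine ENNReal.ofReal_le_ofReal (le_mul_of_one_le_left (sq_nonneg _) (Real.one_le_exp ?_))
  linarith [pow_le_pow_left₀ (norm_nonneg x) (mem_ball_zero_iff.1 hx).le 2]

end Dsw

open Dsw in
/-- **DSW** -/
theorem dsw' (hT : TOP) (hI : IND) (hJ : STJ) : DSW := by
  intro F a b Λ G t₀ τ₁ τ₂ x₀ hF h12 ha hb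
  have mo : ∀ σ τ, τ₁ ≤ σ → σ ≤ τ → gs (F.rsl x₀ t₀ τ).μ 0 1 ≤ gs (F.rsl x₀ t₀ σ).μ 0 1 :=
    fun σ τ h1 h2 => by
      rw [gs_tm, gs_tm]
      exact hF.mono _ _ t₀ x₀ (tm_mem ha hb h1).1 (tm_mono t₀ h2) (tm_mem ha hb (h1.trans h2)).2
        (tm_lt t₀ τ)
  have ae : ∀ᵐ τ, τ₁ ≤ τ → RegT (trk F) (tm t₀ τ) :=
    (ae_tm t₀ (hT.2.2 F a b Λ G hF.toYc).1).mono fun τ h h1 => h (tm_mem ha hb h1)
  refine ⟨mo _ _ le_rfl h12, ae, fun τ h1 => ?_, ?_⟩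
  · have l0 := Real.exp_pos τ
    rw [rsl_tm]
    exact ⟨AR.sc (S := F.sl _) (hF.ar _ (tm_mem ha hb h1)) x₀ l0, fun h =>
      ⟨(hF.ok _ (tm_mem ha hb h1) h).1.sc x₀ l0, (hF.ok _ (tm_mem ha hb h1) h).2.sc x₀ l0⟩⟩
  · rw [mul_sub]
    refine hJ _ (fun τ => 2 * Real.pi * gs (F.rsl x₀ t₀ τ).μ 0 1)
      (tm t₀ ⁻¹' {t | t ∈ Ioo a b ∧ RegT (trk F) t}) τ₁ τ₂ h12
      ((hT.2.1 (trk F) a b hF.cpt).2.2.2.1.preimage (tm_cont t₀))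
      (ae.mono fun τ h h1 => ⟨tm_mem ha hb h1.1, h h1.1⟩)
      (fun σ hσ τ _ h => mul_le_mul_of_nonneg_left (mo σ τ hσ.1 h) (by positivity))
      fun c d h1 h2 _ h4 => piece hT hI x₀ hF.toYc h2 (tm_mem ha hb h1).1 hb fun τ hτ => (h4 hτ).2

open Dsw in
/-- **DSZ** -/
theorem dsz (hD : DSW) : DSZ := by
  intro R
  refine ⟨Real.exp (R ^ 2 / 4) * (2 * Real.pi), by positivity,
    fun F a b Λ G t₀ τ₁ τ₂ x₀ hF h12 ha hb => ?_⟩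
  obtain ⟨-, h2, -, h4⟩ := hD F a b Λ G t₀ τ₁ τ₂ x₀ hF h12 ha hb
  have H : ∫⁻ τ in Icc τ₁ τ₂, dsb (F.rsl x₀ t₀ τ) R ≤ ENNReal.ofReal (Real.exp (R ^ 2 / 4) *
      (2 * Real.pi) * (gs (F.rsl x₀ t₀ τ₁).μ 0 1 - gs (F.rsl x₀ t₀ τ₂).μ 0 1)) := by
    refine (lintegral_mono fun τ => dsb_le _ R).trans ?_
    rw [lintegral_const_mul' _ _ ENNReal.ofReal_ne_top, mul_assoc,
      ENNReal.ofReal_mul (Real.exp_pos _).le]
    exact mul_le_mul_right h4 _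
  refine ⟨H, fun h5 h6 => ?_⟩
  by_contra hn
  have h7 : ∫⁻ _ in Icc (τ₂ - 1) τ₂, 1 ≤ ∫⁻ τ in Icc (τ₂ - 1) τ₂, dsb (F.rsl x₀ t₀ τ) R := by
    refine lintegral_mono_ae ((ae_restrict_iff' measurableSet_Icc).2 (h2.mono fun τ h hτ => ?_))
    by_contra h8
    exact hn ⟨τ, hτ, h (by linarith [hτ.1]), (not_le.1 h8).le⟩
  rw [setLIntegral_one, Real.volume_Icc, sub_sub_cancel, ENNReal.ofReal_one] at h7
  have h9 := h7.trans ((lintegral_mono_set (Icc_subset_Icc_left (by linarith))).trans H)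
  exact (ENNReal.ofReal_lt_one.2 h6).not_ge h9

end Vale.Agent.P218Y
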