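import Vale.Agent.P218Y.Defs
import Vale.Agent.P218Z.Top

/-!
# P218Y (port of P218Z): regular points and regular times
-/

open MeasureTheory Metric Filter Topology Set
open scoped ContDiff ENNReal RealInnerProductSpace
open Vale.Agent.P218R Vale.Agent.P218E
open Vale.Agent.P218Z

noncomputable section

namespace Vale.Agent.P218Y

open Tp

theorem top : TOP := by
  refine ⟨P218Z.top.1, P218Z.top.2.1, fun F a b Λ G hF => ⟨hF.ae, fun c d hc hcd hd hr => ?_⟩⟩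
  · have m : ∀ t ∈ Icc c d, {t | t ∈ Ioo a b ∧ RegT (trk F) t} ∈ 𝓝 t := fun t ht =>
      (open_T hF.cpt).mem_nhds ⟨⟨hc.trans_le ht.1, ht.2.trans_lt hd⟩, hr t ht⟩
    obtain ⟨l, u, h1, h2⟩ := mem_nhds_iff_exists_Ioo_subset.1 (m c ⟨le_rfl, hcd⟩)
    obtain ⟨l', u', h3, h4⟩ := mem_nhds_iff_exists_Ioo_subset.1 (m d ⟨hcd, le_rfl⟩)
    have k : ∀ t ∈ Ioo (max a l) (min b u'), t ∈ Ioo a b ∧ RegT (trk F) t := fun t ht => by
      rw [mem_Ioo, max_lt_iff, lt_min_iff] at ht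
      rcases lt_or_ge t c with p | p
      · exact h2 ⟨ht.1.2, p.trans h1.2⟩
      rcases le_or_gt t d with q | q
      · exact (mem_of_mem_nhds (m t ⟨p, q⟩) :)
      · exact h4 ⟨h3.1.trans q, ht.2.2⟩
    have k1 := max_lt hc h1.1
    have k2 := lt_min hd h3.2
    obtain ⟨F', f1, f2⟩ := cfl2 (smooth hF.cpt (le_max_left _ _) (min_le_left _ _)
      fun t ht => (k t ht).2) (k1.trans (hcd.trans_lt k2))
    refine ⟨F', _, _, le_max_left _ _, k1, k2, min_le_left _ _, ⟨f1, fun t ht => ?_⟩,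
      fun t ht => ⟨(k t ht).2, f2 t ht⟩⟩
    rw [Flw.μ, Srf.μ, f2 t ht]
    exact hF.ar t (k t ht).1

end Vale.Agent.P218Y
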