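import Vale.Agent.P218Y.Spec

/-!
# P218Y: row COV, the covering argument
-/

open MeasureTheory Metric Filter Topology Set
open scoped ENNReal
open Vale.Agent.P218R Vale.Agent.P218E Vale.Agent.P218Z

noncomputable section

namespace Vale.Agent.P218Y

namespace CovA

/-- the gauge: the least `r ^ 2` of a cylinder containing the set -/
def gg (S : Set (ℝ × E3)) : ℝ≥0∞ :=
  ⨅ (q : (ℝ × E3) × ℝ) (_ : 0 < q.2) (_ : S ⊆ pcyl q.1 q.2), ENNReal.ofReal (q.2 ^ 2)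

lemma gg_le {S : Set (ℝ × E3)} {p : ℝ × E3} {r : ℝ} (hr : 0 < r) (h : S ⊆ pcyl p r) :
    gg S ≤ ENNReal.ofReal (r ^ 2) :=
  iInf_le_of_le (p, r) (iInf_le_of_le hr (iInf_le_of_le h le_rfl))

lemma gg_empty : gg ∅ = 0 := by
  refine le_antisymm ?_ bot_le
  refine ENNReal.le_of_forall_pos_le_add fun ε hε _ => ?_
  have h := gg_le (S := ∅) (p := 0) (r := √(ε : ℝ)) (Real.sqrt_pos.2 (by exact_mod_cast hε))
    (empty_subset _)
  rw [Real.sq_sqrt (NNReal.coe_nonneg ε)] at h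
  simpa using h

/-- the parabolic content -/
def mu : OuterMeasure (ℝ × E3) := OuterMeasure.ofFunction gg gg_empty

lemma mu_le {S : Set (ℝ × E3)} {p : ℝ × E3} {r : ℝ} (hr : 0 < r) (h : S ⊆ pcyl p r) :
    mu S ≤ ENNReal.ofReal (r ^ 2) :=
  (OuterMeasure.ofFunction_le S).trans (gg_le hr h)

lemma pnull {Z : Set (ℝ × E3)} (h : mu Z = 0) : PNull Z := by
  intro δ hδ
  have hδ' : ENNReal.ofReal (δ / 2) ≠ 0 := by simpa using hδ
  have h1 : mu Z < ENNReal.ofReal (δ / 2) := h ▸ pos_iff_ne_zero.2 hδ'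
  rw [mu, OuterMeasure.ofFunction_apply] at h1
  simp only [iInf_lt_iff] at h1
  obtain ⟨t, ht, hs⟩ := h1
  obtain ⟨ε, hε, hεs⟩ := ENNReal.exists_pos_sum_of_countable hδ' ℕ
  have h2 : ∀ n, ∃ q : (ℝ × E3) × ℝ, 0 < q.2 ∧ t n ⊆ pcyl q.1 q.2 ∧
      ENNReal.ofReal (q.2 ^ 2) < gg (t n) + ε n := by
    intro n
    have hfin : gg (t n) ≠ ⊤ :=
      ne_top_of_le_ne_top (ne_top_of_lt hs) (ENNReal.le_tsum (f := fun n => gg (t n)) n)
    have h3 : gg (t n) < gg (t n) + ε n :=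
      ENNReal.lt_add_right hfin (by exact_mod_cast (hε n).ne')
    conv_lhs at h3 => rw [gg]
    simp only [iInf_lt_iff] at h3
    obtain ⟨q, a, b, c⟩ := h3
    exact ⟨q, a, b, c⟩
  choose q hq0 hq1 hq2 using h2
  refine ⟨fun n => (q n).1, fun n => (q n).2, hq0, ht.trans (iUnion_mono hq1), ?_⟩
  calc ∑' i, ENNReal.ofReal ((q i).2 ^ 2) ≤ ∑' i, (gg (t i) + ε i) :=
        ENNReal.tsum_le_tsum fun i => (hq2 i).le
    _ = ∑' i, gg (t i) + ∑' i, (ε i : ℝ≥0∞) := ENNReal.tsum_add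
    _ ≤ ENNReal.ofReal (δ / 2) + ENNReal.ofReal (δ / 2) := add_le_add hs.le hεs.le
    _ = ENNReal.ofReal δ := by
        rw [← ENNReal.ofReal_add (by positivity) (by positivity), add_halves]

/-- the closed cylinder -/
def cc (p : ℝ × E3) (r : ℝ) : Set (ℝ × E3) := {q | |q.1 - p.1| ≤ r ^ 2 ∧ ‖q.2 - p.2‖ ≤ r}

lemma cc_sub (p : ℝ × E3) {r : ℝ} (hr : 0 < r) : cc p r ⊆ pcyl p (2 * r) := by
  rintro q ⟨h1, h2⟩
  have h3 := abs_le.1 h1
  have h4 : 0 < r ^ 2 := by positivity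
  refine ⟨⟨by nlinarith, by nlinarith⟩, ?_⟩
  rw [mem_ball, dist_eq_norm]
  linarith

/-- a piece -/
def Pc (P : Set (ℝ × E3)) (ρ : ℝ) : Prop := ∀ p ∈ P, ∀ r ∈ Ioo 0 ρ, ∃ e : E3, ‖e‖ = 1 ∧
  ∀ q ∈ P, q ∈ cc p r → |q.1 - p.1| < (1 / 100 * r) ^ 2 ∧
    ∃ c : ℝ, ‖q.2 - p.2 - c • e‖ < 1 / 100 * r

lemma step {P : Set (ℝ × E3)} {ρ : ℝ} (h : Pc P ρ) (k : ℕ) : ∀ p ∈ P, ∀ r ∈ Ioo 0 ρ,
    mu (P ∩ cc p r) ≤ ENNReal.ofReal (4 * r ^ 2 * (1 / 2) ^ k) := by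
  induction k with
  | zero =>
    intro p _ r hr
    refine (mu_le (p := p) (r := 2 * r) (by linarith [hr.1])
      (inter_subset_right.trans (cc_sub p hr.1))).trans (le_of_eq ?_)
    congr 1
    ring
  | succ k ih =>
    intro p hp r hr
    obtain ⟨e, he, hq⟩ := h p hp r hr
    have hr0 := hr.1
    set s : ℝ := 1 / 100 * r with hs
    have hs0 : 0 < s := by positivity
    set B : ℤ → Set (ℝ × E3) := fun j =>
      {q | q ∈ P ∧ |q.1 - p.1| < s ^ 2 ∧ ‖q.2 - p.2 - ((j : ℝ) * s) • e‖ < 2 * s} with hB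
    have hsub : P ∩ cc p r ⊆ ⋃ j ∈ Finset.Icc (-101 : ℤ) 101, B j := by
      rintro q ⟨hqP, hqc⟩
      obtain ⟨h1, c, hc⟩ := hq q hqP hqc
      have hcn : |c| ≤ 101 * s := by
        have h2 : ‖c • e‖ ≤ ‖q.2 - p.2‖ + ‖q.2 - p.2 - c • e‖ := by
          have := norm_sub_le (q.2 - p.2) (q.2 - p.2 - c • e)
          rwa [sub_sub_cancel] at this
        rw [norm_smul, he, mul_one, Real.norm_eq_abs] at h2
        have h3 := hqc.2
        linarith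
      have hc1 := abs_le.1 hcn
      have hf1 : (⌊c / s⌋ : ℝ) * s ≤ c := (le_div_iff₀ hs0).1 (Int.floor_le _)
      have hf2 : c < (⌊c / s⌋ + 1) * s := (div_lt_iff₀ hs0).1 (Int.lt_floor_add_one _)
      refine mem_iUnion₂.2 ⟨⌊c / s⌋, Finset.mem_Icc.2 ⟨?_, ?_⟩, hqP, h1, ?_⟩
      · refine Int.le_floor.2 ?_
        rw [le_div_iff₀ hs0]
        push_cast
        linarith
      · have h5 : (⌊c / s⌋ : ℝ) ≤ 101 :=
          (Int.floor_le _).trans ((div_le_iff₀ hs0).2 (by linarith))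
        exact_mod_cast h5
      · have h4 : q.2 - p.2 - ((⌊c / s⌋ : ℝ) * s) • e =
            (q.2 - p.2 - c • e) + (c - (⌊c / s⌋ : ℝ) * s) • e := by
          rw [sub_smul]
          abel
        rw [h4]
        refine (norm_add_le _ _).trans_lt ?_
        rw [norm_smul, he, mul_one, Real.norm_eq_abs, abs_of_nonneg (by linarith)]
        linarith
    have hBj : ∀ j, mu (B j) ≤ ENNReal.ofReal (4 * (4 * s) ^ 2 * (1 / 2) ^ k) := by
      intro j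
      rcases (B j).eq_empty_or_nonempty with h0 | ⟨y, hyP, hy1, hy2⟩
      · rw [h0, measure_empty]
        exact bot_le
      · refine le_trans (measure_mono ?_) (ih y hyP (4 * s) ⟨by positivity, by linarith [hr.2]⟩)
        rintro q ⟨hqP, hq1, hq2⟩
        refine ⟨hqP, ?_, ?_⟩
        · have a1 := abs_lt.1 hy1
          have a2 := abs_lt.1 hq1
          have a3 : 0 < s ^ 2 := by positivity
          exact abs_le.2 ⟨by nlinarith, by nlinarith⟩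
        · have a1 := norm_sub_le (q.2 - p.2 - ((j : ℝ) * s) • e) (y.2 - p.2 - ((j : ℝ) * s) • e)
          have a2 : q.2 - p.2 - ((j : ℝ) * s) • e - (y.2 - p.2 - ((j : ℝ) * s) • e) = q.2 - y.2 := by
            abel
          rw [a2] at a1
          linarith
    calc mu (P ∩ cc p r) ≤ mu (⋃ j ∈ Finset.Icc (-101 : ℤ) 101, B j) := measure_mono hsub
      _ ≤ ∑ j ∈ Finset.Icc (-101 : ℤ) 101, mu (B j) := measure_biUnion_finset_le _ _
      _ ≤ ∑ _j ∈ Finset.Icc (-101 : ℤ) 101, ENNReal.ofReal (4 * (4 * s) ^ 2 * (1 / 2) ^ k) :=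
          Finset.sum_le_sum fun j _ => hBj j
      _ = ENNReal.ofReal (203 * (4 * (4 * s) ^ 2 * (1 / 2) ^ k)) := by
          rw [Finset.sum_const, Int.card_Icc, nsmul_eq_mul,
            ENNReal.ofReal_mul (by norm_num : (0 : ℝ) ≤ 203)]
          congr 1
          have : (101 + 1 - -101 : ℤ).toNat = 203 := by decide
          rw [this]
          norm_num
      _ ≤ _ := by
          refine ENNReal.ofReal_le_ofReal ?_
          have a1 : 0 ≤ r ^ 2 * (1 / 2 : ℝ) ^ k := by positivity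
          rw [hs, pow_succ (1 / 2 : ℝ) k]
          nlinarith

lemma null_cc {P : Set (ℝ × E3)} {ρ : ℝ} (h : Pc P ρ) {p : ℝ × E3} (hp : p ∈ P) {r : ℝ}
    (hr : r ∈ Ioo 0 ρ) : mu (P ∩ cc p r) = 0 := by
  refine le_antisymm ?_ bot_le
  have h1 : Tendsto (fun k : ℕ => ENNReal.ofReal (4 * r ^ 2 * (1 / 2) ^ k)) atTop
      (𝓝 (ENNReal.ofReal (4 * r ^ 2 * 0))) :=
    ENNReal.tendsto_ofReal
      ((tendsto_pow_atTop_nhds_zero_of_lt_one (by norm_num) (by norm_num)).const_mul _)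
  rw [mul_zero, ENNReal.ofReal_zero] at h1
  exact ge_of_tendsto' h1 fun k => step h k p hp r hr

lemma null_pc {P : Set (ℝ × E3)} {ρ : ℝ} (hρ : 0 < ρ) (h : Pc P ρ) : mu P = 0 := by
  refine measure_null_of_locally_null P fun p hp => ⟨P ∩ cc p (ρ / 2), ?_, ?_⟩
  · refine inter_mem_nhdsWithin P ?_
    have h1 : ∀ᶠ q : ℝ × E3 in 𝓝 p, |q.1 - p.1| < (ρ / 2) ^ 2 :=
      ContinuousAt.eventually_lt (by fun_prop) continuousAt_const (by simp; positivity)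
    have h2 : ∀ᶠ q : ℝ × E3 in 𝓝 p, ‖q.2 - p.2‖ < ρ / 2 :=
      ContinuousAt.eventually_lt (by fun_prop) continuousAt_const (by simpa using hρ)
    filter_upwards [h1, h2] with q a b using ⟨a.le, b.le⟩
  · exact null_cc h hp ⟨by linarith, by linarith⟩

end CovA

open CovA in
theorem cov : COV := by
  intro A Θ h
  obtain ⟨δ, hδ, hA⟩ := h (1 / 100) (by norm_num)
  refine pnull ?_
  set P : ℤ × ℕ → Set (ℝ × E3) := fun i => {p | ⌊Θ p / δ⌋ = i.1 ∧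
    ∀ r ∈ Ioo (0 : ℝ) (1 / ((i.2 : ℝ) + 1)), ∃ e : E3, ‖e‖ = 1 ∧ ∀ q : ℝ × E3, q ∈ cc p r →
      Θ p - δ ≤ Θ q → |q.1 - p.1| < (1 / 100 * r) ^ 2 ∧
        ∃ c : ℝ, ‖q.2 - p.2 - c • e‖ < 1 / 100 * r} with hP
  have hsub : A ⊆ ⋃ i, P i := by
    intro p hp
    obtain ⟨r₀, hr₀, hl⟩ := hA p hp
    obtain ⟨n, hn⟩ := exists_nat_one_div_lt hr₀
    refine mem_iUnion.2 ⟨(⌊Θ p / δ⌋, n), rfl, fun r hr => ?_⟩
    obtain ⟨e, he, hq⟩ := hl r ⟨hr.1, hr.2.trans hn⟩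
    exact ⟨e, he, fun q hqc hθ => ⟨(hq q hqc.1 hqc.2 hθ).1, (hq q hqc.1 hqc.2 hθ).2.1⟩⟩
  refine measure_mono_null hsub (measure_iUnion_null fun i => ?_)
  refine null_pc (ρ := 1 / ((i.2 : ℝ) + 1)) (by positivity) fun p hp r hr => ?_
  obtain ⟨e, he, hq⟩ := hp.2 r hr
  refine ⟨e, he, fun q hqP hqc => hq q hqc ?_⟩
  have a1 : Θ p < (⌊Θ p / δ⌋ + 1) * δ := (div_lt_iff₀ hδ).1 (Int.lt_floor_add_one _)
  have a2 : (⌊Θ q / δ⌋ : ℝ) * δ ≤ Θ q := (le_div_iff₀ hδ).1 (Int.floor_le _)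
  rw [hp.1] at a1
  rw [hqP.1] at a2
  linarith

end Vale.Agent.P218Y
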