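import Vale.Agent.P218Y.Defs
import Vale.Agent.P218R.All1
import Vale.Agent.P218R.WPt

/-!
# P218Y (port of P218Z), row HUZ: monotonicity with dissipation across singular times; good times
-/

open MeasureTheory Metric Filter Topology Set
open scoped ContDiff ENNReal RealInnerProductSpace
open Vale.Agent.P218R Vale.Agent.P218R.Pt
open Vale.Agent.P218Z

noncomputable section

namespace Vale.Agent.P218Y

namespace Huz

variable {F : Flw} {a b Λ G : ℝ}

theorem dis_cont' (hF : F.Ok a b) {ψ : E3 → ℝ} (hψ : Continuous ψ) (y : E3) {s : ℝ} (hs : b ≤ s) :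
    ContinuousOn (fun p : ℝ × E3 => Pt.dis F ψ y s p.1 p.2) (Ioo a b ×ˢ univ) := by
  have h1 := hF.sH.continuousOn
  have h2 := hF.sn.continuousOn
  have h3 : ∀ p ∈ Ioo a b ×ˢ (univ : Set E3), s - p.1 ≠ 0 := fun p hp =>
    (sub_pos.2 (hp.1.2.trans_le hs)).ne'
  have hp := Real.pi_pos
  unfold Pt.dis hk
  refine ContinuousOn.mul (ContinuousOn.mul (by fun_prop) (ContinuousOn.mul
    (ContinuousOn.inv₀ (by fun_prop) fun p hp' => mul_ne_zero (by positivity) (h3 p hp'))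
    (Real.continuous_exp.comp_continuousOn (ContinuousOn.div (by fun_prop) (by fun_prop)
      fun p hp' => mul_ne_zero (by positivity) (h3 p hp'))))) (ContinuousOn.pow (h1.sub
    (ContinuousOn.div (ContinuousOn.inner (by fun_prop) h2) (by fun_prop)
      fun p hp' => mul_ne_zero (by positivity) (h3 p hp'))) 2)

/-- on an interval of regular times -/
theorem loc (top : TOP) (ind : IND) (hF : Yc F a b Λ G) {c d t₀ : ℝ} (x₀ : E3) (h1 : a < c)
    (h2 : c ≤ d) (h3 : d < b) (h4 : d < t₀) (hr : ∀ t ∈ Icc c d, RegT (trk F) t) :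
    ∃ g : ℝ → ℝ, ContinuousOn g (Icc c d) ∧
      (∀ t ∈ Icc c d, 0 ≤ g t ∧ dsh F x₀ t₀ t = ENNReal.ofReal (g t)) ∧
      ∫ t in c..d, g t ≤ gs (F.μ c) x₀ √(t₀ - c) - gs (F.μ d) x₀ √(t₀ - d) := by
  obtain ⟨F', c', d', e1, e2, e3, e4, hF', hG⟩ := (top.2.2 F a b Λ G hF).2 c d h1 h2 h3 hr
  obtain ⟨R, hR⟩ := ((hF.cpt c d h1 h3).image continuous_snd).isBounded.subset_closedBall_lt 0 0
  let β : ContDiffBump (0 : E3) := ⟨R, 2 * R, hR.1, by linarith [hR.1]⟩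
  have hβ : Continuous β := β.continuous
  have hβc : HasCompactSupport β := β.hasCompactSupport
  have h01 : ∀ x, 0 ≤ β x ∧ β x ≤ 1 := fun x => ⟨β.nonneg, β.le_one⟩
  have e5 : d < min d' t₀ := lt_min e3 h4
  have hF2 := hF'.mono le_rfl (min_le_left d' t₀)
  have hc := dis_cont' hF2.toOk hβ x₀ (min_le_right d' t₀)
  have sub : Icc c d ⊆ Ioo c' (min d' t₀) := fun t ht => ⟨e2.trans_le ht.1, ht.2.trans_lt e5⟩
  have sub' : Icc c d ⊆ Ioo c' d' := fun t ht => ⟨e2.trans_le ht.1, ht.2.trans_lt e3⟩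
  have mu : ∀ t ∈ Icc c d, F'.μ t = F.μ t := fun t ht => by
    rw [Flw.μ, Flw.μ, Srf.μ, Srf.μ, (hG t (sub' ht)).2]
  refine ⟨fun t => ∫ x, Pt.dis F' β x₀ t₀ t x ∂F'.μ t, (cnt' F' c' _
    (fun p => Pt.dis F' β x₀ t₀ p.1 p.2) (tsupport β) hF2.toOk hc hβc
    fun t x hx => by simp [Pt.dis, image_eq_zero_of_notMem_tsupport hx]).mono sub,
    fun t ht => ?_, ?_⟩
  · have n0 := dis_nonneg (F := F') (fun x => (h01 x).1) x₀ (ht.2.trans_lt h4)
    refine ⟨integral_nonneg n0, ?_⟩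
    have := (hF'.ar t (sub' ht)).fin
    have k1 : Continuous (Pt.dis F' β x₀ t₀ t) :=
      hc.comp_continuous (f := fun x => (t, x)) (by fun_prop) fun x => ⟨sub ht, trivial⟩
    have k2 : Integrable (Pt.dis F' β x₀ t₀ t) (F'.μ t) :=
      k1.integrable_of_hasCompactSupport (hβc.mul_right.mul_right)
    have o1 := hF'.toOk.sl (sub' ht)
    have o2 := (hF.ok t ⟨h1.trans_le ht.1, ht.2.trans_lt h3⟩ (hr t ht)).1
    rw [ofReal_integral_eq_lintegral_ofReal k2 (Eventually.of_forall n0), dsh, ← mu t ht]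
    refine lintegral_congr_ae (o1.ae.mono fun x hx => ?_)
    have k3 := (((ind _ _ o1 o2).1 (hG t (sub' ht)).2).2.2.2.2 x hx).2.2 (x - x₀) (2 * (t₀ - t))
    have k4 : x ∈ trk F t := by
      rw [trk, ← (hG t (sub' ht)).2]; exact hx
    have k5 : β x = 1 := β.one_of_mem_closedBall (hR.2 ⟨(t, x), ⟨ht, k4⟩, rfl⟩)
    dsimp only
    rw [Pt.dis, k5, one_mul]
    exact congrArg (fun r => ENNReal.ofReal (hk x₀ t₀ t x * r)) k3.symm
  · have := hui' F' c' d' t₀ c d Λ x₀ β hF'.toOk e2 h2 e3 h4 (grow hF' e2 e3 x₀) hβ hβc h01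
    rw [mu c ⟨le_rfl, h2⟩, mu d ⟨h2, le_rfl⟩] at this
    unfold Pt.dis
    linarith

theorem one (top : TOP) (ind : IND) (stj : STJ) (hF : Ym F a b Λ G) {s₁ s₂ t₀ : ℝ} (x₀ : E3)
    (h1 : a < s₁) (h2 : s₁ ≤ s₂) (h3 : s₂ < b) (h4 : s₂ < t₀) :
    ∫⁻ t in Icc s₁ s₂, dsh F x₀ t₀ t ≤
      ENNReal.ofReal (gs (F.μ s₁) x₀ √(t₀ - s₁) - gs (F.μ s₂) x₀ √(t₀ - s₂)) := by
  refine stj (dsh F x₀ t₀) (fun t => gs (F.μ t) x₀ √(t₀ - t)) {t | t ∈ Ioo a b ∧ RegT (trk F) t}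
    s₁ s₂ h2 (top.2.1 (trk F) a b hF.cpt).2.2.2.1
    ((top.2.2 F a b Λ G hF.toYc).1.mono fun t h ht => ?_) (fun s hs t ht h => ?_)
    fun c d e1 e2 e3 e4 => ?_
  · have : t ∈ Ioo a b := ⟨h1.trans_le ht.1, ht.2.trans_lt h3⟩
    exact ⟨this, h this⟩
  · exact hF.mono s t t₀ x₀ (h1.trans_le hs.1) h (ht.2.trans_lt h3) (ht.2.trans_lt h4)
  · obtain ⟨g, g1, g2, g3⟩ := loc top ind hF.toYc x₀ (h1.trans_le e1) e2 (e3.trans_lt h3)
      (e3.trans_lt h4) fun t ht => (e4 ht).2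
    rw [setLIntegral_congr_fun measurableSet_Icc fun t ht => (g2 t ht).2,
      ← ofReal_integral_eq_lintegral_ofReal g1.integrableOn_Icc
        ((ae_restrict_mem measurableSet_Icc).mono fun t ht => (g2 t ht).1),
      integral_Icc_eq_integral_Ioc, ← intervalIntegral.integral_of_le e2]
    exact ENNReal.ofReal_le_ofReal g3

theorem cont (top : TOP) (ind : IND) (hF : Yc F a b Λ G) {t t₀ : ℝ} (x₀ : E3) (ht : t ∈ Ioo a b)
    (hr : RegT (trk F) t) (h : t < t₀) : ContinuousAt (dsh F x₀ t₀) t := by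
  have h1 := (top.2.1 (trk F) a b hF.cpt).2.2.2.1.mem_nhds (show t ∈ {t | _ ∧ _} from ⟨ht, hr⟩)
  obtain ⟨c, d, h2, h3, h4⟩ := exists_Icc_mem_subset_of_mem_nhds (inter_mem h1 (gt_mem_nhds h))
  have e := h2.1.trans h2.2
  obtain ⟨g, g1, g2, -⟩ := loc top ind hF x₀ (h4 ⟨le_rfl, e⟩).1.1.1 e (h4 ⟨e, le_rfl⟩).1.1.2
    (h4 ⟨e, le_rfl⟩).2 fun t ht => (h4 ht).1.2
  exact (ENNReal.continuous_ofReal.continuousAt.comp (g1.continuousAt h3)).congr
    (eventually_of_mem h3 fun s hs => (g2 s hs).2.symm)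

end Huz

open Huz in
/-- **HUZ** -/
theorem huz (top : TOP) (ind : IND) (stj : STJ) : HUZ := by
  refine ⟨fun F a b Λ G t₀ s₁ s₂ x₀ hF => one top ind stj hF x₀,
    fun F a b Λ G s₁ s₂ D n p hF h1 h2 h3 hp hD => ?_⟩
  by_contra! H
  set V := Ioo s₁ s₂ ∩ {t | t ∈ Ioo a b ∧ RegT (trk F) t} with hV
  have hO : IsOpen V := isOpen_Ioo.inter (top.2.1 (trk F) a b hF.cpt).2.2.2.1
  have hl := sub_pos.2 h2
  have v1 : volume V = ENNReal.ofReal (s₂ - s₁) := by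
    rw [← Real.volume_Ioo]
    refine measure_congr ((top.2.2 F a b Λ G hF.toYc).1.mono fun t h => ?_)
    refine propext ⟨fun k => k.1, fun k => ⟨k, ?_⟩⟩
    have : t ∈ Ioo a b := ⟨h1.trans k.1, k.2.trans h3⟩
    exact ⟨this, h this⟩
  have m : ∀ j, AEMeasurable (dsh F (p j).2 (p j).1) (volume.restrict V) := fun j =>
    ContinuousOn.aemeasurable (fun t ht => (cont top ind hF.toYc _ ht.2.1 ht.2.2
      (ht.1.2.trans (hp j).1)).continuousWithinAt) hO.measurableSet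
  have b1 : ∀ j, ∫⁻ t in V, dsh F (p j).2 (p j).1 t ≤ ENNReal.ofReal D := fun j =>
    ((lintegral_mono_set (inter_subset_left.trans Ioo_subset_Icc_self)).trans
      (one top ind stj hF _ h1 h2.le h3 (hp j).1)).trans (ENNReal.ofReal_le_ofReal (hp j).2)
  have b2 : ∫⁻ _ in V, ENNReal.ofReal ((n + 1) * D / (s₂ - s₁)) ≤
      ∫⁻ t in V, ∑ j, dsh F (p j).2 (p j).1 t := by
    refine setLIntegral_mono' hO.measurableSet fun t ht => ?_
    obtain ⟨j, hj⟩ := H t ht.1 ht.2.2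
    exact hj.le.trans (Finset.single_le_sum (f := fun j => dsh F (p j).2 (p j).1 t)
      (fun _ _ => zero_le) (Finset.mem_univ j))
  rw [lintegral_finsetSum' _ fun j _ => m j, setLIntegral_const, v1,
    ← ENNReal.ofReal_mul (by positivity), div_mul_cancel₀ _ hl.ne'] at b2
  have b3 := b2.trans (Finset.sum_le_sum fun j _ => b1 j)
  rw [Finset.sum_const, Finset.card_univ, Fintype.card_fin, nsmul_eq_mul, ← ENNReal.ofReal_natCast,
    ← ENNReal.ofReal_mul (by positivity), ENNReal.ofReal_le_ofReal_iff (by positivity)] at b3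
  linarith

end Vale.Agent.P218Y
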