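import Vale.Agent.P218Z.Ld
import Vale.Agent.P218Y.Defs
import Vale.Agent.P218R.Sml
import Vale.Agent.P218R.Base

/-!
# P218Y (port of P218Z): the lower density bound and the monotonicity of Gaussian ratios for weak flows
-/

open MeasureTheory Set Filter Topology Metric
open scoped ENNReal NNReal RealInnerProductSpace ContDiff
open Vale.Agent.P218.H552
open Vale.Agent.P366.Stmt (E)
open Vale.Agent.P366W (Fr adj)
open Vale.Agent.P218R Vale.Agent.P218R.Gs
open Vale.Agent.P218Z

noncomputable section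

namespace Vale.Agent.P218Y

theorem Yc.fin {F : Flw} {a b Λ G t : ℝ} (h : Yc F a b Λ G) (ht : t ∈ Ioo a b) :
    IsFiniteMeasure (F.μ t) := fin_of (cpt_sl (h.cpt t t ht.1 ht.2)) (h.ar t ht)

/-- row LDZ -/
theorem ldz : LDZ := fun F a b Λ G h mono dense => ⟨h, mono, fun s t y h1 h2 h3 hy => by
  have := h.fin ⟨h1, h2.trans h3⟩
  refine ld_cl h2 (((mem_closure_iff_frequently.1 (dense s ⟨h1.trans h2, h3⟩ y hy)).and_eventually
    (continuous_fst.continuousAt.eventually (gt_mem_nhds h3))).mono fun q hq h4 => ?_)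
  have m : q.1 ∈ Ioo a b := ⟨h1.trans h4, hq.2⟩
  have := h.fin m
  exact ld_reg (κ := F.μ q.1) h4 (fun t₀ h5 => mono t q.1 t₀ _ h1 h4.le hq.2 h5)
    (cpt_sl (h.cpt _ _ m.1 m.2)).measurableSet le_rfl hq.1.1 hq.1.2⟩

end Vale.Agent.P218Y
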