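import Vale.Agent.P218Y.Defs
import Vale.Agent.P218R.WPt
import Vale.Agent.P218R.Gsl

/-!
# P218Y (port of P218Z), row PTZ: ancestors, and the use of two centres (helper80)
-/

set_option linter.all false

open MeasureTheory Metric Filter Topology Set
open scoped ContDiff ENNReal RealInnerProductSpace
open Vale.Agent.P218R Vale.Agent.P218R.Pt
open Vale.Agent.P218Z

noncomputable section

namespace Vale.Agent.P218Y

namespace Ptz

variable {F : Flw} {Λ : ℝ}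

theorem low {s t ρ δ η M K N r : ℝ} {y y₁ y₂ : E3} (hS : (F.sl t).Ok) (hA : AR Λ (F.μ t))
    (hρ : 0 < ρ) (hδ : 0 < δ) (hη : 0 < η) (hM : 0 < M) (h1 : (δ * ρ) ^ 2 ≤ s - t)
    (h2 : s - t ≤ M * ρ ^ 2) (hn₁ : ‖y₁ - y‖ ≤ K * ρ) (hn₂ : ‖y₂ - y‖ ≤ K * ρ) (hr : r ≤ N * ρ)
    (h : ∀ x, F.u (t, x) = 0 → ‖x - y‖ ≤ N * ρ → η * ρ < |⟪y₁ - y₂, F.n (t, x)⟫|) :
    ENNReal.ofReal ((F.μ t).real (closedBall y r) * ((4 * Real.pi * M)⁻¹ *
      Real.exp (-((K + N) ^ 2 / (4 * δ ^ 2))) / ρ ^ 2 * (η ^ 2 / (8 * M ^ 2 * ρ ^ 2)))) ≤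
      dsh F y₁ s t + dsh F y₂ s t := by
  have := hA.fin
  have st : 0 < s - t := lt_of_lt_of_le (by positivity) h1
  have hp := Real.pi_pos
  have n3 : ∀ x z : E3, ‖x - y‖ ≤ N * ρ → ‖z - y‖ ≤ K * ρ → (4 * Real.pi * M)⁻¹ *
      Real.exp (-((K + N) ^ 2 / (4 * δ ^ 2))) / ρ ^ 2 ≤ hk z s t x := fun x z hx hz => by
    refine hk_ge hρ hδ h1 h2 ?_
    have h3 := norm_sub_le_norm_sub_add_norm_sub x y z
    rw [norm_sub_rev y z] at h3
    linarith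
  have hk0 : 0 ≤ (4 * Real.pi * M)⁻¹ * Real.exp (-((K + N) ^ 2 / (4 * δ ^ 2))) / ρ ^ 2 := by
    positivity
  generalize (4 * Real.pi * M)⁻¹ * Real.exp (-((K + N) ^ 2 / (4 * δ ^ 2))) / ρ ^ 2 = k at n3 hk0 ⊢
  have c1 : Continuous (F.sl t).H := hS.sH.continuous
  have c2 : Continuous fun x => F.n (t, x) := hS.sn.continuous
  have m : Continuous fun x => hk y₁ s t x *
      ((F.sl t).H x - ⟪x - y₁, F.n (t, x)⟫ / (2 * (s - t))) ^ 2 := by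
    unfold hk
    fun_prop
  rw [dsh, dsh, ← lintegral_add_left m.measurable.ennreal_ofReal, mul_comm,
    ENNReal.ofReal_mul (by positivity), Measure.real,
    ENNReal.ofReal_toReal (isCompact_closedBall _ _).measure_lt_top.ne,
    ← lintegral_indicator_const measurableSet_closedBall]
  refine lintegral_mono_ae (hS.ae.mono fun x hx => ?_)
  by_cases hz : x ∈ closedBall y r
  · have n1 : ‖x - y‖ ≤ N * ρ := (mem_closedBall_iff_norm.1 hz).trans hr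
    have n4 := h x hx n1
    have n5 : ⟪y₁ - y₂, F.n (t, x)⟫ = ⟪x - y₂, F.n (t, x)⟫ - ⟪x - y₁, F.n (t, x)⟫ := by
      rw [← inner_sub_left, sub_sub_sub_cancel_left]
    rw [n5] at n4
    rw [indicator_of_mem hz]
    exact (ENNReal.ofReal_le_ofReal (two_ge st hρ hη h2 n4 hk0 (n3 _ _ n1 hn₁)
      (n3 _ _ n1 hn₂))).trans ENNReal.ofReal_add_le
  · rw [indicator_of_notMem hz]
    exact zero_le

end Ptz

/-- **row PTZ** -/
theorem ptz (huz : HUZ) : PTZ := by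
  intro Λ
  obtain ⟨R, hR, hT⟩ := tail gsl Λ
  have hp := Real.pi_pos
  have mass : ∀ (F : Flw) (a b G s t : ℝ) (y : E3), Ym F a b Λ G → a < t → t < s → s < b →
      F.u (s, y) = 0 → 2 * Real.pi * (s - t) ≤ (F.μ t).real (closedBall y (R * √(s - t))) :=
    fun F a b G s t y hF h1 h2 h3 h4 => by
      have h5 := hT _ (hF.ar t ⟨h1, h2.trans h3⟩) y _ (Real.sqrt_pos.2 (sub_pos.2 h2))
        (hF.ld s t y h1 h2 h3 h4)
      rwa [Real.sq_sqrt (sub_pos.2 h2).le] at h5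
  refine ⟨R, hR, fun F a b G s t y hF h1 h2 h3 h4 => ?_, fun K δ η hδ hη => ?_⟩
  · have h5 := mass F a b G s t y hF h1 h2 h3 h4
    have h6 : F.μ t (closedBall y (R * √(s - t))) ≠ 0 := fun h => by
      rw [Measure.real, h, ENNReal.toReal_zero] at h5
      have := sub_pos.2 h2
      exact absurd h5 (not_le.2 (by positivity))
    rw [Flw.μ, Srf.μ, Measure.restrict_apply measurableSet_closedBall] at h6
    obtain ⟨z, h7, h8⟩ := nonempty_of_measure_ne_zero h6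
    exact ⟨h5, z, h8, mem_closedBall_iff_norm.1 h7⟩
  obtain ⟨M, hM⟩ : ∃ M, M = K ^ 2 + 2 * δ ^ 2 := ⟨_, rfl⟩
  have hM0 : 0 < M := by rw [hM]; positivity
  obtain ⟨k, hk⟩ : ∃ k, k = (4 * Real.pi * M)⁻¹ *
    Real.exp (-((K + 2 * R * δ) ^ 2 / (4 * δ ^ 2))) := ⟨_, rfl⟩
  have hk0 : 0 < k := by rw [hk]; positivity
  obtain ⟨c, hc⟩ : ∃ c, c = 2 * Real.pi * δ ^ 2 * (k * (η ^ 2 / (8 * M ^ 2))) := ⟨_, rfl⟩
  have hc0 : 0 < c := by rw [hc]; positivity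
  refine ⟨c * δ ^ 2 / 12, by positivity, ?_⟩
  intro F a b G s s' t₀ ρ y₁ y₂ y hF hρ h0 h1 h2 h3 h4 hy₁ hy₂ hy hn₁ hn₂ hg₁ hg₂
  have hd : 0 < (δ * ρ) ^ 2 := by positivity
  have h12 : s' - 2 * (δ * ρ) ^ 2 < s' - (δ * ρ) ^ 2 := by linarith
  have h5 : s' - (δ * ρ) ^ 2 < s := by linarith
  have sm : ∀ z, F.u (s, z) = 0 → gs (F.μ t₀) z √(s - t₀) ≤ 1 + c * δ ^ 2 / 12 →
      gs (F.μ (s' - 2 * (δ * ρ) ^ 2)) z √(s - (s' - 2 * (δ * ρ) ^ 2)) -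
        gs (F.μ (s' - (δ * ρ) ^ 2)) z √(s - (s' - (δ * ρ) ^ 2)) ≤ c * δ ^ 2 / 12 :=
    fun z hz hg => by
      have e1 := hF.mono t₀ _ s z h0 h1 ((h12.trans h5).trans h4) (h12.trans h5)
      have e2 := hF.ld s _ z ((h0.trans_le h1).trans h12) h5 h4 hz
      linarith
  obtain ⟨t, ht, hreg, hd2⟩ := huz.2 F a b Λ G _ _ (c * δ ^ 2 / 12) 2 ![(s, y₁), (s, y₂)] hF
    (h0.trans_le h1) h12 (h5.trans h4)
    (Fin.forall_fin_two.2 ⟨⟨h5, sm y₁ hy₁ hg₁⟩, ⟨h5, sm y₂ hy₂ hg₂⟩⟩) (by positivity)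
  refine ⟨t, ht, hreg, ?_⟩
  by_contra hcon
  push Not at hcon
  have ht' : t ∈ Ioo a b := ⟨(h0.trans_le h1).trans ht.1, (ht.2.trans h5).trans h4⟩
  have m1 := mass F a b G s' t y hF ht'.1 (by linarith [ht.2]) (h2.trans_lt h4) hy
  have m2 : R * √(s' - t) ≤ 2 * R * δ * ρ := by
    have h6 : √(s' - t) ≤ 2 * (δ * ρ) :=
      Real.sqrt_le_iff.2 ⟨by positivity, by linarith [ht.1]⟩
    linarith [mul_le_mul_of_nonneg_left h6 (zero_le_one.trans hR)]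
  have m3 : 2 * Real.pi * (δ * ρ) ^ 2 ≤ (F.μ t).real (closedBall y (R * √(s' - t))) :=
    le_trans (by gcongr; linarith [ht.2]) m1
  have m4 : s - t ≤ M * ρ ^ 2 := by rw [hM]; linarith [ht.1]
  have m5 := Ptz.low (hF.ok t ht' hreg).1 (hF.ar t ht') hρ hδ hη hM0 (by linarith [ht.2]) m4 hn₁
    hn₂ (r := R * √(s' - t)) (N := 2 * R * δ) m2 hcon
  have e : (((2 : ℕ) : ℝ) + 1) * (c * δ ^ 2 / 12) /
      (s' - (δ * ρ) ^ 2 - (s' - 2 * (δ * ρ) ^ 2)) = c / ρ ^ 2 / 4 := by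
    rw [show s' - (δ * ρ) ^ 2 - (s' - 2 * (δ * ρ) ^ 2) = (δ * ρ) ^ 2 by ring]
    field_simp
    norm_num
  rw [e] at hd2
  have q : 0 < c / ρ ^ 2 := by positivity
  have m6 := m5.trans (add_le_add (hd2 0) (hd2 1))
  rw [← hk, ← ENNReal.ofReal_add (by positivity) (by positivity),
    ENNReal.ofReal_le_ofReal_iff (by positivity)] at m6
  have m7 : c / ρ ^ 2 = 2 * Real.pi * (δ * ρ) ^ 2 * (k / ρ ^ 2 * (η ^ 2 / (8 * M ^ 2 * ρ ^ 2))) := by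
    rw [hc]
    field_simp
  have m8 := mul_le_mul_of_nonneg_right m3
    (show 0 ≤ k / ρ ^ 2 * (η ^ 2 / (8 * M ^ 2 * ρ ^ 2)) by positivity)
  linarith

end Vale.Agent.P218Y
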