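import Vale.Agent.P218Y.Defs
import Vale.Agent.P218Z.Rsz

/-!
# P218Y (port of P218Z), row RSZ: rescaling
-/

open MeasureTheory Metric Filter Topology Set
open scoped ContDiff ENNReal RealInnerProductSpace
open Vale.Agent.P366W (dvg)
open Vale.Agent.P218R
open Vale.Agent.P218Z

noncomputable section

namespace Vale.Agent.P218Y

namespace Rsz

variable {M : ℝ → Set E3} {F : Flw} {x₀ y : E3} {t₀ l s a b Λ G : ℝ}

open P218Z.Rsz

theorem zc (hl : 0 < l) (h : Yc F a b Λ G) :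
    Yc (F.rs x₀ t₀ l) (l ^ 2 * (a - t₀)) (l ^ 2 * (b - t₀)) Λ G := by
  have l2 := pow_pos hl 2
  refine ⟨fun c d hc hd => ?_, ?_, fun s hs hr => ?_,
    fun s hs => AR.sc (S := F.sl _) (h.ar _ ((rs_mem hl).1 hs)) x₀ hl⟩
  · convert (((Homeomorph.mulRight₀ _ (inv_ne_zero l2.ne')).trans (Homeomorph.addLeft t₀)).prodCongr
      (scE x₀ hl).symm).isCompact_preimage.2 (h.cpt _ _ (lo hl hc) (hi hl hd)) using 1
    exact Set.ext fun p => and_congr (and_congr (le hl).symm (le hl).symm) Iff.rfl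
  · have q : Measure.QuasiMeasurePreserving (fun s : ℝ => t₀ + s / l ^ 2) volume volume :=
      (measurePreserving_add_left volume t₀).quasiMeasurePreserving.comp
        ⟨by fun_prop, by
          simp only [div_eq_mul_inv]
          rw [Real.map_volume_mul_right (inv_ne_zero l2.ne')]
          exact Measure.smul_absolutelyContinuous⟩
    exact (q.ae h.ae).mono fun s h1 hs => (regT hl).2 (h1 ((rs_mem hl).1 hs))
  · have := h.ok _ ((rs_mem hl).1 hs) ((regT hl).1 hr)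
    exact ⟨this.1.sc x₀ hl, this.2.sc x₀ hl⟩

theorem zm (hl : 0 < l) (h : Ym F a b Λ G) :
    Ym (F.rs x₀ t₀ l) (l ^ 2 * (a - t₀)) (l ^ 2 * (b - t₀)) Λ G :=
  ⟨zc hl h.toYc, fun s₁ s₂ t x h1 h2 h3 h4 => by
    rw [gs_rs hl, gs_rs hl]
    exact h.mono _ _ _ _ (lo hl h1) ((le hl).2 h2) (hi hl h3) (lt hl h4),
  fun s t y h1 h2 h3 h4 => by
    rw [gs_rs hl]
    exact h.ld _ _ _ (lo hl h1) (lt hl h2) (hi hl h3) h4⟩

end Rsz

theorem rsz : RSZ := fun F _ _ _ _ _ _ _ hl =>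
  ⟨fun _ _ => P218Z.Rsz.reg_iff (M := trk F) hl, fun _ => P218Z.Rsz.regT (M := trk F) hl, Rsz.zc hl, Rsz.zm hl,
    fun _ h => ⟨Rsz.zm hl h.toYm, fun s t y h1 h2 h3 h4 => by
      rw [P218Z.Rsz.gs_rs hl]
      exact h.gap _ _ _ (P218Z.Rsz.lo hl h1) (P218Z.Rsz.lt hl h2) (P218Z.Rsz.hi hl h3)
        (P218Z.Rsz.sing (M := trk F) hl h4)⟩⟩

end Vale.Agent.P218Y
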