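import Vale.Agent.P218Y.Defs

/-!
# P218Y (port of P218Z): White's theorem for the class with the density gap
-/

open MeasureTheory Metric Filter Topology Set
open scoped ContDiff ENNReal RealInnerProductSpace
open Vale.Agent.P218R Vale.Agent.P218E
open Vale.Agent.P218Z

noncomputable section

namespace Vale.Agent.P218Y

theorem whz (top : TOP) (ind : IND) (orl : ORL) (ptz : PTZ) (whl : WHL) : WHZ := fun Λ => by
  obtain ⟨R, R1, anc, two⟩ := ptz Λ
  obtain ⟨K, δ, η, d0, η0, whl⟩ := whl R R1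
  obtain ⟨ε₁, e1, two⟩ := two K δ η d0 η0
  refine ⟨ε₁, e1, fun σ s0 => ?_⟩
  obtain ⟨c, c0, c1, C, C0, C1, whl⟩ := whl σ s0
  refine ⟨c, c0, C, C0, C1, fun F a b G ε θ t r x hF h1 h2 hr ha hb hd s hs rs y hy y0 => ?_⟩
  have r2 : 0 < r ^ 2 := by positivity
  have dom : ∀ s ∈ Ioo (t - 3 * r ^ 2) t, s ∈ Ioo a b := fun s h =>
    ⟨by linarith [h.1], h.2.trans_le hb⟩
  have den : ∀ s ∈ Ioo (t - 3 * r ^ 2) t, ∀ y ∈ ball x (2 * (2 * r)),
      gs (F.μ (t - 4 * r ^ 2)) y √(s - (t - 4 * r ^ 2)) ≤ 1 + θ := fun s h y hy =>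
    hd y (by rwa [show 4 * r = 2 * (2 * r) by ring]) _ ⟨Real.le_sqrt_of_sq_le (by linarith [h.1]),
      Real.sqrt_le_iff.2 ⟨by positivity, by linarith [h.2]⟩⟩
  obtain ⟨F', hF', hz⟩ := orl (trk F) (t - 3 * r ^ 2) t (2 * r) x (by linarith) (by positivity)
    (fun s h y _ => (top.2.1 _ a b hF.cpt).2.1 s (dom s h) y) fun s h y hy hm => by_contra fun hn => by
      linarith [hF.gap s _ y ha (by linarith [h.1]) (dom s h).2 ⟨hm, hn⟩, den s h y hy]
  have sub : ball x (2 * r) ⊆ ball x (2 * (2 * r)) := ball_subset_ball (by linarith)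
  have hs' : s ∈ Ioo (t - 3 * r ^ 2) t := ⟨by linarith [hs.1], hs.2⟩
  have hy' : y ∈ ball x (2 * r) := ball_subset_ball (by linarith) hy
  obtain ⟨L, hL, hR⟩ := whl F' t r x hr hF' (fun s s' y h3 h4 h5 h6 h7 => by
      have m : s ∈ Ioo (t - 3 * r ^ 2) t := ⟨h3.trans h4, h5⟩
      have m' : s' ∈ Ioo (t - 3 * r ^ 2) t := ⟨h3, h4.trans h5⟩
      obtain ⟨z, z0, z1⟩ := (anc F a b G s s' y hF.toYm (dom _ m').1 h4 (dom _ m).2
        ((hz s m y (h7 (mem_closedBall_self (by positivity)))).1 h6)).2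
      exact ⟨z, (hz s' m' z (h7 (mem_closedBall_iff_norm.2 z1))).2 z0, z1⟩)
    (fun s s' ρ y₁ y₂ y ρ0 h3 h4 h5 h6 u1 u2 u3 n1 n2 b1 b2 b3 => by
      have q : 0 < (δ * ρ) ^ 2 := by positivity
      have m : s ∈ Ioo (t - 3 * r ^ 2) t := ⟨by linarith, h6⟩
      have m' : s' ∈ Ioo (t - 3 * r ^ 2) t := ⟨by linarith, h4.trans_lt h6⟩
      obtain ⟨t', t1, t2, z, z0, z1, z2⟩ := two F a b G s s' (t - 4 * r ^ 2) ρ y₁ y₂ y hF.toYm ρ0 ha
        (by linarith) h4 h5 (dom _ m).2 ((hz s m _ b1).1 u1) ((hz s m _ b2).1 u2)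
        ((hz s' m' _ (b3 (mem_closedBall_self (by positivity)))).1 u3) n1 n2
        ((den s m _ (sub b1)).trans (by linarith)) ((den s m _ (sub b2)).trans (by linarith))
      have m2 : t' ∈ Ioo (t - 3 * r ^ 2) t := ⟨by linarith [t1.1], by linarith [t1.2]⟩
      have zb := b3 (mem_closedBall_iff_norm.2 z1)
      refine ⟨t', t1, z, (hz t' m2 z zb).2 z0, z1, ?_⟩
      rcases (hF.ok t' (dom _ m2) t2).1.same_n (x := z) z0 (hF'.toPre.sl m2)
        ((isOpen_ball.eventually_mem zb).mono fun w hw => (hz t' m2 w hw).symm) with e | e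
      · exact (show F'.n (t', z) = F.n (t', z) from e) ▸ z2
      · rw [show F'.n (t', z) = -F.n (t', z) from e, inner_neg_right, abs_neg]
        exact z2)
    s hs y hy ((hz s hs' y hy').2 y0)
  have cr : 0 < c * r := by positivity
  exact ⟨L, (ind _ _ (hF'.toPre.sl hs') (hF.ok s (dom s hs') rs).1).2 y L (c * r) C cr
    ((hz s hs' y hy').2 y0) (fun z hz' => hz s hs' z (by
      rw [mem_ball] at *
      nlinarith [dist_triangle z y x])) hL (hR s ⟨by nlinarith, le_rfl⟩)⟩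

end Vale.Agent.P218Y
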