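import Vale.Agent.P218Y.Dsw
import Vale.Agent.P218Y.Gap
import Vale.Agent.P218Y.Huz
import Vale.Agent.P218Y.Ld
import Vale.Agent.P218Y.Loz
import Vale.Agent.P218Y.Ptz
import Vale.Agent.P218Y.Rsz
import Vale.Agent.P218Y.Slz
import Vale.Agent.P218Y.Tfy
import Vale.Agent.P218Y.Top
import Vale.Agent.P218Y.Whz
import Vale.Agent.P218Z.All

/-!
# P218Y: the ported rows, without hypotheses
-/

namespace Vale.Agent.P218Y

open P218Z

theorem dsw0 : DSW := dsw' top ind stj

theorem dsz0 : DSZ := dsz dsw0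

theorem slz0 : SLZ := slz dsw0

theorem loz0 : LOZ := loz rsz slz0 (whz top ind orl (ptz (huz top ind stj)) (whl wlz))

theorem tfy0 : TFY := tfy loz0 slz0

end Vale.Agent.P218Y
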