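import Vale.Agent.P218Y.Spec
import Vale.Agent.P218Y.Port

/-!
# P218Y: multiplicity one almost everywhere, for limits of shrinkers
-/

set_option linter.all false

open MeasureTheory Metric Filter Topology Set
open scoped ContDiff ENNReal RealInnerProductSpace
open Vale.Agent.P218 (limitSet WeakTendsto Slow)
open Vale.Agent.P218R Vale.Agent.P218E Vale.Agent.P218Z

noncomputable section

namespace Vale.Agent.P218Y

theorem das_int {S : Srf} {Λ G : ℝ} (h : Shr S Λ G) (s : Set E3) :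
    ∫ x in s, S.φ x ^ 2 ∂S.μ = 0 := by
  refine integral_eq_zero_of_ae ((h.ok.ae_set s).mono fun x hx => ?_)
  simp [h.eq x hx]

theorem das_seq {S : ℕ → Srf} {Λ G : ℝ} {κ : Measure E3} (h : SSq S Λ G κ) :
    GSeq S (max Λ 1) κ := by
  have h0 : 0 < max Λ 1 := one_pos.trans_le (le_max_right _ _)
  have hA : ∀ j, AR (max Λ 1) (S j).μ := fun j => (h.shr j).ar.mono (le_max_left _ _)
  refine ⟨h0, h.lf, Eventually.of_forall fun j => ⟨(h.shr j).ok, hA j⟩, fun R => ?_,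
    fun R => ?_, h.wk⟩
  · rcases le_or_gt R 0 with hR | hR
    · exact ⟨0, Eventually.of_forall fun j => by simp [ball_eq_empty.2 hR]⟩
    · exact ⟨_, Eventually.of_forall fun j => Nop.energy (h.shr j).ok h0.le (hA j) (h.shr j).gb hR
        ((das_int (h.shr j) _).trans_le zero_le_one)⟩
  · simp only [das_int (h.shr _)]
    exact tendsto_const_nhds

theorem das (dpu : DPU) : DAS := by
  intro S Λ G κ h
  have hG := das_seq h
  have hlf := h.lf
  refine ⟨hG, fun ε hε => ?_⟩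
  obtain ⟨-, -, hN3, hN4, -⟩ := nop
  set K : ℕ → Set E3 := fun n => {z | ‖z‖ ≤ n ∧ ∀ r : ℝ, 0 < r → r ≤ 1 / (n + 1) →
    ENNReal.ofReal ((1 + ε / 2) * Real.pi * r ^ 2) < κ (ball z r)} with hK
  refine measure_mono_null (t := ⋃ n, K n) (fun p hp => ?_) (measure_iUnion_null fun n => ?_)
  · obtain ⟨δ, hδ, h⟩ := (nhdsGT_basis (0 : ℝ)).eventually_iff.1 (ball0 _ _ ε κ p hG hε hp).1
    obtain ⟨n, h1, h2⟩ := ((tendsto_natCast_atTop_atTop (R := ℝ)).eventually_ge_atTop ‖p‖ |>.and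
      (tendsto_one_div_add_atTop_nhds_zero_nat.eventually_lt_const hδ)).exists
    exact mem_iUnion.2 ⟨n, h1, fun r hr hr' => h ⟨hr, hr'.trans_lt h2⟩⟩
  by_contra hpos
  obtain ⟨m, hm, hmK⟩ : ∃ m > (0 : ℝ), ENNReal.ofReal m ≤ κ (K n) := by
    obtain ⟨x, h1, h2, h3⟩ := ENNReal.lt_iff_exists_real_btwn.1 (pos_iff_ne_zero.2 hpos)
    exact ⟨x, ENNReal.ofReal_pos.1 h2, h3.le⟩
  have hκA : AR (max Λ 1) κ := Gs.ar_lim (hG.ok.mono fun i hi => hi.2) hG.wk
  have hΛ := hG.pos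
  obtain ⟨e₀, he₀, J, hP⟩ := dpu Λ G (ε / 2) (m / (4 * max Λ 1)) n (by positivity) (by positivity)
  set e := min e₀ (1 / (n + 1)) with he
  have he0 : 0 < e := lt_min he₀ (by positivity)
  have h3 : ∀ᶠ i in atTop, ∀ j ∈ Iic J,
      Many (S i).μ n (ε / 2) (m / (4 * max Λ 1)) (e / 10 / 2 ^ j) := by
    refine (eventually_all_finite (finite_Iic J)).2 fun j _ => hN3 _ _ _ _ _ _ h.lf
      (hG.ok.mono fun k hk => hk.2.fin) hG.wk (hN4 κ (K n) _ _ _ _ _ hΛ hκA (by positivity)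
        (fun z hz => hz.1) hmK fun z hz => hz.2 _ (by positivity) ?_)
    refine le_trans ?_ (min_le_right e₀ _)
    refine (div_le_self (by positivity) (one_le_pow₀ one_le_two)).trans ?_
    linarith
  obtain ⟨i, h4⟩ := h3.exists
  obtain ⟨j, hj1, hj2⟩ := hP (S i) e (h.shr i) he0 (min_le_left _ _)
  exact hj2 (h4 j hj1)

end Vale.Agent.P218Y
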