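import Vale.Agent.P218Y.Defs

/-!
# P218Y: the statements of the rows
-/

open MeasureTheory Metric Filter Topology Set
open scoped ContDiff ENNReal RealInnerProductSpace
open Vale.Agent.P366W (trc dvg Fr)
open Vale.Agent.P218 (limitSet WeakTendsto Slow IsIntegralBrakkeFlow IsTangentFlow)
open Vale.Agent.P218.H552 (NN ext)
open Vale.Agent.P218R Vale.Agent.P218E Vale.Agent.P218Z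

noncomputable section

namespace Vale.Agent.P218Y

/-- the Gaussian density at the space-time point `p` -/
def Th (F : Flw) (a : ℝ) (p : ℝ × E3) : ℝ :=
  sInf ((fun s => gs (F.μ s) p.2 √(p.1 - s)) '' Ioo a p.1)

/-- all tangent flows at `p` are smooth shrinkers of multiplicity one -/
def Gd (F : Flw) (Λ G : ℝ) (p : ℝ × E3) : Prop :=
  ∀ κ ∈ limitSet (NN 2 F.μ p.2 p.1), ∃ S, Shr S Λ G ∧ κ = S.μ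

/-- the Gaussian ratios of the self-similar flow of `κ` about `(θ, z)` are at least `c` -/
def Cen (κ : Measure E3) (θ : ℝ) (z : E3) (c : ℝ) : Prop :=
  ∀ s < (0 : ℝ), s < θ → c ≤ gs (ext 2 κ s) z √(θ - s)

/-! ### densities below two -/

/-- **SWM**: the sharp monotonicity formula with a weight -/
def SWM : Prop := ∀ (S : Srf) (Λ ρ : ℝ) (u : E3 → ℝ) (p : E3), S.Ok → AR Λ S.μ → ContDiff ℝ 1 u →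
  HasCompactSupport u → (∀ z, 0 ≤ u z) → S.w p = 0 → (∀ᶠ z in 𝓝 p, u z = 1) → 0 < ρ →
  1 ≤ (4 * Real.pi * ρ ^ 2)⁻¹ * ∫ z, u z * Real.exp (-‖z - p‖ ^ 2 / (4 * ρ ^ 2)) ∂S.μ +
    (8 * Real.pi)⁻¹ * ∫ z, u z * S.H z ^ 2 ∂S.μ +
    (2 * Real.pi)⁻¹ * ∫ z, ‖S.tg u z‖ * Real.exp (-‖z - p‖ ^ 2 / (4 * ρ ^ 2)) / ‖z - p‖ ∂S.μ

/-- **TWO**: a pair at a point with small tilt and small mean curvature forces a ratio near two -/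
def TWO : Prop := ∀ Λ η : ℝ, 0 < η → ∃ K ≥ (1 : ℝ), ∃ γ > (0 : ℝ), ∀ (S : Srf) (x y : E3), S.Ok →
  AR Λ S.μ → S.w x = 0 → S.w y = 0 → y ≠ x → ‖y - x‖ / 2 ≤ |⟪y - x, S.n x⟫| →
  ∫ z in ball x (K * ‖y - x‖), S.H z ^ 2 ∂S.μ ≤ γ →
  ∫⁻ z in ball x (K * ‖y - x‖), ENNReal.ofReal ((1 - ⟪S.n x, S.n z⟫ ^ 2) ^ 4) ∂S.μ ≤
    ENNReal.ofReal (γ * ‖y - x‖ ^ 2) →
  ∃ ρ, 0 < ρ ∧ ρ ≤ K * ‖y - x‖ ∧ 2 - η < gs S.μ x ρ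

/-- **NP**: few pairs if the Gaussian ratios are below two -/
def NP : Prop := ∀ Λ A₀ R η m : ℝ, 0 < η → 0 < m → ∃ e₀ > (0 : ℝ), ∀ (S : Srf) (e : ℝ), S.Ok →
  AR Λ S.μ → ∫ x in ball (0 : E3) (R + 2), S.A2 x ∂S.μ ≤ A₀ →
  (∀ y ∈ ball (0 : E3) R, ∀ ρ ∈ Ioc (0 : ℝ) 1, gs S.μ y ρ ≤ 2 - η) → e ≤ e₀ →
  S.μ {x ∈ ball (0 : E3) R | Pair S x e} ≤ ENNReal.ofReal m

/-- **DPS**: the pair estimate at one time -/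
def DPS : Prop := ∀ Λ κ m₀ R₀ : ℝ, 0 < κ → 0 < m₀ → ∃ R' > (0 : ℝ), ∃ m' > (0 : ℝ),
  ∃ e₀ > (0 : ℝ), ∃ J : ℕ, ∀ (S : Srf) (e : ℝ), S.Ok → AR Λ S.μ → 0 < e → e ≤ e₀ → dsb S R' ≤ 1 →
    S.μ {x ∈ ball (0 : E3) R' | Pair S x e} ≤ ENNReal.ofReal m' →
    ∃ j ≤ J, ¬ Many S.μ R₀ κ m₀ (e / 10 / 2 ^ j)

/-- **DNY**: multiplicity one everywhere, if the density is below two -/
def DNY : Prop := ∀ (F : Flw) (a b Λ G τ₀ : ℝ) (x₀ : E3) (κ : Measure E3), Ym F a b Λ G →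
  Slow (NN 2 F.μ x₀ b) τ₀ → κ ∈ limitSet (NN 2 F.μ x₀ b) →
  (∃ s ∈ Ioo a b, gs (F.μ s) x₀ √(b - s) < 2) →
  ∀ p, ∀ ε > 0, ∃ᶠ ρ in 𝓝[>] (0 : ℝ), gs κ p ρ ≤ 1 + ε

/-- **TFY**: multiplicity one everywhere gives a smooth tangent flow -/
def TFY : Prop := ∀ (F : Flw) (a b Λ G ε₀ τ₀ : ℝ) (x₀ : E3) (κ : Measure E3), a < b → 0 < ε₀ →
  Yf F a b Λ G ε₀ → Slow (NN 2 F.μ x₀ b) τ₀ → κ ∈ limitSet (NN 2 F.μ x₀ b) →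
  (∀ p, ∀ ε > 0, ∃ᶠ ρ in 𝓝[>] (0 : ℝ), gs κ p ρ ≤ 1 + ε) → ∃ S, Shr S Λ G ∧ κ = S.μ

/-! ### compactness of shrinkers -/

/-- **DPU**: a uniform scale for shrinkers -/
def DPU : Prop := ∀ Λ G κ m₀ R₀ : ℝ, 0 < κ → 0 < m₀ → ∃ e₀ > (0 : ℝ), ∃ J : ℕ,
  ∀ (S : Srf) (e : ℝ), Shr S Λ G → 0 < e → e ≤ e₀ → ∃ j ≤ J, ¬ Many S.μ R₀ κ m₀ (e / 10 / 2 ^ j)

/-- a convergent sequence of shrinkers -/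
structure SSq (S : ℕ → Srf) (Λ G : ℝ) (κ : Measure E3) : Prop where
  shr : ∀ j, Shr (S j) Λ G
  lf : IsLocallyFiniteMeasure κ
  wk : WeakTendsto (fun j => (S j).μ) κ

/-- **DAS**: multiplicity one almost everywhere -/
def DAS : Prop := ∀ (S : ℕ → Srf) (Λ G : ℝ) (κ : Measure E3), SSq S Λ G κ →
  GSeq S (max Λ 1) κ ∧ ∀ ε > (0 : ℝ), κ (Hi κ ε) = 0

/-- **LOS**: White's theorem -/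
def LOS : Prop := ∀ Λ : ℝ, ∃ ε > (0 : ℝ), ∀ σ > (0 : ℝ), ∃ C : ℕ → ℝ, C 0 ≤ σ ∧ C 1 ≤ σ ∧
  ∀ (S : ℕ → Srf) (G : ℝ) (κ : Measure E3) (p : E3), SSq S Λ G κ →
    (∃ᶠ ρ in 𝓝[>] (0 : ℝ), gs κ p ρ ≤ 1 + ε) → ∃ δ > (0 : ℝ), ∃ r > (0 : ℝ), ∀ᶠ j in atTop,
      ∀ y ∈ ball p δ, (S j).w y = 0 → ∃ L, Fr ((S j).n y) L ∧ (S j).Reg y ((S j).n y) L r C

/-- **DNS**: multiplicity one everywhere -/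
def DNS : Prop := ∀ (S : ℕ → Srf) (Λ G : ℝ) (κ : Measure E3), SSq S Λ G κ →
  ∀ p, ∀ ε > 0, ∃ᶠ ρ in 𝓝[>] (0 : ℝ), gs κ p ρ ≤ 1 + ε

/-- **CMC**: the compactness theorem -/
def CMC : Prop := ∀ (S : ℕ → Srf) (Λ G : ℝ), (∀ j, Shr (S j) Λ G) →
  ∃ (ψ : ℕ → ℕ) (T : Srf), StrictMono ψ ∧ Shr T Λ G ∧ WeakTendsto (fun j => (S (ψ j)).μ) T.μ

/-! ### the spine -/

/-- **RG1**: the case of equality in the monotonicity formula -/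
def RG1 : Prop := ∀ (S : Srf) (Λ G θ : ℝ) (z : E3), Shr S Λ G → Cen S.μ θ z (gs S.μ 0 1) →
  ∀ x ∈ S.G, θ * ⟪x, S.n x⟫ = 0 ∧ ⟪z, S.n x⟫ = 0

/-- **RG2**: tangential translations and dilations -/
def RG2 : Prop := (∀ (S : Srf) (z : E3), S.Ok → (∀ x ∈ S.G, ⟪z, S.n x⟫ = 0) →
    ∀ x (t : ℝ), S.w x = 0 → S.w (x + t • z) = 0) ∧
  ∀ S : Srf, S.Ok → (∀ x ∈ S.G, ⟪x, S.n x⟫ = 0) →
    S.G = ∅ ∨ ∃ ν : E3, ‖ν‖ = 1 ∧ S.G = {x | ⟪ν, x⟫ = 0}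

/-- **CYL**: the density of the cylinder -/
def CYL : Prop := ∀ e : E3, ‖e‖ = 1 → gs (H2.restrict {x | rad e x = √2}) 0 1 < 2

/-- **RIG**: the spine of a shrinker -/
def RIG : Prop := ∀ (S : Srf) (Λ G : ℝ), Shr S Λ G → 1 < gs S.μ 0 1 → ∃ e : E3, ‖e‖ = 1 ∧
  ∀ θ z, Cen S.μ θ z (gs S.μ 0 1) → θ = 0 ∧ (∃ c : ℝ, z = c • e) ∧ (2 ≤ gs S.μ 0 1 → z = 0)

/-- **SPN**: the same, with uniform constants -/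
def SPN : Prop := ∀ Λ G ε₀ η : ℝ, 0 < ε₀ → 0 < η → ∃ δ > (0 : ℝ), ∀ S : Srf, Shr S Λ G →
  1 + ε₀ ≤ gs S.μ 0 1 → ∃ e : E3, ‖e‖ = 1 ∧ ∀ θ z, |θ| ≤ 1 → ‖z‖ ≤ 1 →
    Cen S.μ θ z (gs S.μ 0 1 - δ) →
    |θ| < η ^ 2 ∧ (∃ c : ℝ, ‖z - c • e‖ < η) ∧ (2 ≤ gs S.μ 0 1 → ‖z‖ < η)

/-- **THB**: the density -/
def THB : Prop := ∀ (F : Flw) (a b Λ G : ℝ), Ym F a b Λ G →
  (∀ p : ℝ × E3, ∀ s ∈ Ioo a p.1, Th F a p ≤ gs (F.μ s) p.2 √(p.1 - s)) ∧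
  (∀ p : ℝ × E3, p.1 ∈ Ioo a b → ∀ c, Th F a p < c →
    (∀ᶠ s in 𝓝[<] p.1, gs (F.μ s) p.2 √(p.1 - s) < c) ∧ ∀ᶠ q in 𝓝 p, Th F a q < c) ∧
  (∃ C, ∀ p : ℝ × E3, p.1 ∈ Ioo a b → 0 ≤ Th F a p ∧ Th F a p ≤ C) ∧
  ∀ (p : ℝ × E3) (c : ℝ), a < p.1 → (∀ s ∈ Ioo a p.1, c ≤ gs (F.μ s) p.2 √(p.1 - s)) → c ≤ Th F a p

/-- **BLW**: blowing up along a given sequence of scales -/
def BLW : Prop := ∀ (F : Flw) (a b Λ G τ₀ t : ℝ) (x : E3) (r : ℕ → ℝ), Ym F a b Λ G →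
  t ∈ Ioo a b → Slow (NN 2 F.μ x t) τ₀ → (∀ i, 0 < r i) → Tendsto r atTop (𝓝 0) →
  ∃ (ψ : ℕ → ℕ) (κ : Measure E3), StrictMono ψ ∧ κ ∈ limitSet (NN 2 F.μ x t) ∧
    gs κ 0 1 = Th F a (t, x) ∧ ∀ (φ : ℕ → ℕ) (θ : ℕ → ℝ) (z : ℕ → E3) (θ' c : ℝ) (z' : E3),
      Tendsto φ atTop atTop → Tendsto θ atTop (𝓝 θ') → Tendsto z atTop (𝓝 z') →
      (∀ i, c ≤ Th F a (t + θ i * r (ψ (φ i)) ^ 2, x + r (ψ (φ i)) • z i)) → Cen κ θ' z' c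

/-- near `p` the points of `A` with nearly the same value of `Θ` are close to a line -/
def Lin (Θ : ℝ × E3 → ℝ) (η δ : ℝ) (p : ℝ × E3) : Prop := ∃ r₀ > (0 : ℝ), ∀ r ∈ Ioo 0 r₀,
  ∃ e : E3, ‖e‖ = 1 ∧ ∀ q : ℝ × E3, |q.1 - p.1| ≤ r ^ 2 → ‖q.2 - p.2‖ ≤ r → Θ p - δ ≤ Θ q →
    |q.1 - p.1| < (η * r) ^ 2 ∧ (∃ c : ℝ, ‖q.2 - p.2 - c • e‖ < η * r) ∧
      (2 ≤ Θ p → ‖q.2 - p.2‖ < η * r)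

/-- **LCS**: the spine at small scales -/
def LCS : Prop := ∀ Λ G ε₀ η : ℝ, 0 < ε₀ → 0 < η → ∃ δ > (0 : ℝ), ∀ (F : Flw) (a b τ₀ : ℝ)
  (p : ℝ × E3), Yf F a b Λ G ε₀ → p.1 ∈ Ioo a b → p ∈ Sing (trk F) →
  Slow (NN 2 F.μ p.2 p.1) τ₀ → Gd F Λ G p → Lin (Th F a) η δ p

/-- **COV**: the covering argument -/
def COV : Prop := ∀ (A : Set (ℝ × E3)) (Θ : ℝ × E3 → ℝ),
  (∀ η > (0 : ℝ), ∃ δ > (0 : ℝ), ∀ p ∈ A, Lin Θ η δ p) → PNull A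

/-! ### the result -/

/-- **IND**: the induction on the density, in abstract form -/
def DIN : Prop := ∀ (Sg : Set (ℝ × E3)) (P : ℝ × E3 → Prop) (Θ : ℝ × E3 → ℝ) (a b δ C : ℝ), 0 < δ →
  (∀ c d, a < c → d < b → IsCompact (Sg ∩ Icc c d ×ˢ univ)) →
  (∀ᵐ t, t ∈ Ioo a b → ∀ x, (t, x) ∉ Sg) →
  (∀ p : ℝ × E3, p.1 ∈ Ioo a b → Θ p ≤ C ∧ ∀ c, Θ p < c → ∀ᶠ q in 𝓝 p, Θ q < c) →
  (∀ p ∈ Sg, p.1 ∈ Ioo a b → Θ p < 2 → P p) →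
  (∀ p ∈ Sg, p.1 ∈ Ioo a b → P p → Lin Θ (1 / 2) δ p) →
  (∀ u t, a < u → u < t → t < b → (∀ p ∈ Sg, p.1 ∈ Ioo u t → P p) → ∀ x, P (t, x)) →
  ∀ p ∈ Sg, p.1 ∈ Ioo a b → P p

/-- **PNY**: the singular set is small -/
def PNY : Prop := ∀ (F : Flw) (a b Λ G ε₀ : ℝ), 0 < ε₀ → Yf F a b Λ G ε₀ →
  (∀ t ∈ Ioo a b, ∀ x, ∃ τ₀, Slow (NN 2 F.μ x t) τ₀) → PNull (Sing (trk F) ∩ Ioo a b ×ˢ univ)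

end Vale.Agent.P218Y
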