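import Vale.Agent.P218Y.Port
import Vale.Agent.P218Y.Spec

/-!
# P218Y: multiplicity one everywhere for limits of shrinkers
-/

open MeasureTheory Metric Filter Topology Set
open scoped ContDiff ENNReal RealInnerProductSpace NNReal
open Vale.Agent.P218 (limitSet WeakTendsto Slow)
open Vale.Agent.P218R Vale.Agent.P218E Vale.Agent.P218Z

noncomputable section

namespace Vale.Agent.P218Y

namespace Dns

/-- the rescaled slices of the flow of a shrinker about `(p, -1)` -/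
theorem flow_rsl (S : Srf) (p : E3) (t : ℝ) :
    S.flow.rsl p (-1) t = S.sc ((bt t)⁻¹ • p) (bt t * Real.exp t) := by
  have e0 : Real.exp (-2 * t) = (Real.exp t ^ 2)⁻¹ := by
    rw [← Real.exp_nat_mul, ← Real.exp_neg]; norm_num
  have e1 : √(-(-1 + -1 / Real.exp t ^ 2)) = bt t := by
    rw [bt, e0]
    congr 1
    ring
  have e2 : ∀ y : E3, (bt t)⁻¹ • (p + (Real.exp t)⁻¹ • y) =
      (bt t)⁻¹ • p + (bt t * Real.exp t)⁻¹ • y := by
    intro y
    rw [mul_inv, mul_smul, smul_add]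
  simp only [Flw.rsl, Flw.rs, Flw.sl, Srf.flow, Srf.sc, e1, e2]

end Dns

theorem dns (das : DAS) (los : LOS) : DNS := by
  intro S Λ G κ hS p ε hε
  by_contra hcon
  have hp : p ∈ Hi κ ε := (not_frequently.1 hcon).mono fun ρ h => not_le.1 h
  have hlf := hS.lf
  have hw := hS.wk
  obtain ⟨hG, hA⟩ := das S Λ G κ hS
  obtain ⟨hN1, -, hN3, -, -⟩ := nop
  obtain ⟨ε₁, hε₁, hL⟩ := los Λ
  obtain ⟨C, -, hC, hL⟩ := hL (1 / 10) (by norm_num)
  obtain ⟨R', hR', m', hm', D₀, hD₀, e₀, he₀, J, hP⟩ :=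
    P218M1.dpr' Λ G (ε / 2) (1 / 8) 1 (by positivity) (by norm_num)
  obtain ⟨Cd, hCd, hD⟩ := dis hur' R'
  set N : ℕ → ℝ → Srf := fun i t => (S i).flow.rsl p (-1) t with hN
  have lpos : ∀ t, 0 < bt t * Real.exp t := fun t => mul_pos (bt_pos t) (Real.exp_pos t)
  have conv : ∀ (φ : ℕ → ℕ) (t : ℕ → ℝ) (t' : ℝ), Tendsto φ atTop atTop → Tendsto t atTop (𝓝 t') →
      (∀ᶠ i in atTop, AR Λ (N (φ i) (t i)).μ) ∧ WeakTendsto (fun i => (N (φ i) (t i)).μ)
        (zm κ ((bt t')⁻¹ • p) (bt t' * Real.exp t')) := by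
    intro φ t t' hφ ht
    have h4 := (cont_bt.tendsto t').comp ht
    simp only [hN, Dns.flow_rsl, sc_zm _ _ (lpos _)]
    exact ⟨Eventually.of_forall fun i => zm_ar (hS.shr _).ar _ (lpos _),
      zm_weak (Eventually.of_forall fun i => (hS.shr _).ar)
        (fun f hf hfc => (hw f hf hfc).comp hφ) ((h4.inv₀ (bt_pos t').ne').smul_const p)
        (h4.mul ((Real.continuous_exp.tendsto t').comp ht)) (lpos _)⟩
  have hκA : AR Λ κ := Gs.ar_lim (Eventually.of_forall fun i => (hS.shr i).ar) hw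
  set g : ℝ → ℝ := fun t => gs (zm κ ((bt t)⁻¹ • p) (bt t * Real.exp t)) 0 1 with hg
  have glim : ∀ t, Tendsto (fun i => gs (N i t).μ 0 1) atTop (𝓝 (g t)) := fun t => by
    have := (zm_ar hκA ((bt t)⁻¹ • p) (lpos t)).fin
    obtain ⟨h1, h2⟩ := conv id (fun _ => t) t tendsto_id tendsto_const_nhds
    exact Gs.gs_lim h1 h2 0 one_pos
  obtain ⟨t₁, ht₁⟩ := anti_small (g := g) (fun t => gs_nonneg _ _ _)
    (δ := min D₀ 1 / Cd) (by positivity)
  have good : ∀ i, (S i).flow.Good (-2 - Real.exp (-2 * t₁)) 0 Λ G := fun i =>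
    ssf _ _ _ _ (hS.shr i)
  have early : ∀ t, t₁ ≤ t → -2 - Real.exp (-2 * t₁) < -1 - Real.exp (-2 * t) := fun t ht => by
    have : Real.exp (-2 * t) ≤ Real.exp (-2 * t₁) := Real.exp_le_exp.2 (by linarith)
    linarith
  have late : (-1 : ℝ) ≤ 0 := by norm_num
  -- the start time
  obtain ⟨e, he, hPm⟩ := pair_small (S := S)
    (Eventually.of_forall fun i => ⟨(hS.shr i).ok, (hS.shr i).ar⟩) hw (hA ε₁ hε₁)
    (fun q hq => by
      obtain ⟨δ, hδ, r, hr, h⟩ := hL S G κ q hS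
        ((not_eventually.1 (show ¬ ∀ᶠ ρ in 𝓝[>] (0 : ℝ), 1 + ε₁ < gs κ q ρ from hq)).mono
          fun ρ h => not_lt.1 h)
      refine ⟨δ, hδ, r / 4, by positivity, h.mono fun i hi x hx hx0 => ?_⟩
      obtain ⟨L, h1, h2⟩ := hi x hx hx0
      exact hN1 _ x L r _ C hC hx0 h1 h2 (by linarith))
    (‖(bt t₁)⁻¹ • p‖ + R' / (bt t₁ * Real.exp t₁)) (m := m' / (bt t₁ * Real.exp t₁) ^ 2)
    (by have := lpos t₁; positivity)
  set e' := min e₀ (e * (bt t₁ * Real.exp t₁)) with he'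
  have he'0 : 0 < e' := lt_min he₀ (mul_pos he (lpos t₁))
  have hPm' : ∀ᶠ i in atTop,
      (N i t₁).μ {x ∈ ball (0 : E3) R' | Pair (N i t₁) x e'} ≤ ENNReal.ofReal m' := by
    filter_upwards [hPm] with i hi
    simp only [hN, Dns.flow_rsl]
    rw [mu_sc_apply _ _ (lpos t₁)]
    refine (mul_le_mul_right ((measure_mono fun x hx => ?_).trans hi) _).trans_eq ?_
    · refine ⟨?_, (hx.2.of_sc (lpos t₁)).mono ?_⟩
      · have h1 : x ∈ (fun x => (bt t₁ * Real.exp t₁) • (x - (bt t₁)⁻¹ • p)) ⁻¹' ball 0 R' := hx.1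
        rw [sc_ball _ (lpos t₁), smul_zero, add_zero, mem_ball_iff_norm] at h1
        rw [mem_closedBall_zero_iff]
        linarith [norm_sub_norm_le x ((bt t₁)⁻¹ • p)]
      · rw [div_le_iff₀ (lpos t₁)]
        exact min_le_right _ _
    · rw [← ENNReal.ofReal_mul (sq_nonneg _), mul_div_cancel₀ _ (pow_pos (lpos t₁) 2).ne']
  -- the end time
  have hMany : ∀ᶠ t in atTop, ∀ j ∈ Iic J, ManyS (zm κ ((bt t)⁻¹ • p) (bt t * Real.exp t)) 1
      (ε / 2) (1 / 8) (e' / 10 / 2 ^ j) := (eventually_all_finite (finite_Iic J)).2 fun j _ =>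
    (ball0 _ _ ε κ p hG hε hp).2 _ _ tendsto_l (tendsto_q p) _ (by positivity)
  obtain ⟨T₀, hT₀⟩ := eventually_atTop.1 hMany
  set t₂ := max T₀ t₁ + 1 with ht₂
  have h12 : t₁ + 1 ≤ t₂ := by linarith [le_max_right T₀ t₁]
  have hdrop : ∀ᶠ i in atTop, Cd * (gs (N i t₁).μ 0 1 - gs (N i t₂).μ 0 1) < min D₀ 1 :=
    (((glim t₁).sub (glim t₂)).const_mul Cd).eventually_lt_const
      (by rw [← lt_div_iff₀' hCd]; exact ht₁ t₂)
  have hbad : ∀ᶠ i in atTop, ∃ t ∈ Icc (t₂ - 1) t₂, ∃ j ≤ J,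
      ¬ Many (N i t).μ 1 (ε / 2) (1 / 8) (e' / 10 / 2 ^ j) := by
    filter_upwards [hdrop, hPm'] with i h1 h2
    have h3 := early t₁ le_rfl
    obtain ⟨t, ht, h4⟩ := (hD _ _ _ Λ (-1) t₁ t₂ p (good i).toOkA (by linarith) h3 late).2.2
      h12 (h1.le.trans (min_le_right _ _))
    have h5 : t₁ ≤ t := by linarith [ht.1]
    have h6 := (hD _ _ _ Λ (-1) t t₂ p (good i).toOkA ht.2 (early t h5) late).1
    refine ⟨t, ht, hP _ _ _ (-1) t₁ t e' p (good i) h5 h3 late he'0 (min_le_left _ _)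
      ((hD _ _ _ Λ (-1) t₁ t p (good i).toOkA h5 h3 late).2.1.trans
        (ENNReal.ofReal_le_ofReal ?_)) h2 h4⟩
    refine le_trans ?_ (h1.le.trans (min_le_left _ _))
    exact mul_le_mul_of_nonneg_left (sub_le_sub_left h6 _) hCd.le
  obtain ⟨i₀, hi₀⟩ := eventually_atTop.1 hbad
  choose t ht hj using fun i => hi₀ (i + i₀) (Nat.le_add_left _ _)
  obtain ⟨t', ht', φ, hφ, hlim⟩ := isCompact_Icc.tendsto_subseq ht
  obtain ⟨h1, h2⟩ := conv (fun k => φ k + i₀) (t ∘ φ) t'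
    ((tendsto_add_atTop_nat i₀).comp hφ.tendsto_atTop) hlim
  have h3 : ∀ᶠ k in atTop, ∀ j ∈ Iic J,
      Many (N (φ k + i₀) (t (φ k))).μ 1 (ε / 2) (1 / 8) (e' / 10 / 2 ^ j) :=
    (eventually_all_finite (finite_Iic J)).2 fun j hj' => hN3 _ _ _ _ _ _
      (zm_ar hκA _ (lpos t')).fin (h1.mono fun k hk => hk.fin) h2
      (hT₀ t' (by linarith [ht'.1, le_max_left T₀ t₁]) j hj')
  obtain ⟨k, hk⟩ := h3.exists
  obtain ⟨j, hj1, hj2⟩ := hj (φ k)
  exact hj2 (hk j hj1)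

end Vale.Agent.P218Y
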