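import Vale.Agent.P218Y.Port

/-!
# P218Y: the pair estimate at one time
-/

open MeasureTheory Metric Filter Topology Set
open scoped ContDiff ENNReal RealInnerProductSpace
open Vale.Agent.P218M1 Vale.Agent.P218M1.Br

noncomputable section

namespace Vale.Agent.P218Y

theorem dps : DPS := by
  intro Λ κ m₀ R₀ hκ hm
  obtain ⟨c, αL, hc, hαL, hL⟩ := P218M1.low' κ m₀ (|R₀| + 1) hκ hm (by positivity)
  obtain ⟨cm, Cm, hcm, hmm⟩ := kit.con.mm
  obtain ⟨α, hα, hα2, hα3⟩ : ∃ α, 0 < α ∧ α ≤ αL ∧ α ≤ 1 / 10 :=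
    ⟨min αL (1 / 10), by positivity, min_le_left _ _, min_le_right _ _⟩
  obtain ⟨R, hR⟩ : ∃ R, R = |R₀| + 2 := ⟨_, rfl⟩
  have R0 := abs_nonneg R₀
  obtain ⟨J, hL⟩ := hL |Λ| α (2 + |Λ| * (2 * R) ^ 4) hα2
  refine ⟨2 * R, by linarith, c / 2, half_pos hc, 1 / 10, by norm_num, J,
    fun S e hS hΛ he0 he1 hd hp => ?_⟩
  obtain ⟨η, ρ, hη, hη1, hρ, hsep⟩ := sept (fun _ => toSf S) univ 0 0 R α e
    ⟨isOpen_univ, fun _ _ => ok hS, (hS.sw.comp contDiff_snd).contDiffOn⟩ (subset_univ _) he0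
  set π : Par := ⟨R, α, e, η, ρ⟩ with hπ
  have hrg : π.Rg := ⟨by simp only [hπ]; linarith, hα, hα3, he0, he1, hη, hη1, hρ⟩
  have hG : Good (toSf S) π |Λ| := ⟨ok hS, ar hΛ, hrg, hsep 0 (left_mem_Icc.2 le_rfl)⟩
  have hm0 : 0 < π.mm := lt_of_lt_of_le (by positivity) (hmm π hrg).1
  by_contra hn
  push Not at hn
  have h1 := Dp.H_le hG.ok hG.ar (r := 2 * R) (by linarith)
  have h2 := Dp.int_mono hG.ok hG.ok.cg_H (r := |R₀| + 1 + 3) (r' := 2 * R) (by linarith)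
  have hb : ∫ x in ball 0 (2 * R), (toSf S).φ x ^ 2 ∂(toSf S).μ ≤ 1 := by
    rw [phi_int hS, ← ENNReal.ofReal_le_one, dsb_eq hS]; exact hd
  have h3 := hL (toSf S) π hG rfl (by simp only [hπ]; linarith) (by linarith only [h1, h2, hb])
    fun j hj => by
      obtain ⟨Z, z1, z2, z3, z4⟩ := hn j hj
      refine ⟨Z, fun z hz => ⟨by linarith [z1 z hz, le_abs_self R₀], ?_⟩, fun z hz z' hz' hn =>
        dist_eq_norm z z' ▸ z2 hz hz' hn, z3⟩
      have := (P218R.low' _ hS).1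
      rw [← mul_assoc]
      exact (ENNReal.ofReal_le_iff_le_toReal (measure_ball_lt_top (μ := S.μ)).ne).1 (z4 z hz)
  have h4 := up kit (toSf S) π |Λ| (2 * R) hG le_rfl
  have h5 : (toSf S).μ.real {x | ‖x‖ < 2 * R ∧ (toSf S).w x = 0 ∧ (toSf S).Pair π.ε x} ≤ c / 2 := by
    refine ENNReal.toReal_le_of_le_ofReal (half_pos hc).le ((measure_mono fun x hx => ?_).trans hp)
    obtain ⟨a1, a2, y, a3, a4⟩ := hx
    rw [n_eq hS a2] at a4
    exact ⟨mem_ball_zero_iff.2 a1, y, a3, a4⟩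
  nlinarith [mul_le_mul_of_nonneg_left h5 hm0.le, mul_pos hc hm0]

end Vale.Agent.P218Y
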