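import Vale.Agent.P218Y.Port

/-!
# P218Y: a uniform scale for shrinkers
-/

open MeasureTheory Metric Filter Topology Set
open scoped ContDiff ENNReal RealInnerProductSpace

noncomputable section

namespace Vale.Agent.P218Y

namespace Dpu

open Vale.Agent.P218M1 Vale.Agent.P218M1.Dp Vale.Agent.P218M1.Sf

theorem fam {S : Sf} (hS : S.Ok) {I : Set ℝ} (hI : IsOpen I) : Fam (fun _ => S) I :=
  ⟨hI, fun _ _ => hS, (hS.sm.comp contDiff_snd).contDiffOn⟩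

theorem cont {S : Sf} (hS : S.Ok) {R α η ρ : ℝ}
    (rg : ∀ s ∈ Ioo (0 : ℝ) (1 / 10), Par.Rg ⟨R, α, s, η, ρ⟩) :
    ContinuousOn (fun s => S.FF ⟨R, α, s, η, ρ⟩) (Ioo 0 (1 / 10)) := fun s hs =>
  (dt fs ca' lin' (fun _ => S) _ ⟨R, α, s, η, ρ⟩ (fun q => S.Psi ⟨R, α, q.1, η, ρ⟩ q.2) s
    (fam hS isOpen_Ioo) hs (rg s hs) (fun σ hσ z hz => by
      have h1 := (O.Wt (k := 1) hS (rg s hs) hz).comp (σ, z) contDiffAt_snd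
      have h2 := (O.kk (k := 1) hS hz).comp (σ, z) contDiffAt_snd
      exact h1.mul ((G0_cd (k := 1) (by norm_num)).contDiffAt.comp (σ, z)
        ((contDiffAt_snd.snd.snd.mul h2).div contDiffAt_fst hσ.1.ne')))
    fun σ hσ z _ _ c => (Psit.off' (rg σ hσ) c 0).1).continuousAt.continuousWithinAt

theorem stat (Λ G κ m₀ R₀ : ℝ) (hκ : 0 < κ) (hm : 0 < m₀) (hR₀ : 0 < R₀) :
    ∃ e₀ > (0 : ℝ), ∃ J : ℕ, ∀ (S : Sf) (e : ℝ), S.Ok → S.AR Λ → S.GBc G →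
      (∀ x, S.w x = 0 → S.φ x = 0) → (∀ R, ∃ e₁ > (0 : ℝ), ∀ e ≤ e₁,
        S.μ.real {x | ‖x‖ < R ∧ S.w x = 0 ∧ S.Pair e x} = 0) → 0 < e → e ≤ e₀ →
      ∃ j ≤ J, ¬ Thick S κ m₀ R₀ (e / 10 / 2 ^ j) := by
  obtain ⟨c, αL, hc, hαL, hL⟩ := low' κ m₀ R₀ hκ hm hR₀
  obtain ⟨l₀, hl₀, hD⟩ := dich' Λ
  obtain ⟨C₀, hC₀, hM⟩ := main'
  obtain ⟨cm, Cm, hcm, hmm⟩ := kit.con.mm
  obtain ⟨l, hl, hl1, hl2⟩ : ∃ l, 0 < l ∧ l ≤ l₀ ∧ l ≤ c :=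
    ⟨min l₀ c, lt_min hl₀ hc, min_le_left _ _, min_le_right _ _⟩
  obtain ⟨c₁, hc₁, hD⟩ := hD l hl hl1
  obtain ⟨R, hR7, hR1, hRe⟩ := ex_R (R₀ + 1) (C₀ * |Λ|) (by positivity : 0 < c₁ * cm / 4)
  obtain ⟨A₀, hA₀⟩ : ∃ A₀, A₀ = 36 * |Λ| * R ^ 2 +
    |G| * (1 + |Λ| * (21 * (3 * R + 3)) ^ 4) + 1 := ⟨_, rfl⟩
  have hA : 0 < A₀ := by rw [hA₀]; positivity
  obtain ⟨de, hde, hde1⟩ : ∃ de, 0 < de ∧ de * A₀ = c₁ * cm / 4 :=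
    ⟨c₁ * cm / 4 / A₀, by positivity, by field_simp⟩
  obtain ⟨α₀, hα₀, hM⟩ := hM Λ R de hde
  obtain ⟨α, hα, hα1, hα2, hα3⟩ : ∃ α, 0 < α ∧ α ≤ α₀ ∧ α ≤ αL ∧ α ≤ 1 / 10 :=
    ⟨min α₀ (min αL (1 / 10)), by positivity, min_le_left _ _,
      (min_le_right _ _).trans (min_le_left _ _), (min_le_right _ _).trans (min_le_right _ _)⟩
  obtain ⟨C, Ca, d, ε₁, hC, hCa, hd, hd1, hε₁, hM⟩ := hM α hα hα1
  obtain ⟨ε₂, hε₂, hD⟩ := hD α A₀ (Ca * A₀) d hd hd1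
  obtain ⟨J, hL⟩ := hL Λ α (Λ * (R₀ + 3) ^ 4) hα2
  refine ⟨min ε₁ (min ε₂ (1 / 20)), by positivity, J, fun S e hS hA hG hφ np e0 e1 => ?_⟩
  obtain ⟨e1, e2, e3⟩ : e ≤ ε₁ ∧ e ≤ ε₂ ∧ e ≤ 1 / 20 := by simpa only [le_min_iff] using e1
  obtain ⟨e', e'0, np⟩ := np (2 * R)
  have a0 := lt_min e0 e'0
  have a1 := min_le_left e e'
  replace np := np _ (min_le_right e e')
  generalize min e e' = a at a0 a1 np
  obtain ⟨η, ρ, hη, hη1, hρ, hsep⟩ :=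
    sept (fun _ => S) univ 0 0 R α a (fam hS isOpen_univ) (subset_univ _) a0
  replace hsep := hsep 0 ⟨le_rfl, le_rfl⟩
  have rg : ∀ s ∈ Ioo (0 : ℝ) (1 / 10), Par.Rg ⟨R, α, s, η, ρ⟩ := fun s hs =>
    ⟨by linarith, hα, hα3, hs.1, hs.2.le, hη, hη1, hρ⟩
  have sub : Icc a e ⊆ Ioo 0 (1 / 10) := fun s hs => ⟨a0.trans_le hs.1, by linarith [hs.2]⟩
  have gd : ∀ s ∈ Icc a e, Good S ⟨R, α, s, η, ρ⟩ Λ := fun s hs =>
    ⟨hS, hA, rg s (sub hs), hsep.sep, fun x θ T h1 h2 h3 =>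
      (hsep.tail x θ T h1 h2 h3).trans (pow_le_pow_left₀ a0.le hs.1 2)⟩
  have z0 : ∀ r, ∫ x in ball 0 r, S.φ x ^ 2 ∂S.μ = 0 := fun r => integral_eq_zero_of_ae
    ((ae_restrict_of_ae hS.sup).mono fun x hx => by simp [hφ x hx])
  have ee : e ∈ Icc a e := right_mem_Icc.2 a1
  have aa : a ∈ Icc a e := left_mem_Icc.2 a1
  have hm1 : cm * α ^ 2 ≤ Par.mm ⟨R, α, e, η, ρ⟩ := (hmm _ (gd e ee).rg).1
  have hm0 : 0 < Par.mm ⟨R, α, e, η, ρ⟩ := lt_of_lt_of_le (by positivity) hm1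
  by_contra hn
  push Not at hn
  have h1 := H_le hS hA (r := R₀ + 3) (by linarith)
  rw [z0, mul_zero, zero_add] at h1
  have h2 := up kit S _ Λ (2 * R) (gd a aa) le_rfl
  rw [np, mul_zero] at h2
  obtain ⟨s, hs, h3⟩ := intermediate_value_Icc a1 ((cont hS rg).mono sub)
    ⟨h2.trans (mul_pos hl hm0).le, (mul_le_mul_of_nonneg_right hl2 hm0.le).trans
      (hL S _ (gd e ee) rfl hR1 h1 hn)⟩
  have hg := gd s hs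
  obtain ⟨p1, p2⟩ := psit' (fun _ => S) univ _ Λ 0 ⟨fam hS isOpen_univ, fun _ _ x hx => by
    simp [wd, hφ x hx]⟩ trivial hg
  obtain ⟨η', th, hcut, hAE, hmain⟩ := hM S _ _ hg rfl rfl (hs.2.trans e1) p1
  have h9 : S.AA ⟨R, α, s, η, ρ⟩ ≤ A₀ := by
    have := AA_le hg hG
    rw [z0] at this
    linarith
  have hP : S.PP ⟨R, α, s, η, ρ⟩ = 0 := z0 _
  have h10 := hD S _ η' th hg hR7 rfl (hs.2.trans e2) hcut (hAE.trans (by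
      have : 0 ≤ Ca * s ^ 2 := by positivity
      linarith only [mul_le_mul_of_nonneg_left h9 this])) h9 (hP.trans_le hc₁.le) h3.ge
    (h3.le.trans (by change l * Par.mm ⟨R, α, e, η, ρ⟩ ≤ 2 * l * Par.mm ⟨R, α, e, η, ρ⟩; nlinarith))
  rw [p2.unique (hasDerivAt_const _ _), hP] at hmain
  rw [abs_of_nonneg hA.nonneg] at hRe
  change c₁ * Par.mm ⟨R, α, e, η, ρ⟩ ≤ _ at h10
  have h11 : de * α ^ 2 * S.AA ⟨R, α, s, η, ρ⟩ ≤ c₁ * cm / 4 * α ^ 2 := by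
    rw [← hde1]
    linarith only [mul_le_mul_of_nonneg_left h9 (by positivity : 0 ≤ de * α ^ 2)]
  linarith only [hmain, h10, h11, ar3 (α := α) hRe, mul_le_mul_of_nonneg_left hm1 hc₁.le,
    (by positivity : 0 < c₁ * (cm * α ^ 2))]

theorem thick {S : P218R.Srf} (hS : S.Ok) {κ m₀ R₀ r : ℝ} (h : P218E.Many S.μ R₀ κ m₀ r) :
    Thick (Br.toSf S) κ m₀ (|R₀| + 1) r := by
  obtain ⟨Z, z1, z2, z3, z4⟩ := h
  refine ⟨Z, fun z hz => ⟨by linarith [z1 z hz, le_abs_self R₀], ?_⟩, fun z hz z' hz' hn =>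
    dist_eq_norm z z' ▸ z2 hz hz' hn, z3⟩
  have := (P218R.low' _ hS).1
  rw [← mul_assoc]
  exact (ENNReal.ofReal_le_iff_le_toReal (measure_ball_lt_top (μ := S.μ)).ne).1 (z4 z hz)

theorem pair {S : P218R.Srf} (hS : S.Ok) (R e : ℝ) :
    {x | ‖x‖ < R ∧ (Br.toSf S).w x = 0 ∧ (Br.toSf S).Pair e x} ⊆
      {x ∈ ball (0 : P218R.E3) R | P218E.Pair S x e} := fun x ⟨a1, a2, y, a3, a4⟩ => by
  rw [Br.n_eq hS a2] at a4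
  exact ⟨mem_ball_zero_iff.2 a1, y, a3, a4⟩

end Dpu

open Dpu P218M1.Br in
theorem dpu : DPU := by
  intro Λ G κ m₀ R₀ hκ hm
  obtain ⟨e₀, h0, J, H⟩ := stat |Λ| G κ m₀ (|R₀| + 1) hκ hm (by positivity)
  refine ⟨e₀, h0, J, fun S e hS e0 e1 => ?_⟩
  obtain ⟨j, hj, hT⟩ := H (toSf S) e (ok hS.ok) (ar hS.ar) (gb hS.ok hS.gb)
    (fun x hx => by rw [φ_eq hS.ok hx, hS.eq x hx, neg_zero]) (fun R => by
      obtain ⟨e₁, h1, h2⟩ := P218E.nop.2.1 S R hS.ok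
      exact ⟨e₁, h1, fun e he => (ENNReal.toReal_eq_zero_iff _).2
        (.inl (measure_mono_null (pair hS.ok R e) (h2 e he)))⟩)
    e0 e1
  exact ⟨j, hj, fun h => hT (thick hS.ok h)⟩

end Vale.Agent.P218Y
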