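import Vale.Agent.P218Y.Port

/-!
# P218Y, row LOS: White's theorem for a convergent sequence of shrinkers
-/

open MeasureTheory Metric Filter Topology Set
open scoped ContDiff ENNReal RealInnerProductSpace
open Vale.Agent.P366W (trc Fr)
open Vale.Agent.P218
open Vale.Agent.P218R Vale.Agent.P218E Vale.Agent.P218R.Loc
open Vale.Agent.P218Z

noncomputable section

namespace Vale.Agent.P218Y

theorem flow_one (S : Srf) : S.flow.sl (-1) = S := by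
  cases S
  simp [Srf.flow, Flw.sl]

theorem los : LOS := fun Λ => by
  obtain ⟨ε, e0, wh⟩ := P218R.wh Λ
  refine ⟨ε / 3, by positivity, fun σ s0 => ?_⟩
  obtain ⟨c, c0, C, c1, c2, wh⟩ := wh σ s0
  refine ⟨C, c1, c2, fun S G κ p hS hd => ?_⟩
  obtain ⟨⟨K, K0, g1⟩, g2⟩ := gsl
  have L0 := le_max_right Λ 0
  obtain ⟨η, h0, h1, h2⟩ : ∃ η, 0 < η ∧ η ≤ 1 / 2 ∧ K * max Λ 0 * η ≤ ε / 3 :=
    ⟨min (1 / 2) (ε / 3 / (K * max Λ 0 + 1)), by positivity, min_le_left _ _, by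
      have := (le_div_iff₀' (by positivity)).1 (min_le_right (1 / 2) (ε / 3 / (K * max Λ 0 + 1)))
      have : 0 < min (1 / 2) (ε / 3 / (K * max Λ 0 + 1)) := by positivity
      linarith⟩
  obtain ⟨ρ, r1, r0, r2⟩ := (hd.and_eventually
    (Ioo_mem_nhdsGT (show 0 < η / (2 * (‖p‖ + 1)) by positivity))).exists
  rw [lt_div_iff₀ (by positivity)] at r2
  have n0 := norm_nonneg p
  have s1 : -(1 + ρ ^ 2) < 0 := by nlinarith
  have r5 : ρ ≤ 1 := by nlinarith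
  have i1 : (-3 : ℝ) < -(1 + ρ ^ 2) := by nlinarith
  have ok : ∀ j, (S j).flow.OkA (-3) 0 Λ := fun j => (ssf (S j) Λ G (-3) (hS.shr j)).toOkA
  have l1 : 1 ≤ √(-(-(1 + ρ ^ 2))) := Real.one_le_sqrt.2 (by nlinarith)
  have l2 : √(-(-(1 + ρ ^ 2))) ≤ 1 + ρ ^ 2 := Real.sqrt_le_iff.2 ⟨by positivity, by nlinarith⟩
  have lim0 := (g2 ℕ atTop Λ _ κ hS.lf (.of_forall fun j => (hS.shr j).ar) hS.wk).2 p ρ r0
  have lim : Tendsto (fun j => gs ((S j).flow.μ (-(1 + ρ ^ 2))) (√(-(-(1 + ρ ^ 2))) • p)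
      (√(-(-(1 + ρ ^ 2))) * ρ)) atTop (𝓝 (gs κ p ρ)) := lim0.congr fun j => by
    have l0 : 0 < √(-(-(1 + ρ ^ 2))) := by linarith
    rw [Flw.μ, flow_sl, gs_sc _ _ l0, zero_add, smul_smul, inv_mul_cancel₀ l0.ne', one_smul,
      mul_div_cancel_left₀ _ l0.ne']
  generalize √(-(-(1 + ρ ^ 2))) = l at l1 l2 lim
  obtain ⟨r, hr⟩ : ∃ r, r = η * ρ / 10 := ⟨_, rfl⟩
  have r3 : 0 < r := by rw [hr]; positivity
  have r4 : 20 * r ≤ ρ := by nlinarith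
  refine ⟨r, r3, c * r, by positivity, ?_⟩
  filter_upwards [lim.eventually_lt_const (show _ < 1 + 2 * (ε / 3) by linarith)]
    with i i3 y hy hy'
  have e1 : (S i).flow.n (-1, y) = (S i).n y := by simp [Srf.flow]
  obtain ⟨L, h, h'⟩ := wh _ _ _ (-1 + r ^ 2 / 2) r p (ok i) r3 (by nlinarith)
    (by nlinarith) (fun z hz t ⟨t1, t2⟩ => by
      linarith [step hui' (mul_nonneg K0.le L0) (g1 _ _ L0 (((ok i).ar _ ⟨i1, s1⟩).mono
        (le_max_left _ _)) (l • p) (l * ρ) (by positivity)).2.2 (ok i) i1 h0 h1 r0 r2 l1 l2 hr hz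
        t1 t2]) (-1) ⟨by nlinarith, by nlinarith⟩ y hy (by simpa [Srf.flow] using hy')
  have h3 := h' (-1) ⟨by nlinarith [mul_pos c0 r3], le_rfl⟩
  rw [e1] at h h3
  rw [flow_one] at h3
  exact ⟨L, h, h3⟩

end Vale.Agent.P218Y
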