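import Vale.Agent.P218Y.Spec
import Vale.Agent.P218R.All1

/-!
# P218Y, row Y.SWM: the sharp monotonicity formula with a weight
-/

open MeasureTheory Metric Filter Topology Set
open scoped ContDiff ENNReal RealInnerProductSpace
open Vale.Agent.P218R

noncomputable section

namespace Vale.Agent.P218Y

namespace SwmAux

theorem key {x y : ℝ} (hx : 0 ≤ x) (h : x ≤ y) : (Real.exp (-x) - Real.exp (-y)) ^ 2 / 2 ≤
    (1 + x) * Real.exp (-x) - (1 + y) * Real.exp (-y) := by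
  have hd : ∀ t : ℝ, HasDerivAt (fun t : ℝ => t * Real.exp (-t) + Real.exp (-t) ^ 2 / 2)
      (Real.exp (-t) * (1 - t - Real.exp (-t))) t := fun t => by
    have e := (hasDerivAt_neg t).exp
    exact (((hasDerivAt_id t).mul e).add ((e.pow 2).div_const 2)).congr_deriv (by simp; ring)
  have ha := antitone_of_deriv_nonpos (fun t => (hd t).differentiableAt) (fun t => by
    rw [(hd t).deriv]
    exact mul_nonpos_of_nonneg_of_nonpos (Real.exp_pos _).le
      (by linarith [Real.add_one_le_exp (-t)])) h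
  have h1 : Real.exp (-x) ≤ 1 := Real.exp_le_one_iff.2 (by linarith)
  have h2 : Real.exp (-y) ≤ Real.exp (-x) := Real.exp_le_exp.2 (by linarith)
  simp only at ha
  nlinarith [mul_nonneg (sub_nonneg.2 h2) (sub_nonneg.2 h1)]

/-- the difference of two Gaussians -/
def FF (a b s : ℝ) : ℝ := Real.exp (-s / a) - Real.exp (-s / b)

/-- divided by the square of the distance -/
def gg (a b : ℝ) : ℝ → ℝ := dslope (FF a b) 0

variable {a b s : ℝ}

theorem mul_gg (a b s : ℝ) : s * gg a b s = FF a b s := by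
  have := sub_smul_dslope (FF a b) 0 s
  simpa [FF, gg] using this

theorem cd_gg (a b : ℝ) : ContDiff ℝ 1 (gg a b) := contDiff_iff_contDiffAt.2 fun s => by
  by_cases hs : s = 0
  · obtain ⟨q, hq⟩ : AnalyticAt ℝ (FF a b) 0 := by unfold FF; fun_prop
    exact hs ▸ hq.has_fpower_series_dslope_fslope.analyticAt.contDiffAt
  · refine ContDiffAt.congr_of_eventuallyEq ?_ (dslope_eventuallyEq_slope_of_ne _ hs)
    have e : slope (FF a b) 0 = fun s => (FF a b s - FF a b 0) / s := by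
      funext t; simp [slope_def_field]
    rw [e]
    exact ContDiffAt.div (by unfold FF; fun_prop) contDiffAt_id hs

theorem der_gg (a b s : ℝ) :
    gg a b s + s * deriv (gg a b) s = Real.exp (-s / b) / b - Real.exp (-s / a) / a := by
  have h1 := (hasDerivAt_id s).mul ((cd_gg a b).differentiable one_ne_zero s).hasDerivAt
  have h2 : HasDerivAt (FF a b) _ s :=
    ((hasDerivAt_neg s).div_const a).exp.sub ((hasDerivAt_neg s).div_const b).exp
  have := h1.unique (h2.congr_of_eventuallyEq (.of_forall fun t => mul_gg a b t))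
  simp only [id, one_mul] at this
  rw [this]; ring

theorem sq_gg (hb : 0 < b) (h : b ≤ a) (hs : 0 < s) : 2 * deriv (gg a b) s ≤ -gg a b s ^ 2 := by
  have k := key (x := s / a) (y := s / b) (div_pos hs (hb.trans_le h)).le
    (div_le_div_of_nonneg_left hs.le hb h)
  have e1 := mul_gg a b s
  have e2 := der_gg a b s
  rw [FF] at e1
  simp only [← neg_div] at k
  refine le_of_mul_le_mul_left ?_ (pow_pos hs 2)
  have e3 : s ^ 2 * (2 * deriv (gg a b) s) =
      -2 * ((1 + s / a) * Real.exp (-s / a) - (1 + s / b) * Real.exp (-s / b)) := by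
    linear_combination 2 * s * e2 - 2 * e1
  rw [e3, mul_neg, ← mul_pow, e1]
  linarith

theorem abs_FF (hb : 0 < b) (h : b ≤ a) (hs : 0 ≤ s) : |FF a b s| ≤ Real.exp (-s / a) := by
  have h1 : Real.exp (-s / b) ≤ Real.exp (-s / a) := by
    rw [neg_div, neg_div]
    exact Real.exp_le_exp.2 (neg_le_neg (div_le_div_of_nonneg_left hs hb h))
  rw [FF, abs_of_nonneg (by linarith)]
  linarith [Real.exp_pos (-s / b)]

/-- the test field -/
def YY (a b : ℝ) (u : E3 → ℝ) (p z : E3) : E3 := u z • gg a b (‖z - p‖ ^ 2) • (z - p)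

variable {S : Srf} {u : E3 → ℝ} {p z : E3}

theorem cd_rad (a b : ℝ) (p : E3) : ContDiff ℝ 1 fun z : E3 => gg a b (‖z - p‖ ^ 2) :=
  (cd_gg a b).comp ((contDiff_id.sub contDiff_const).norm_sq ℝ)

theorem cd_YY (hu : ContDiff ℝ 1 u) : ContDiff ℝ 1 (YY a b u p) :=
  hu.smul ((cd_rad a b p).smul (contDiff_id.sub contDiff_const))

theorem dv_YY (hS : S.Ok) (hu : ContDiff ℝ 1 u) (hz : S.w z = 0) : S.dv (YY a b u p) z =
    u z * (2 * gg a b (‖z - p‖ ^ 2) + 2 * deriv (gg a b) (‖z - p‖ ^ 2) *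
      (‖z - p‖ ^ 2 - ⟪S.n z, z - p⟫ ^ 2)) + gg a b (‖z - p‖ ^ 2) * ⟪S.tg u z, z - p⟫ := by
  have d1 := (cd_rad a b p).differentiable one_ne_zero z
  have d2 : DifferentiableAt ℝ (fun y : E3 => y - p) z := by fun_prop
  have hs : HasFDerivAt (fun y : E3 => ‖y - p‖ ^ 2) _ z := ((hasFDerivAt_id z).sub_const p).norm_sq
  have hf : fderiv ℝ (fun y : E3 => gg a b (‖y - p‖ ^ 2)) z = _ :=
    (((cd_gg a b).differentiable one_ne_zero _).hasDerivAt.comp_hasFDerivAt z hs).fderiv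
  have e : ⟪z - p, S.P z (z - p)⟫ = ‖z - p‖ ^ 2 - ⟪S.n z, z - p⟫ ^ 2 := by
    rw [← hS.norm_P_sq hz, ← real_inner_self_eq_norm_sq, Srf.P_sym, hS.P_P hz]
  unfold YY
  rw [Srf.dv_smul (hu.differentiable one_ne_zero z) (d1.fun_smul d2), Srf.dv_smul d1 d2,
    hS.dv_id hz, Srf.inner_tg (fun y : E3 => gg a b (‖y - p‖ ^ 2)), hf, real_inner_smul_right, ← e]
  simp only [smul_apply, ContinuousLinearMap.comp_apply, innerSL_apply_apply,
    ContinuousLinearMap.id_apply, id, smul_eq_mul, nsmul_eq_mul, Nat.cast_ofNat]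
  ring

theorem pt (hS : S.Ok) (hu : ContDiff ℝ 1 u) (u0 : 0 ≤ u z) (hb : 0 < b) (h : b ≤ a)
    (hz : S.w z = 0) : 2 / b * (u z * Real.exp (-‖z - p‖ ^ 2 / b)) ≤
      (S.dv (YY a b u p) z - S.H z * ⟪S.n z, YY a b u p z⟫) +
      2 / a * (u z * Real.exp (-‖z - p‖ ^ 2 / a)) + 1 / 4 * (u z * S.H z ^ 2) +
      ‖S.tg u z‖ * Real.exp (-‖z - p‖ ^ 2 / a) / ‖z - p‖ := by
  rw [dv_YY hS hu hz, YY, real_inner_smul_right, real_inner_smul_right]
  have e := der_gg a b (‖z - p‖ ^ 2)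
  have k1 : 2 * deriv (gg a b) (‖z - p‖ ^ 2) * ⟪S.n z, z - p⟫ ^ 2 ≤
      -gg a b (‖z - p‖ ^ 2) ^ 2 * ⟪S.n z, z - p⟫ ^ 2 := by
    by_cases hp : z - p = 0
    · simp [hp]
    · exact mul_le_mul_of_nonneg_right (sq_gg hb h (by positivity)) (sq_nonneg _)
  have k2 : |gg a b (‖z - p‖ ^ 2) * ⟪S.tg u z, z - p⟫| ≤
      ‖S.tg u z‖ * Real.exp (-‖z - p‖ ^ 2 / a) / ‖z - p‖ := by
    by_cases hp : z - p = 0
    · simp [hp]
    have k := abs_FF hb h (sq_nonneg ‖z - p‖)
    rw [← mul_gg, abs_mul, abs_of_nonneg (sq_nonneg _)] at k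
    rw [abs_mul, le_div_iff₀ (by positivity)]
    have k3 := mul_le_mul_of_nonneg_left (abs_real_inner_le_norm (S.tg u z) (z - p))
      (mul_nonneg (abs_nonneg (gg a b (‖z - p‖ ^ 2))) (norm_nonneg (z - p)))
    have k4 := mul_le_mul_of_nonneg_left k (norm_nonneg (S.tg u z))
    linarith
  have k5 := (abs_le.1 k2).1
  generalize ‖S.tg u z‖ * Real.exp (-‖z - p‖ ^ 2 / a) / ‖z - p‖ = W at k5 ⊢
  generalize gg a b (‖z - p‖ ^ 2) * ⟪S.tg u z, z - p⟫ = T at k5 ⊢
  have k6 := mul_nonneg u0 (sq_nonneg (S.H z / 2 - gg a b (‖z - p‖ ^ 2) * ⟪S.n z, z - p⟫))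
  have k7 := mul_le_mul_of_nonneg_left k1 u0
  linear_combination k5 + k6 + k7 - 2 * u z * e

theorem int3 (hS : S.Ok) [IsLocallyFiniteMeasure S.μ] (hu : ContDiff ℝ 1 u)
    (hc : HasCompactSupport u) (h1 : ∀ᶠ z in 𝓝 p, u z = 1) (a : ℝ) :
    Integrable (fun z => ‖S.tg u z‖ * Real.exp (-‖z - p‖ ^ 2 / a) / ‖z - p‖) S.μ := by
  have z0 : ∀ (z : E3) (c : ℝ), (u =ᶠ[𝓝 z] fun _ => c) → S.tg u z = 0 := fun z c h => by
    rw [Srf.tg, h.gradient_eq]; simp
  refine Continuous.integrable_of_hasCompactSupport (continuous_iff_continuousAt.2 fun z => ?_)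
    (hc.mono' fun z hz => by_contra fun k => hz ?_)
  · by_cases hz : z = p
    · refine (continuousAt_const (y := (0 : ℝ))).congr ?_
      filter_upwards [(hz ▸ h1 : ∀ᶠ y in 𝓝 z, u y = 1).eventually_nhds] with y hy
      simp [z0 y 1 hy]
    · have := hS.ctg hu
      exact ContinuousAt.div (by fun_prop) (by fun_prop) (by simpa [sub_eq_zero] using hz)
  · simp [z0 z 0 (notMem_tsupport_iff_eventuallyEq.1 k)]

theorem two (hS : S.Ok) [IsLocallyFiniteMeasure S.μ] (hu : ContDiff ℝ 1 u)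
    (hc : HasCompactSupport u) (u0 : ∀ z, 0 ≤ u z) (h1 : ∀ᶠ z in 𝓝 p, u z = 1) (hb : 0 < b)
    (h : b ≤ a) : 2 / b * ∫ z, u z * Real.exp (-‖z - p‖ ^ 2 / b) ∂S.μ ≤
      2 / a * ∫ z, u z * Real.exp (-‖z - p‖ ^ 2 / a) ∂S.μ + 1 / 4 * ∫ z, u z * S.H z ^ 2 ∂S.μ +
      ∫ z, ‖S.tg u z‖ * Real.exp (-‖z - p‖ ^ 2 / a) / ‖z - p‖ ∂S.μ := by
  have cu := hu.continuous
  have cH := hS.sH.continuous
  have cn := hS.sn.continuous
  have cY := cd_YY (a := a) (b := b) (p := p) hu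
  have cY' := cY.continuous
  have sY : HasCompactSupport (YY a b u p) := hc.smul_right
  have i0 : ∀ c : ℝ, Integrable (fun z => u z * Real.exp (-‖z - p‖ ^ 2 / c)) S.μ := fun c =>
    Continuous.integrable_of_hasCompactSupport (by fun_prop) hc.mul_right
  have i1 : Integrable (S.dv (YY a b u p)) S.μ :=
    (hS.cdv cY).integrable_of_hasCompactSupport (Srf.hcs_dv sY)
  have i2 : Integrable (fun z => S.H z * ⟪S.n z, YY a b u p z⟫) S.μ :=
    Continuous.integrable_of_hasCompactSupport (by fun_prop)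
      (sY.mono fun z hz k => hz (by simp [k]))
  have i3 : Integrable (fun z => u z * S.H z ^ 2) S.μ :=
    Continuous.integrable_of_hasCompactSupport (by fun_prop) hc.mul_right
  have i4 := int3 hS hu hc h1 a
  have j1 : Integrable (fun z => S.dv (YY a b u p) z - S.H z * ⟪S.n z, YY a b u p z⟫) S.μ :=
    i1.sub i2
  have j2 : Integrable (fun z => (S.dv (YY a b u p) z - S.H z * ⟪S.n z, YY a b u p z⟫) +
      2 / a * (u z * Real.exp (-‖z - p‖ ^ 2 / a))) S.μ := j1.add ((i0 a).const_mul _)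
  have j3 : Integrable (fun z => (S.dv (YY a b u p) z - S.H z * ⟪S.n z, YY a b u p z⟫) +
      2 / a * (u z * Real.exp (-‖z - p‖ ^ 2 / a)) + 1 / 4 * (u z * S.H z ^ 2)) S.μ :=
    j2.add (i3.const_mul _)
  have k := integral_mono_ae ((i0 b).const_mul (2 / b)) (j3.add i4)
    (hS.ae.mono fun z hz => pt hS hu (u0 z) hb h hz)
  simp only [Pi.add_apply] at k
  rw [integral_add j3 i4, integral_add j2 (i3.const_mul _), integral_add j1 ((i0 a).const_mul _),
    integral_sub i1 i2, fv' S _ hS cY sY, integral_const_mul, integral_const_mul,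
    integral_const_mul] at k
  linarith

end SwmAux

open SwmAux in
/-- Row Y.SWM. -/
theorem swm : SWM := by
  intro S Λ ρ u p hS hA hu hc u0 hp h1 hρ
  have := hA.fin
  have hA' := Gs.ar_max hA
  obtain ⟨r, hr, hb⟩ := Metric.eventually_nhds_iff_ball.1 h1
  have t1 : Tendsto (fun σ : ℝ => gs S.μ p σ - Gs.C0 * max Λ 0 * (8 * σ ^ 2 / r ^ 2)) (𝓝[>] 0)
      (𝓝 (1 - 0)) := by
    refine (sml'.2.1 S Λ p hS hA hp).sub ?_
    have : Continuous fun σ : ℝ => Gs.C0 * max Λ 0 * (8 * σ ^ 2 / r ^ 2) := by fun_prop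
    exact (this.tendsto' 0 0 (by simp)).mono_left nhdsWithin_le_nhds
  rw [sub_zero] at t1
  refine le_of_tendsto t1 ?_
  filter_upwards [Ioo_mem_nhdsGT hρ] with σ hσ
  have s0 := hσ.1
  have pi := Real.pi_pos
  have k1 := two hS hu hc u0 h1 (a := 4 * ρ ^ 2) (b := 4 * σ ^ 2) (by positivity)
    (by gcongr; exact hσ.2.le)
  have k2 := Gs.tail_gs (y := p) (le_max_right _ _) hA' s0 hr (measurableSet_ball (x := p)
    (ε := r)).compl (.of_forall fun x hx => not_lt.1 fun k => hx (mem_ball_iff_norm.2 k))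
  have k3 : ∫ z in ball p r, Real.exp (-‖z - p‖ ^ 2 / (4 * σ ^ 2)) ∂S.μ ≤
      ∫ z, u z * Real.exp (-‖z - p‖ ^ 2 / (4 * σ ^ 2)) ∂S.μ := by
    have cu := hu.continuous
    rw [setIntegral_congr_fun (g := fun z => u z * Real.exp (-‖z - p‖ ^ 2 / (4 * σ ^ 2)))
      measurableSet_ball fun z hz => by simp only [hb z hz, one_mul]]
    exact setIntegral_le_integral
      (Continuous.integrable_of_hasCompactSupport (by fun_prop) hc.mul_right)
      (.of_forall fun z => mul_nonneg (u0 z) (Real.exp_pos _).le)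
  have k4 := mul_le_mul_of_nonneg_left k3 (by positivity : 0 ≤ (4 * Real.pi * σ ^ 2)⁻¹)
  have k5 := mul_le_mul_of_nonneg_left k1 (by positivity : 0 ≤ (2 * Real.pi)⁻¹)
  rw [gs, ← integral_add_compl (measurableSet_ball (x := p) (ε := r))
    (Gs.intg (le_max_right _ _) hA' p (by positivity)), mul_add]
  have e : ∀ c I : ℝ, 0 < c → (2 * Real.pi)⁻¹ * (2 / (4 * c ^ 2) * I) =
      (4 * Real.pi * c ^ 2)⁻¹ * I := fun c I hc => by field_simp
  have e' : ∀ I : ℝ, (2 * Real.pi)⁻¹ * (1 / 4 * I) = (8 * Real.pi)⁻¹ * I := fun I => by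
    field_simp; ring
  rw [mul_add, mul_add, e _ _ s0, e _ _ hρ, e'] at k5
  linarith

end Vale.Agent.P218Y
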