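import Vale.Agent.P218Y.Spec
import Vale.Agent.P218R.Gsl

/-!
# P218Y, row TWO: a pair forces a Gaussian ratio near two
-/

open MeasureTheory Metric Filter Topology Set
open scoped ContDiff ENNReal RealInnerProductSpace
open Vale.Agent.P218R Vale.Agent.P218E Vale.Agent.P218Z

noncomputable section

namespace Vale.Agent.P218Y

namespace Two

/-- a cutoff at every scale -/
theorem cut : ∃ L : ℝ, 0 ≤ L ∧ ∀ (x : E3) (r : ℝ), 0 < r → ∃ χ : E3 → ℝ, ContDiff ℝ 1 χ ∧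
    (∀ z, 0 ≤ χ z ∧ χ z ≤ 1 ∧ ‖fderiv ℝ χ z‖ ≤ L / r) ∧ (∀ z ∈ ball x r, χ z = 1) ∧
    ∀ z ∉ closedBall x (2 * r), χ z = 0 := by
  let φ : ContDiffBump (0 : E3) := ⟨1, 2, one_pos, one_lt_two⟩
  have c : ContDiff ℝ 1 φ := φ.contDiff
  obtain ⟨L, hL⟩ := (c.continuous_fderiv one_ne_zero).bounded_above_of_compact_support
    (φ.hasCompactSupport.fderiv ℝ)
  refine ⟨L, (norm_nonneg _).trans (hL 0), fun x r r0 => ⟨fun z => φ (r⁻¹ • (z - x)), by fun_prop,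
    fun z => ⟨φ.nonneg, φ.le_one, ?_⟩, fun z hz => φ.one_of_mem_closedBall ?_,
    fun z hz => φ.zero_of_le_dist ?_⟩⟩
  · have := HasFDerivAt.comp (f := fun z => r⁻¹ • (z - x)) z
      (c.differentiable one_ne_zero (r⁻¹ • (z - x))).hasFDerivAt
      (((hasFDerivAt_id z).sub_const x).const_smul r⁻¹)
    refine (congrArg norm this.fderiv).trans_le ?_
    rw [div_eq_mul_inv]
    refine (ContinuousLinearMap.opNorm_comp_le _ _).trans (mul_le_mul (hL _) ?_ (norm_nonneg _)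
      ((norm_nonneg _).trans (hL 0)))
    rw [norm_smul, Real.norm_of_nonneg (by positivity)]
    exact mul_le_of_le_one_right (by positivity) ContinuousLinearMap.norm_id_le
  · rw [mem_closedBall_zero_iff, norm_smul, Real.norm_of_nonneg (by positivity), inv_mul_le_iff₀ r0]
    exact (mem_ball_iff_norm.1 hz).le.trans_eq (mul_one r).symm
  · rw [dist_zero_right, norm_smul, Real.norm_of_nonneg (by positivity), le_inv_mul_iff₀ r0]
    rw [mem_closedBall_iff_norm, not_le] at hz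
    show r * 2 ≤ _
    linarith

/-- the profile -/
structure Prof (L : ℝ) (g : ℝ → ℝ) : Prop where
  cd : ContDiff ℝ 1 g
  bd : ∀ s, 0 ≤ g s ∧ g s ≤ 1 ∧ |deriv g s| ≤ L
  lo : ∀ s, deriv g s ≠ 0 → 1 / 3 ≤ s ∧ s ≤ 2 / 3

theorem prof : ∃ (L : ℝ) (g : ℝ → ℝ), Prof L g ∧ Prof L (fun s => 1 - g s) ∧
    (∀ s < 1 / 3, g s = 0) ∧ ∀ s > 2 / 3, g s = 1 := by
  let g : ℝ → ℝ := fun s => Real.smoothTransition (3 * s - 1)
  have c : ContDiff ℝ 1 g := Real.smoothTransition.contDiff.comp (by fun_prop)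
  have g0 : ∀ s < 1 / 3, g s = 0 := fun s hs => Real.smoothTransition.zero_of_nonpos (by linarith)
  have g1 : ∀ s > 2 / 3, g s = 1 := fun s hs => Real.smoothTransition.one_of_one_le (by linarith)
  have lo : ∀ s, deriv g s ≠ 0 → 1 / 3 ≤ s ∧ s ≤ 2 / 3 := fun s hs => by
    refine ⟨not_lt.1 fun h => hs ?_, not_lt.1 fun h => hs ?_⟩
    · rw [EventuallyEq.deriv_eq ((gt_mem_nhds h).mono g0 : g =ᶠ[𝓝 s] fun _ => 0), deriv_const]
    · rw [EventuallyEq.deriv_eq ((lt_mem_nhds h).mono g1 : g =ᶠ[𝓝 s] fun _ => 1), deriv_const]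
  obtain ⟨L, hL⟩ := (c.continuous_deriv le_rfl).bounded_above_of_compact_support
    (HasCompactSupport.intro isCompact_Icc fun s hs => by_contra fun h => hs (lo s h))
  have b := fun s => And.intro (Real.smoothTransition.nonneg (3 * s - 1))
    (Real.smoothTransition.le_one (3 * s - 1))
  exact ⟨L, g, ⟨c, fun s => ⟨(b s).1, (b s).2, hL s⟩, lo⟩, ⟨contDiff_const.sub c, fun s =>
    ⟨sub_nonneg.2 (b s).2, sub_le_self _ (b s).1, by rw [deriv_const_sub, abs_neg]; exact hL s⟩,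
    fun s hs => lo s (by simpa [deriv_const_sub] using hs)⟩, g0, g1⟩

theorem young {τ β : ℝ} (h0 : 0 ≤ τ) (hβ : 0 < β) : τ ≤ β + (τ ^ 2) ^ 4 / β ^ 7 := by
  rcases le_total τ β with h | h
  · exact h.trans (le_add_of_nonneg_right (by positivity))
  · refine le_trans ?_ (le_add_of_nonneg_left hβ.le)
    rw [le_div_iff₀ (by positivity), show (τ ^ 2) ^ 4 = τ * τ ^ 7 by ring]
    gcongr

variable {S : Srf} {L L' r h : ℝ} {g : ℝ → ℝ} {χ : E3 → ℝ} {x z n : E3}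

theorem tg_le (hS : S.Ok) (hz : S.w z = 0) (hg : Prof L g) (hχ : ContDiff ℝ 1 χ) (c0 : 0 ≤ χ z)
    (c1 : χ z ≤ 1) : ‖S.tg (fun z => χ z * g (⟪n, z - x⟫ / h)) z‖ ≤
      ‖fderiv ℝ χ z‖ + |deriv g (⟪n, z - x⟫ / h)| / |h| * ‖S.P z n‖ := by
  set u := fun z => χ z * g (⟪n, z - x⟫ / h)
  have a : HasFDerivAt (fun z => ⟪n, z - x⟫ / h) (h⁻¹ • innerSL ℝ n) z := by
    simpa [div_eq_inv_mul, Function.comp_def] using
      (((innerSL ℝ n).hasFDerivAt.comp z ((hasFDerivAt_id z).sub_const x)).const_mul h⁻¹)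
  have b : HasFDerivAt u _ z := (hχ.differentiable one_ne_zero z).hasFDerivAt.mul
    ((hg.cd.differentiable one_ne_zero _).hasDerivAt.comp_hasFDerivAt z a)
  have e := Srf.inner_tg u z (S := S) (S.tg u z)
  rw [b.fderiv, real_inner_self_eq_norm_sq] at e
  simp only [add_apply, smul_apply, smul_eq_mul,
    innerSL_apply_apply] at e
  rw [← Srf.P_sym] at e
  have e1 := abs_real_inner_le_norm (S.P z n) (S.tg u z)
  have e2 : |fderiv ℝ χ z (S.P z (S.tg u z))| ≤ ‖fderiv ℝ χ z‖ * ‖S.tg u z‖ :=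
    ((fderiv ℝ χ z).le_opNorm _).trans (mul_le_mul_of_nonneg_left (hS.norm_P_le hz _) (norm_nonneg _))
  obtain ⟨g0, g1, -⟩ := hg.bd (⟪n, z - x⟫ / h)
  have e3 : ‖S.tg u z‖ ^ 2 ≤ (‖fderiv ℝ χ z‖ + |deriv g (⟪n, z - x⟫ / h)| / |h| * ‖S.P z n‖) *
      ‖S.tg u z‖ := by
    rw [e, add_comm, add_mul]
    refine add_le_add ((le_abs_self _).trans ?_) ((le_abs_self _).trans ?_)
    · rw [abs_mul, abs_of_nonneg g0]
      exact (mul_le_of_le_one_left (abs_nonneg _) g1).trans e2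
    · rw [abs_mul, abs_of_nonneg c0, abs_mul, abs_mul, abs_inv, div_eq_mul_inv _ |h|, mul_assoc,
        mul_assoc]
      refine (mul_le_of_le_one_left (by positivity) c1).trans ?_
      gcongr
  rcases (norm_nonneg (S.tg u z)).eq_or_lt with f | f
  · rw [← f]; positivity
  · exact le_of_mul_le_mul_right (by rwa [← sq]) f

/-- the monotonicity formula for one sheet -/
theorem one (sw : SWM) {Λ d ρ β γ ε : ℝ} {p : E3} (hS : S.Ok) (hΛ : 0 ≤ Λ) (hA : AR Λ S.μ)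
    (hg : Prof L g) (hχ : ContDiff ℝ 1 χ) (c1 : ∀ z, 0 ≤ χ z ∧ χ z ≤ 1 ∧ ‖fderiv ℝ χ z‖ ≤ L' / r)
    (c2 : ∀ z ∈ ball x r, χ z = 1) (c3 : ∀ z ∉ closedBall x (2 * r), χ z = 0) (hn : ‖n‖ = 1)
    (hp : S.w p = 0) (d0 : 0 < d) (hpx : ‖p - x‖ ≤ d) (hr : 2 * d ≤ r) (hh : d / 2 ≤ |h|)
    (g1 : ∀ᶠ z in 𝓝 p, g (⟪n, z - x⟫ / h) = 1)
    (far : ∀ z, 1 / 3 ≤ ⟪n, z - x⟫ / h → ⟪n, z - x⟫ / h ≤ 2 / 3 → d / 6 ≤ ‖z - p‖) (ρ0 : 0 < ρ)
    (β0 : 0 < β) (hε : Real.exp (-(r - d) ^ 2 / (4 * ρ ^ 2)) ≤ ε)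
    (hH : ∫ z in ball x (3 * r), S.H z ^ 2 ∂S.μ ≤ γ)
    (hT : ∫ z in ball x (3 * r), (1 - ⟪n, S.n z⟫ ^ 2) ^ 4 ∂S.μ ≤ γ * d ^ 2) :
    1 ≤ (4 * Real.pi * ρ ^ 2)⁻¹ * ∫ z, χ z * g (⟪n, z - x⟫ / h) *
      Real.exp (-‖z - p‖ ^ 2 / (4 * ρ ^ 2)) ∂S.μ +
      (γ + (8 * Λ * L' * ε + 12 * L * (4 * β * Λ * (r / d) ^ 2 + γ / β ^ 7))) := by
  have := hA.fin
  have r0 : 0 < r := by linarith
  have L0 : 0 ≤ L := (abs_nonneg _).trans (hg.bd 0).2.2
  have L1 : 0 ≤ L' / r := (norm_nonneg _).trans (c1 x).2.2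
  have ε0 := (Real.exp_pos _).trans_le hε
  have sub : closedBall x (2 * r) ⊆ ball x (3 * r) := closedBall_subset_ball (by linarith)
  have io : ∀ {f : E3 → ℝ}, Continuous f → IntegrableOn f (ball x (3 * r)) S.μ := fun hf =>
    (hf.continuousOn.integrableOn_compact (isCompact_closedBall x (3 * r))).mono_set ball_subset_closedBall
  have key : ∀ {f F : E3 → ℝ}, Continuous F → (∀ z, 0 ≤ f z) → (∀ z, S.w z = 0 →
      (z ∉ closedBall x (2 * r) → f z = 0) ∧ f z ≤ F z) →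
      ∫ z, f z ∂S.μ ≤ ∫ z in closedBall x (2 * r), F z ∂S.μ := fun {f F} hF f0 h => by
    rw [← integral_indicator measurableSet_closedBall]
    refine integral_mono_of_nonneg (.of_forall f0) ((integrable_indicator_iff
      measurableSet_closedBall).2 ((io hF).mono_set sub)) (hS.ae.mono fun z hz => ?_)
    by_cases e : z ∈ closedBall x (2 * r)
    · rw [indicator_of_mem e]; exact (h z hz).2
    · rw [indicator_of_notMem e]; exact ((h z hz).1 e).le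
  have up : ∀ {F : E3 → ℝ}, Continuous F → (∀ z, 0 ≤ F z) →
      ∫ z in closedBall x (2 * r), F z ∂S.μ ≤ ∫ z in ball x (3 * r), F z ∂S.μ := fun hF h =>
    setIntegral_mono_set (io hF) (.of_forall h) sub.eventuallyLE
  have u0 : ∀ z, 0 ≤ χ z * g (⟪n, z - x⟫ / h) := fun z => mul_nonneg (c1 z).1 (hg.bd _).1
  have cH : Continuous fun z => S.H z ^ 2 := hS.sH.continuous.pow 2
  have cT : Continuous fun z => (1 - ⟪n, S.n z⟫ ^ 2) ^ 4 := by have := hS.sn.continuous; fun_prop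
  have T0 : ∀ z, 0 ≤ (1 - ⟪n, S.n z⟫ ^ 2) ^ 4 := fun z => by positivity
  refine (sw S Λ ρ (fun z => χ z * g (⟪n, z - x⟫ / h)) p hS hA (hχ.mul (hg.cd.comp ((contDiff_const.inner ℝ
    (contDiff_id.sub contDiff_const)).div_const h))) (HasCompactSupport.intro
      (isCompact_closedBall x (2 * r)) fun z hz => by rw [c3 z hz, zero_mul]) u0 hp ?_ ρ0).trans ?_
  · filter_upwards [g1, isOpen_ball.mem_nhds (mem_ball_iff_norm.2 (show ‖p - x‖ < r by linarith))]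
      with z a b
    rw [a, c2 z b, one_mul]
  have pi := Real.pi_gt_three
  rw [add_assoc]
  refine add_le_add le_rfl (add_le_add ?_ ?_)
  · refine (mul_le_of_le_one_left (integral_nonneg fun z => mul_nonneg (u0 z) (sq_nonneg _))
      (inv_le_one_of_one_le₀ (by linarith))).trans ((key cH (fun z => mul_nonneg (u0 z) (sq_nonneg _))
        fun z _ => ⟨fun e => by rw [c3 z e, zero_mul, zero_mul], mul_le_of_le_one_left (sq_nonneg _)
          (mul_le_one₀ (c1 z).2.1 (hg.bd _).1 (hg.bd _).2.1)⟩).trans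
            ((up cH fun _ => sq_nonneg _).trans hH))
  refine (mul_le_of_le_one_left (integral_nonneg fun z => by positivity)
    (inv_le_one_of_one_le₀ (by linarith))).trans ((key (F := fun z => (L' / r * ε / (r / 2) +
      12 * L / d ^ 2 * β) + 12 * L / d ^ 2 / β ^ 7 * (1 - ⟪n, S.n z⟫ ^ 2) ^ 4) (by fun_prop)
      (fun z => by positivity) fun z hz => ⟨fun e => ?_, ?_⟩).trans ?_)
  · rw [Srf.tg, EventuallyEq.gradient_eq (f := fun _ => 0) ((isClosed_closedBall.isOpen_compl.eventually_mem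
      e).mono fun z hz => by simp only [c3 z hz, zero_mul])]
    simp
  · have e1 : Real.exp (-‖z - p‖ ^ 2 / (4 * ρ ^ 2)) ≤ 1 :=
      Real.exp_le_one_iff.2 (div_nonpos_of_nonpos_of_nonneg (neg_nonpos.2 (sq_nonneg _)) (by positivity))
    refine (div_le_div_of_nonneg_right (mul_le_mul_of_nonneg_right (tg_le hS hz hg hχ (c1 z).1
      (c1 z).2.1) (Real.exp_pos _).le) (norm_nonneg _)).trans ?_
    rw [add_mul, add_div, add_assoc]
    refine add_le_add ?_ ?_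
    · by_cases e : z ∈ ball x r
      · rw [EventuallyEq.fderiv_eq (f := fun _ => 1) ((isOpen_ball.eventually_mem e).mono c2)]
        simp only [fderiv_fun_const, Pi.zero_apply, norm_zero, zero_mul, zero_div]
        positivity
      rw [mem_ball_iff_norm, not_lt] at e
      have a : r - d ≤ ‖z - p‖ := by linarith [norm_sub_le_norm_sub_add_norm_sub z p x]
      refine div_le_div₀ (by positivity) (mul_le_mul (c1 z).2.2 (le_trans (Real.exp_le_exp.2 ?_) hε)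
        (Real.exp_pos _).le L1) (by positivity) (by linarith)
      exact div_le_div_of_nonneg_right (neg_le_neg (pow_le_pow_left₀ (by linarith) a 2)) (by positivity)
    · by_cases e : deriv g (⟪n, z - x⟫ / h) = 0
      · rw [e, abs_zero, zero_div, zero_mul, zero_mul, zero_div]; positivity
      have a := far z (hg.lo _ e).1 (hg.lo _ e).2
      have b := young (norm_nonneg (S.P z n)) β0
      rw [hS.norm_P_sq hz, hn, one_pow, real_inner_comm] at b
      calc _ ≤ L / (d / 2) * (β + (1 - ⟪n, S.n z⟫ ^ 2) ^ 4 / β ^ 7) * 1 / (d / 6) := by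
            gcongr
            exact (hg.bd _).2.2
        _ = _ := by field_simp; ring
  · rw [integral_add ((io continuous_const).mono_set sub) (((io cT).mono_set sub).const_mul _), setIntegral_const,
      integral_const_mul, smul_eq_mul]
    calc _ ≤ Λ * (2 * r) ^ 2 * (L' / r * ε / (r / 2) + 12 * L / d ^ 2 * β) +
          12 * L / d ^ 2 / β ^ 7 * (γ * d ^ 2) := by
          gcongr
          exacts [hA.real hΛ (by positivity) subset_rfl, (up cT T0).trans hT]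
      _ = _ := by field_simp; ring

theorem main {Λ K k d : ℝ} {μ : Measure E3} {y : E3} (hΛ : 0 ≤ Λ) (hA : AR Λ μ) (hg : Prof L g)
    (hg' : Prof L fun s => 1 - g s) (c0 : Continuous χ) (c1 : ∀ z, 0 ≤ χ z ∧ χ z ≤ 1) (K1 : 1 ≤ K)
    (hK : K⁻¹ ≤ k) (d0 : 0 < d) (hd : ‖y - x‖ = d) :
    (4 * Real.pi * (K * d) ^ 2)⁻¹ * ∫ z, χ z * (1 - g (⟪n, z - x⟫ / h)) *
      Real.exp (-‖z - x‖ ^ 2 / (4 * (K * d) ^ 2)) ∂μ + (4 * Real.pi * (K * d) ^ 2)⁻¹ *
      ∫ z, χ z * g (⟪n, z - x⟫ / h) * Real.exp (-‖z - y‖ ^ 2 / (4 * (K * d) ^ 2)) ∂μ ≤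
      gs μ x (K * d) + 12288 * Gs.C0 * Λ * k := by
  have C0 := Gs.C0_pos
  have ρ0 : 0 < K * d := by positivity
  have k0 : 0 ≤ k := le_trans (by positivity) hK
  have i : ∀ (p : E3) {g : ℝ → ℝ}, Prof L g → Integrable (fun z => χ z * g (⟪n, z - x⟫ / h) *
      Real.exp (-‖z - p‖ ^ 2 / (4 * (K * d) ^ 2))) μ := fun p g hg =>
    (Gs.intg hΛ hA p (by positivity)).bdd_mul (c := 1) (c0.mul
      (hg.cd.continuous.comp (by fun_prop))).aestronglyMeasurable (.of_forall fun z => by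
        rw [Real.norm_of_nonneg (mul_nonneg (c1 z).1 (hg.bd _).1)]
        exact mul_le_one₀ (c1 z).2 (hg.bd _).1 (hg.bd _).2.1)
  have j := Gs.intg hΛ hA x (show 0 < 64 * (K * d) ^ 2 by positivity)
  have b := integral_mono ((i x hg').add (i y hg)) ((Gs.intg hΛ hA x
    (show 0 < 4 * (K * d) ^ 2 by positivity)).add (j.const_mul (768 * K⁻¹))) fun z => ?_
  · simp only [Pi.add_apply] at b
    rw [integral_add (i x hg') (i y hg), integral_add (Gs.intg hΛ hA x (by positivity))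
      (j.const_mul _), integral_const_mul] at b
    rw [← mul_add]
    refine (mul_le_mul_of_nonneg_left b (by positivity)).trans ?_
    rw [mul_add]
    refine add_le_add le_rfl ?_
    calc _ ≤ (4 * Real.pi * (K * d) ^ 2)⁻¹ * (768 * k * (Gs.C0 * Λ * (64 * (K * d) ^ 2))) := by
          gcongr
          exact Gs.int_le hΛ hA x (by positivity)
      _ = 12288 * Gs.C0 * Λ * k / Real.pi := by field_simp; ring
      _ ≤ _ := div_le_self (by positivity) (by linarith [Real.pi_gt_three])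
  · have l := Gs.lip_real (u := ‖z - x‖ / (K * d)) (u' := ‖z - y‖ / (K * d)) (t := 1) (d := K⁻¹)
      (by positivity) (by positivity) (by
        rw [← sub_div, abs_div, abs_of_pos ρ0, div_le_iff₀ ρ0, inv_mul_cancel_left₀ (by positivity), ← hd]
        simpa [norm_sub_rev x y] using abs_norm_sub_norm_le (z - y) (z - x))
      (inv_le_one_of_one_le₀ K1) (by norm_num) (by norm_num)
    rw [show -((‖z - y‖ / (K * d)) ^ 2 / (4 * 1 ^ 2)) = -‖z - y‖ ^ 2 / (4 * (K * d) ^ 2) by field_simp,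
      show -((‖z - x‖ / (K * d)) ^ 2 / 4) = -‖z - x‖ ^ 2 / (4 * (K * d) ^ 2) by field_simp,
      show -((‖z - x‖ / (K * d)) ^ 2 / 64) = -‖z - x‖ ^ 2 / (64 * (K * d) ^ 2) by field_simp] at l
    simp only [one_pow, inv_one, one_mul, sub_self, abs_zero, add_zero] at l
    simp only [Pi.add_apply]
    obtain ⟨x0, x1⟩ := c1 z
    obtain ⟨y0, y1, -⟩ := hg.bd (⟪n, z - x⟫ / h)
    linarith [mul_le_mul_of_nonneg_left (abs_le.1 l).2 (mul_nonneg x0 y0),
      mul_le_of_le_one_left ((abs_nonneg _).trans l) (mul_le_one₀ x1 y0 y1),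
      mul_le_of_le_one_left (Real.exp_pos (-‖z - x‖ ^ 2 / (4 * (K * d) ^ 2))).le x1]

theorem small {A ε : ℝ} (hA : 0 ≤ A) (hε : 0 < ε) : ∃ β > (0 : ℝ), A * β ≤ ε :=
  ⟨ε / (A + 1), by positivity, by rw [← mul_div_assoc, div_le_iff₀ (by positivity)]; nlinarith⟩

theorem rad {K ε : ℝ} (K1 : 1 ≤ K) (ε0 : 0 < ε) : ∃ R : ℝ, 2 ≤ R ∧ K ≤ R ∧ ∀ d : ℝ, 0 < d →
    Real.exp (-(R * d - d) ^ 2 / (4 * (K * d) ^ 2)) ≤ ε := by
  obtain ⟨m, m1, m0⟩ := ((Real.tendsto_exp_neg_atTop_nhds_zero.eventually (ge_mem_nhds ε0)).and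
    (eventually_ge_atTop 1)).exists
  refine ⟨1 + 2 * m * K, by nlinarith, by nlinarith, fun d d0 => le_trans (Real.exp_le_exp.2 ?_) m1⟩
  rw [show -((1 + 2 * m * K) * d - d) ^ 2 / (4 * (K * d) ^ 2) = -m ^ 2 by field_simp; ring]
  nlinarith

theorem far {d s : ℝ} {v : E3} (hn : ‖n‖ = 1) (d0 : 0 < d) (hh : d / 2 ≤ |h|) (a : ⟪n, v⟫ = s * h)
    (b : 1 / 3 ≤ |s|) : d / 6 ≤ ‖v‖ := by
  have := abs_real_inner_le_norm n v
  rw [a, abs_mul, hn] at this
  linarith [mul_le_mul b hh (by positivity) (abs_nonneg s)]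

end Two

open Two in
theorem two (sw : SWM) : TWO := by
  intro Λ₀ η η0
  obtain ⟨Λ, hΛ, ar⟩ : ∃ Λ, 0 ≤ Λ ∧ ∀ μ, AR Λ₀ μ → AR Λ μ := ⟨_, le_max_right _ _, fun _ => Gs.ar_max⟩
  obtain ⟨L', L1, cut⟩ := cut
  obtain ⟨L, g, hg, hg', g0, g1⟩ := prof
  have L0 : 0 ≤ L := (abs_nonneg _).trans (hg.bd 0).2.2
  have C0 := Gs.C0_pos
  have η1 : 0 < η / 10 := by positivity
  obtain ⟨k, k0, hk⟩ := small (show 0 ≤ 12288 * Gs.C0 * Λ by positivity) η1
  obtain ⟨ε, ε0, hε⟩ := small (show 0 ≤ 8 * Λ * L' by positivity) η1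
  obtain ⟨K, K1, hK⟩ : ∃ K : ℝ, 1 ≤ K ∧ K⁻¹ ≤ k :=
    ⟨max 1 k⁻¹, le_max_left _ _, inv_le_of_inv_le₀ k0 (le_max_right _ _)⟩
  obtain ⟨R, R2, RK, e⟩ := rad K1 ε0
  obtain ⟨β, β0, hβ⟩ := small (show 0 ≤ 48 * L * Λ * R ^ 2 by positivity) η1
  obtain ⟨γ, γ0, hγ⟩ := small (show 0 ≤ 1 + 12 * L / β ^ 7 by positivity) η1
  refine ⟨3 * R, by linarith, γ, γ0, fun S x y hS hA hx hy hne hh hH hT => ?_⟩
  replace hA := ar _ hA
  have d0 : 0 < ‖y - x‖ := norm_pos_iff.2 (sub_ne_zero.2 hne)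
  rw [real_inner_comm] at hh
  rw [mul_assoc] at hH hT
  have h0 : ⟪S.n x, y - x⟫ ≠ 0 := abs_pos.1 ((half_pos d0).trans_le hh)
  have hn := hS.norm_n hx
  have ρ0 : 0 < K * ‖y - x‖ := by positivity
  obtain ⟨χ, c0, c1, c2, c3⟩ := cut x (R * ‖y - x‖) (by positivity)
  have cn := hS.sn.continuous
  have hT' : ∫ z in ball x (3 * (R * ‖y - x‖)), (1 - ⟪S.n x, S.n z⟫ ^ 2) ^ 4 ∂S.μ ≤ γ * ‖y - x‖ ^ 2 := by
    rw [integral_eq_lintegral_of_nonneg_ae (.of_forall fun z => by positivity)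
      (Continuous.aestronglyMeasurable (by fun_prop))]
    exact ENNReal.toReal_le_of_le_ofReal (by positivity) hT
  have ca : Continuous fun z : E3 => ⟪S.n x, z - x⟫ / ⟪S.n x, y - x⟫ := by fun_prop
  have hr := mul_le_mul_of_nonneg_right R2 d0.le
  have a1 := one sw hS hΛ hA hg' c0 c1 c2 c3 hn hx d0 (by simp) hr hh
    ((ca.continuousAt.eventually (gt_mem_nhds (show ⟪S.n x, x - x⟫ / _ < 1 / 3 by simp))).mono
      fun z hz => by rw [g0 _ hz, sub_zero])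
    (fun z a _ => far hn d0 hh (div_mul_cancel₀ _ h0).symm (a.trans (le_abs_self _))) ρ0 β0 (e _ d0) hH hT'
  have a2 := one sw hS hΛ hA hg c0 c1 c2 c3 hn hy d0 le_rfl hr hh
    ((ca.continuousAt.eventually (lt_mem_nhds (show 2 / 3 < ⟪S.n x, y - x⟫ / _ by
      rw [div_self h0]; norm_num))).mono fun z hz => g1 _ hz)
    (fun z _ a => far (s := ⟪S.n x, z - x⟫ / ⟪S.n x, y - x⟫ - 1) hn d0 hh (by
      rw [sub_mul, div_mul_cancel₀ _ h0, one_mul, ← inner_sub_right, sub_sub_sub_cancel_right])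
      (le_trans (by linarith only [a]) (neg_le_abs _))) ρ0 β0 (e _ d0) hH hT'
  rw [mul_div_cancel_right₀ _ d0.ne'] at a1 a2
  refine ⟨_, ρ0, mul_le_mul_of_nonneg_right (by linarith only [RK, R2]) d0.le, ?_⟩
  have b := main (n := S.n x) (h := ⟪S.n x, y - x⟫) hΛ hA hg hg' c0.continuous
    (fun z => ⟨(c1 z).1, (c1 z).2.1⟩) K1 hK d0 rfl
  rw [add_mul, div_mul_eq_mul_div, mul_div_assoc] at hγ
  linarith only [a1, a2, b, hk, hε, hβ, hγ, η0]

end Vale.Agent.P218Y
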