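import Vale.Agent.P218Y.Fin
import Vale.Agent.P218Y.Cov
import Vale.Agent.P218Y.Das
import Vale.Agent.P218Y.Dns
import Vale.Agent.P218Y.Dps
import Vale.Agent.P218Y.Dpu
import Vale.Agent.P218Y.Los
import Vale.Agent.P218Y.Swm
import Vale.Agent.P218Y.Two

/-!
# P218Y: uniqueness of tangent flows for almost regular flows
-/

open MeasureTheory Set
open Vale.Agent.P218 (IsIntegralBrakkeFlow TangentFlowUnique)
open Vale.Agent.P218R

namespace Vale.Agent.P218Y

theorem dns0 : DNS := dns (das dpu) los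

theorem lcs0 : LCS := lcs (spn (cmc dns0 los) rig)

theorem spn0 : SPN := spn (cmc dns0 los) rig

theorem np0 : NP := np (two swm)

theorem fin4 {μ : ℝ → Measure E3} {x₀ : E3} {t₀ a : ℝ} {M : ℝ → Set E3} (hS : P218T.TStar)
    (hB : IsIntegralBrakkeFlow 2 μ) (h0 : μ 0 univ < ⊤) (ht : 0 < t₀) (ha : a < t₀)
    (hM : IsAlmostReg M a t₀) (hμ : ∀ t ∈ Ioo a t₀, μ t = (μH[2] : Measure E3).restrict (M t)) :
    TangentFlowUnique 2 μ x₀ t₀ := finY cov dns0 los dps (two swm) hS hB h0 ht ha hM hμ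

end Vale.Agent.P218Y
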