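import Vale.Agent.P218Y.Spec

/-!
# P218Y: the induction on the density
-/

open MeasureTheory Metric Filter Topology Set
open Vale.Agent.P218R

noncomputable section

namespace Vale.Agent.P218Y

theorem din : DIN := by
  intro Sg P Θ a b δ C d0 cpt ae usc low lin step p₀ hp₀ ht₀
  by_contra hn
  set A : Set (ℝ × E3) := {p | p ∈ Sg ∧ p.1 ∈ Ioo a b ∧ ¬ P p} with hA
  have BS : ∀ p ∈ closure A, p.1 ∈ Ioo a b → p ∈ Sg ∧ 2 ≤ Θ p := fun p hp ht => by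
    have fr := mem_closure_iff_frequently.1 hp
    obtain ⟨c, c1, c2⟩ := exists_between ht.1
    obtain ⟨d, d1, d2⟩ := exists_between ht.2
    refine ⟨((cpt c d c1 d2).isClosed.mem_of_frequently_of_tendsto ((fr.and_eventually
      ((continuous_fst.tendsto p).eventually (Icc_mem_nhds c2 d1))).mono fun q hq =>
        ⟨hq.1.1, hq.2, trivial⟩) tendsto_id).1, not_lt.1 fun h => ?_⟩
    obtain ⟨q, q1, q2⟩ := (fr.and_eventually ((usc p ht).2 2 h)).exists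
    exact q1.2.2 (low q q1.1 q1.2.1 q2)
  set V : Set ℝ := {v | ∃ c d, a ≤ c ∧ d ≤ b ∧ (∃ p ∈ closure A, p.1 ∈ Ioo c d) ∧
    ∀ p ∈ closure A, p.1 ∈ Ioo c d → Θ p ≤ v} with hV
  have V2 : BddBelow V := ⟨2, fun v ⟨c, d, h1, h2, ⟨p, p1, p2⟩, h3⟩ =>
    (BS p p1 (Ioo_subset_Ioo h1 h2 p2)).2.trans (h3 p p1 p2)⟩
  obtain ⟨v, ⟨c, d, hc, hd, ⟨y, y1, y2⟩, hv⟩, hm⟩ := exists_lt_of_csInf_lt (s := V)
    ⟨C, a, b, le_rfl, le_rfl, ⟨p₀, subset_closure ⟨hp₀, ht₀, hn⟩, ht₀⟩,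
      fun p _ h => (usc p h).1⟩ (lt_add_of_pos_right _ (half_pos d0))
  have sub := Ioo_subset_Ioo hc hd
  obtain ⟨u, hu, hu'⟩ := Measure.exists_mem_of_measure_ne_zero_of_ae (μ := volume) (s := Ioo c y.1)
    (by simpa using y2.1) (ae_restrict_of_ae ae)
  have u1 : u ∈ Ioo a b := sub ⟨hu.1, hu.2.trans y2.2⟩
  obtain ⟨e, e1, e2⟩ := exists_between y2.2
  have K : IsCompact (closure A ∩ Icc u e ×ˢ univ) := (cpt u e u1.1 (e2.trans_le hd)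
    ).of_isClosed_subset (isClosed_closure.inter (isClosed_Icc.prod isClosed_univ)) fun p hp =>
      ⟨(BS p hp.1 (sub ⟨hu.1.trans_le hp.2.1.1, hp.2.1.2.trans_lt e2⟩)).1, hp.2⟩
  obtain ⟨z, ⟨z1, z2, -⟩, hz⟩ := K.exists_isMinOn ⟨y, y1, ⟨hu.2.le, e1.le⟩, trivial⟩
    continuous_fst.continuousOn
  have z3 : z.1 < e := (hz ⟨y1, ⟨hu.2.le, e1.le⟩, trivial⟩).trans_lt e1
  have z4 : z.1 ∈ Ioo c d := ⟨hu.1.trans_le z2.1, z3.trans e2⟩
  have z5 : u < z.1 := z2.1.lt_of_ne fun h => hu' u1 z.2 (h ▸ (BS z z1 (sub z4)).1)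
  have good : ∀ x, P (z.1, x) := step u z.1 u1.1 z5 (sub z4).2 fun p hp ht => by_contra fun h =>
    not_lt.2 (hz ⟨subset_closure ⟨hp, ⟨u1.1.trans ht.1, ht.2.trans (sub z4).2⟩, h⟩,
      ⟨ht.1.le, (ht.2.trans z3).le⟩, trivial⟩) ht.2
  have ex : ∀ i : ℕ, ∃ p ∈ closure A, p.1 ∈ Ioo z.1 (min e (z.1 + 1 / ((i : ℝ) + 1))) ∧
      sInf V - δ / 2 < Θ p := fun i => by
    by_contra! h
    refine absurd (csInf_le V2 ⟨z.1, _, (sub z4).1.le, (min_le_left _ _).trans (e2.le.trans hd),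
      ?_, h⟩) (by linarith)
    obtain ⟨q, q1, q2⟩ := ((mem_closure_iff_frequently.1 z1).and_eventually
      ((continuous_fst.tendsto z).eventually (Ioo_mem_nhds z5
        (lt_min z3 (lt_add_of_pos_right _ (Nat.one_div_pos_of_nat (n := i))))))).exists
    refine ⟨q, subset_closure q1, lt_of_le_of_ne (hz ⟨subset_closure q1,
      ⟨q2.1.le, (q2.2.trans_le (min_le_left _ _)).le⟩, trivial⟩) fun h => q1.2.2 ?_, q2.2⟩
    exact (show q = (z.1, q.2) from Prod.ext h.symm rfl) ▸ good q.2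
  choose Y Y1 Y2 Y3 using ex
  obtain ⟨w, ⟨w1, -⟩, φ, hφ, hw⟩ := K.tendsto_subseq fun i => (⟨Y1 i, ⟨(z5.trans (Y2 i).1).le,
    ((Y2 i).2.trans_le (min_le_left _ _)).le⟩, trivial⟩ : Y i ∈ closure A ∩ Icc u e ×ˢ univ)
  have f1 := (continuous_fst.tendsto w).comp hw
  have w2 : w.1 = z.1 := le_antisymm (le_of_tendsto_of_tendsto' f1 (by
    simpa using ((tendsto_one_div_add_atTop_nhds_zero_nat (𝕜 := ℝ)).comp
      hφ.tendsto_atTop).const_add z.1) fun i => by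
        simpa using ((Y2 (φ i)).2.trans_le (min_le_right _ _)).le)
    (ge_of_tendsto' f1 fun i => (Y2 (φ i)).1.le)
  have w3 : w.1 ∈ Ioo c d := w2 ▸ z4
  obtain ⟨w4, w5⟩ := BS w w1 (sub w3)
  obtain ⟨r₀, r0, hr⟩ := lin w w4 (sub w3) ((show w = (z.1, w.2) from Prod.ext w2 rfl) ▸ good w.2)
  have f2 : Tendsto (fun i => max √|(Y (φ i)).1 - w.1| ‖(Y (φ i)).2 - w.2‖) atTop (𝓝 0) := by
    simpa using (f1.sub_const w.1).abs.sqrt.max
      (((continuous_snd.tendsto w).comp hw).sub_const w.2).norm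
  obtain ⟨i, hi⟩ := (f2.eventually_lt_const r0).exists
  have p1 : 0 < √|(Y (φ i)).1 - w.1| :=
    Real.sqrt_pos.2 (abs_pos.2 (sub_ne_zero.2 (w2 ▸ (Y2 (φ i)).1).ne'))
  have p2 := le_max_left √|(Y (φ i)).1 - w.1| ‖(Y (φ i)).2 - w.2‖
  obtain ⟨e', -, he⟩ := hr _ ⟨p1.trans_le p2, hi⟩
  obtain ⟨k1, -, k2⟩ := he (Y (φ i)) (Real.sqrt_le_left (p1.le.trans p2) |>.1 p2) (le_max_right _ _)
    (by linarith [Y3 (φ i), hv w w1 w3])
  have k3 := (Real.sqrt_lt' (by linarith)).2 k1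
  have k4 := max_lt k3 (k2 w5)
  linarith

end Vale.Agent.P218Y
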