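import Vale.Agent.P218Y.Port

/-!
# P218Y: the density, and blowing up along a given sequence of scales
-/

open MeasureTheory Metric Filter Topology Set
open scoped ContDiff ENNReal RealInnerProductSpace NNReal
open Vale.Agent.P218 (limitSet WeakTendsto Slow)
open Vale.Agent.P218.H552 (NN ext)
open Vale.Agent.P218R Vale.Agent.P218E Vale.Agent.P218Z

noncomputable section

namespace Vale.Agent.P218Y

theorem gs_lim3 {ν : ℕ → Measure E3} {κ : Measure E3} {Λ ρ' : ℝ} {z : ℕ → E3} {z' : E3}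
    {ρ : ℕ → ℝ} (hκ : IsLocallyFiniteMeasure κ) (hA : ∀ᶠ i in atTop, AR Λ (ν i))
    (hw : WeakTendsto ν κ) (hz : Tendsto z atTop (𝓝 z')) (hρ : Tendsto ρ atTop (𝓝 ρ'))
    (h0 : 0 < ρ') : Tendsto (fun i => gs (ν i) (z i) (ρ i)) atTop (𝓝 (gs κ z' ρ')) := by
  have h1 := Gs.gs_lim hA hw z' h0
  have h2 := tendsto_iff_norm_sub_tendsto_zero.1 hz
  have h3 : Tendsto (fun i => 12288 * Gs.C0 * max Λ 0 * (‖z i - z'‖ + |ρ i - ρ'|) / ρ') atTop
      (𝓝 0) := by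
    simpa using ((h2.add (tendsto_iff_norm_sub_tendsto_zero.1 hρ)).const_mul
      (12288 * Gs.C0 * max Λ 0)).div_const ρ'
  have h4 : Tendsto (fun i => gs (ν i) (z i) (ρ i) - gs (ν i) z' ρ') atTop (𝓝 0) := by
    refine squeeze_zero_norm' ?_ h3
    filter_upwards [hA, h2.eventually_le_const h0, hρ.eventually_const_le (half_lt_self h0),
      hρ.eventually_le_const (show ρ' < 2 * ρ' by linarith)] with i a1 a2 a3 a4
    exact Gs.gs_lip (le_max_right Λ 0) (Gs.ar_max a1) h0 (by linarith) a4 a2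
  simpa using h4.add h1

theorem thb : THB := by
  intro F a b Λ G hF
  have bd : ∀ p : ℝ × E3, BddBelow ((fun s => gs (F.μ s) p.2 √(p.1 - s)) '' Ioo a p.1) := fun p =>
    ⟨0, by rintro _ ⟨s, -, rfl⟩; exact gs_nonneg _ _ _⟩
  have t1 : ∀ p : ℝ × E3, ∀ s ∈ Ioo a p.1, Th F a p ≤ gs (F.μ s) p.2 √(p.1 - s) := fun p s hs =>
    csInf_le (bd p) ⟨s, hs, rfl⟩
  have t4 : ∀ (p : ℝ × E3) (c : ℝ), a < p.1 → (∀ s ∈ Ioo a p.1, c ≤ gs (F.μ s) p.2 √(p.1 - s)) →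
      c ≤ Th F a p := fun p c hp h =>
    le_csInf ((nonempty_Ioo.2 hp).image _) (by rintro _ ⟨s, hs, rfl⟩; exact h s hs)
  obtain ⟨⟨C, C0, g⟩, -⟩ := gsl
  refine ⟨t1, fun p hp c hc => ?_, ⟨C * max Λ 0, fun p hp =>
    ⟨t4 p 0 hp.1 fun _ _ => gs_nonneg _ _ _, ?_⟩⟩, t4⟩
  · obtain ⟨_, ⟨s, hs, rfl⟩, h⟩ := exists_lt_of_csInf_lt ((nonempty_Ioo.2 hp.1).image _) hc
    have k : ContinuousAt (fun q : ℝ × E3 => gs (F.μ s) q.2 √(q.1 - s)) p :=
      ContinuousAt.comp (g := fun q : E3 × ℝ => gs (F.μ s) q.1 q.2)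
        (f := fun q : ℝ × E3 => (q.2, √(q.1 - s))) (Fl.gs_cont2 (le_max_right Λ 0)
          (Gs.ar_max (hF.ar s ⟨hs.1, hs.2.trans hp.2⟩)) p.2 (Real.sqrt_pos.2 (sub_pos.2 hs.2)))
        (by fun_prop)
    constructor
    · filter_upwards [Ioo_mem_nhdsLT hs.2] with s' h'
      exact (hF.mono s s' p.1 p.2 hs.1 h'.1.le (h'.2.trans hp.2) h'.2).trans_lt h
    · filter_upwards [k.eventually_lt_const h, (continuous_fst.tendsto p).eventually_const_lt hs.2]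
        with q h1 h2
      exact (t1 q s ⟨hs.1, h2⟩).trans_lt h1
  · obtain ⟨s, hs⟩ := nonempty_Ioo.2 hp.1
    exact (t1 p s hs).trans (g _ _ (le_max_right Λ 0) (Gs.ar_max (hF.ar s ⟨hs.1, hs.2.trans hp.2⟩))
      _ _ (Real.sqrt_pos.2 (sub_pos.2 hs.2))).2.1

theorem blw : BLW := by
  intro F a b Λ G τ₀ t x r hF ht hs r0 hr
  obtain ⟨t1, t2, -, -⟩ := thb F a b Λ G hF
  have hτ : Tendsto (fun i => -Real.log (r i)) atTop atTop := tendsto_neg_atBot_atTop.comp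
    (Real.tendsto_log_nhdsGT_zero.comp (tendsto_nhdsWithin_iff.2 ⟨hr, .of_forall r0⟩))
  obtain ⟨κ, ψ, hκ, hψ, hw⟩ := hs.exists_subseq hτ
  have hτ' := hτ.comp hψ.tendsto_atTop
  have hr' := hr.comp hψ.tendsto_atTop
  have hY := hF.mono' le_rfl ht.2.le
  have conv := (slz0 F a t Λ G τ₀ x _ κ ht.1 hY hs hκ hτ' hw).1
  have e : ∀ i, Real.exp (-Real.log (r i)) = (r i)⁻¹ := fun i => by
    rw [Real.exp_neg, Real.exp_log (r0 i)]
  simp only [Function.comp, e] at conv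
  have tm : ∀ s, Tendsto (fun i => t + s / (r (ψ i))⁻¹ ^ 2) atTop (𝓝 t) := fun s => by
    simpa using ((hr'.pow 2).const_mul s).const_add t
  have neg : ∀ s < 0, ∀ i, t + s / (r (ψ i))⁻¹ ^ 2 < t := fun s hs i =>
    add_lt_of_neg_right _ (div_neg_of_neg_of_pos hs (pow_pos (inv_pos.2 (r0 _)) 2))
  have ar : ∀ s < 0, ∀ᶠ i in atTop, AR Λ ((F.rs x t (r (ψ i))⁻¹).μ s) := fun s hs =>
    ((tm s).eventually_const_lt ht.1).mono fun i hi =>
      AR.sc (S := F.sl _) (hY.ar _ ⟨hi, neg s hs i⟩) x (inv_pos.2 (r0 _))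
  refine ⟨ψ, κ, hψ, ⟨hκ, _, hτ', hw⟩, ?_, fun φ θ z θ' c z' hφ hθ hz hc s s0 s1 => ?_⟩
  · have h1 := gs_lim3 (P218.H552.locFin_ext 2 κ neg_one_lt_zero) (ar _ neg_one_lt_zero)
      (conv _ neg_one_lt_zero) (z := fun _ => 0) (ρ := fun _ => √(0 - -1)) tendsto_const_nhds
      tendsto_const_nhds (by simp)
    have h2 := Loc.gs_ext κ (ρ := 1) neg_one_lt_zero 0
    simp only [neg_neg, Real.sqrt_one, smul_zero, mul_one] at h2
    simp only [fun i => P218Z.Rsz.gs_rs (F := F) (x₀ := x) (y := 0) (t₀ := t) (s := -1)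
      (inv_pos.2 (r0 (ψ i))) 0, smul_zero, add_zero, zero_div] at h1
    rw [show √(0 - -1) = (1 : ℝ) by simp, h2] at h1
    refine le_antisymm (le_of_forall_gt_imp_ge_of_dense fun c hc => le_of_tendsto h1 ?_)
      (ge_of_tendsto h1 (((tm _).eventually_const_lt ht.1).mono fun i hi =>
        t1 (t, x) _ ⟨hi, neg _ neg_one_lt_zero i⟩))
    exact ((tendsto_nhdsWithin_iff.2 ⟨tm _, .of_forall (neg _ neg_one_lt_zero)⟩).eventually
      (t2 (t, x) ht c hc).1).mono fun i hi => hi.le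
  · refine ge_of_tendsto (gs_lim3 (P218.H552.locFin_ext 2 κ s0) (hφ.eventually (ar s s0))
      (fun f h1 h2 => (conv s s0 f h1 h2).comp hφ) hz ((hθ.sub_const s).sqrt)
      (Real.sqrt_pos.2 (sub_pos.2 s1))) ?_
    filter_upwards [hθ.eventually_const_lt s1, hφ.eventually ((tm s).eventually_const_lt ht.1)]
      with i h1 h2
    rw [P218Z.Rsz.gs_rs (inv_pos.2 (r0 _))]
    have h3 := t1 (t + θ i / (r (ψ (φ i)))⁻¹ ^ 2, x + (r (ψ (φ i)))⁻¹⁻¹ • z i) _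
      ⟨h2, P218Z.Rsz.lt (inv_pos.2 (r0 _)) h1⟩
    refine le_trans ?_ h3
    simpa using hc i

end Vale.Agent.P218Y
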