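import Vale.Agent.P218Y.Port

/-!
# P218Y: compactness of shrinkers
-/

open MeasureTheory Metric Filter Topology Set
open scoped ContDiff ENNReal RealInnerProductSpace
open Vale.Agent.P366W (trc Fr)
open Vale.Agent.P218
open Vale.Agent.P218R Vale.Agent.P218E Vale.Agent.P218R.Loc
open Vale.Agent.P218Z

noncomputable section

namespace Vale.Agent.P218Y

/-- weak compactness for measures with bounded area ratios -/
theorem ar_subseq {Λ : ℝ} {μ : ℕ → Measure E3} (h : ∀ j, AR Λ (μ j)) :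
    ∃ (κ : Measure E3) (ψ : ℕ → ℕ), IsLocallyFiniteMeasure κ ∧ StrictMono ψ ∧
      WeakTendsto (fun n => μ (ψ n)) κ := by
  have hb : LocBdd μ := fun K hK => by
    obtain ⟨r, r0, hr⟩ := hK.isBounded.subset_closedBall_lt 0 (0 : E3)
    exact ⟨(Λ * r ^ 2).toNNReal, fun j => (measure_mono hr).trans (h j 0 r r0)⟩
  choose B hB using hb.fnl_bdd
  obtain ⟨ℓ, hℓ⟩ := cluster_nonempty (isCompact_univ_pi fun φ => isCompact_Icc (a := -B φ) (b := B φ))
    (fun n : ℕ => fnl (μ n)) (fun n φ _ => abs_le.1 (hB φ n))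
  obtain ⟨ν, hν, rfl⟩ := exists_measure_of_cluster hb hℓ
  obtain ⟨ψ, hψ, hψt⟩ := hb.exists_subseq_of_cluster hℓ
  exact ⟨ν, ψ, hν, hψ, hψt⟩

/-- the limit of a convergent sequence of shrinkers is a shrinker -/
theorem SSq.lim (dns : DNS) (los : LOS) {S : ℕ → Srf} {Λ G : ℝ} {κ : Measure E3} (hS : SSq S Λ G κ) :
    ∃ T, Shr T Λ G ∧ κ = T.μ := by
  have hκ := hS.lf
  have h2 := hS.wk
  have ok := hS.shr
  obtain ⟨ε, e0, lo⟩ := los Λ
  obtain ⟨C, c0, c1, lo⟩ := lo (1 / 10) (by norm_num)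
  obtain ⟨T, hT, rfl, cv⟩ := lim' ℕ atTop S κ hκ (.of_forall fun i => (ok i).ok)
    (fun p => by
      obtain ⟨δ, d0, r, r0, h⟩ := lo S G κ p hS (dns S Λ G κ hS p ε e0)
      exact ⟨δ, d0, r, r0, C, c0, c1, h⟩) h2
  have ct' := P366W.continuous_trc (N := 3)
  refine ⟨T, ⟨hT, fun p hp => by_contra fun hne => ?_,
    (gsl.2 ℕ atTop Λ _ _ hκ (.of_forall fun i => (ok i).ar) h2).1, fun y r r0 => ?_⟩, rfl⟩
  · have hK := isCompact_closedBall (0 : E3) (‖p‖ + 2)
    have o : ∀ x ∉ closedBall 0 (‖p‖ + 2), ct 1 p 1 0 x = 0 := fun x hx => ct_out le_rfl x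
      (mt (fun h => closedBall_subset_closedBall' (by rw [dist_zero_right]; linarith) h) hx)
    have c2 := hT.sφ.continuous.pow 2
    have n0 : ∀ x, 0 ≤ ct 1 p 1 0 x * T.φ x ^ 2 := fun x => mul_nonneg ct_mem.1 (sq_nonneg _)
    have z := (integral_eq_zero_iff_of_nonneg n0 (int_cut c2 hK ct_cont o)).1 (le_antisymm
      (le_of_tendsto' (cv (fun q => ct 1 p 1 0 q.1 * (trc q.2.2 - ⟪q.1, q.2.1⟫ / 2) ^ 2)
        _ ((ct_cont.comp continuous_fst).mul (by fun_prop)) hK (fun x hx q => by simp [o x hx])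
        fun x n A => by simp only [trc_neg, inner_neg_right]; ring) fun i =>
        (((ok i).ok.int_congr (g := fun _ => (0 : ℝ)) fun x hx => by
          show ct 1 p 1 0 x * (S i).φ x ^ 2 = 0
          rw [(ok i).eq x hx]
          ring).trans (integral_zero _ _)).le)
      (integral_nonneg n0))
    obtain ⟨δ, d0, hδ⟩ := Metric.eventually_nhds_iff_ball.1
      (((ct_cont (c := 1) (y := p) (R := 1) (n := 0)).mul c2).continuousAt.eventually_ne
        (show ct 1 p 1 0 p * T.φ p ^ 2 ≠ 0 by simp [ct_in, hne]))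
    obtain ⟨r, r1, r2, r3⟩ := (((low' T hT).2 p hp 1 (by linarith [Real.pi_gt_three])).and
      (Ioo_mem_nhdsGT d0)).exists
    rw [measure_mono_null (fun x hx => hδ x (ball_subset_ball r3.le hx)) z] at r1
    exact absurd r1 (not_le.2 (ENNReal.ofReal_pos.2 (by positivity)))
  · have G0 := (ok 0).gb.nonneg (ok 0).ok
    have k1 := isCompact_closedBall y (r + 1)
    have k2 := isCompact_closedBall y (20 * r + 1)
    refine le_of_tendsto_of_tendsto' (cut_lim hT.sA2.continuous k1 measurableSet_ball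
      (fun _ => ct_cont) (fun _ _ => ct_mem) (fun _ => ct_out zero_le_one) ct_ball)
      (((cut_lim (hT.sH.continuous.pow 2) k2 measurableSet_closedBall (fun _ => ct_cont)
        (fun _ _ => ct_mem) (fun _ => ct_out le_rfl) ct_cball).const_add 1).const_mul G) fun n => ?_
    refine le_of_tendsto_of_tendsto' (cv (fun q => ct 0 y r n q.1 * trc (q.2.2 ∘L q.2.2)) _
      ((ct_cont.comp continuous_fst).mul (by fun_prop)) k1
      (fun x hx q => by simp [ct_out zero_le_one x hx]) fun x n A => by simp)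
      (((cv (fun q => ct 1 y (20 * r) n q.1 * trc q.2.2 ^ 2) _
      ((ct_cont.comp continuous_fst).mul (by fun_prop)) k2
      (fun x hx q => by simp [ct_out le_rfl x hx]) fun x n A => by simp [trc_neg]).const_add
        1).const_mul G) fun i => ?_
    have h := ok i
    have := h.ar.fin
    exact (cut_le h.ok.sA2.continuous (h.ok.ae.mono fun x => h.ok.A2_nonneg) k1 measurableSet_ball
      (ball_subset_closedBall.trans (closedBall_subset_closedBall (by linarith))) ct_cont
      (fun _ => ct_mem.2) ct_off).trans ((h.gb y r r0).trans (mul_le_mul_of_nonneg_left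
        (add_le_add_right (le_cut (h.ok.sH.continuous.pow 2) (fun _ => sq_nonneg _) k2
          measurableSet_closedBall (closedBall_subset_closedBall (by linarith)) ct_cont
          (fun _ => ct_mem.1) ct_in (ct_out le_rfl)) 1) G0))

theorem cmc (dns : DNS) (los : LOS) : CMC := fun S Λ G hS => by
  obtain ⟨κ, ψ, hκ, hψ, hw⟩ := ar_subseq fun j => (hS j).ar
  obtain ⟨T, hT, rfl⟩ := SSq.lim dns los (S := fun j => S (ψ j)) ⟨fun j => hS _, hκ, hw⟩
  exact ⟨ψ, T, hψ, hT, hw⟩

end Vale.Agent.P218Y
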