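import Vale.Agent.P218Y.Port

/-!
# P218Y: few pairs if the Gaussian ratios are below two
-/

open MeasureTheory Metric Filter Topology Set
open scoped ContDiff ENNReal RealInnerProductSpace NNReal
open Vale.Agent.P218R Vale.Agent.P218E Vale.Agent.P218Z

noncomputable section

namespace Vale.Agent.P218Y

namespace Np

theorem cheb {μ : Measure E3} {f : E3 → ℝ≥0∞} (hf : Measurable f) {A c m : ℝ} (hc : 0 < c)
    (h : ∫⁻ x, f x ∂μ ≤ ENNReal.ofReal A) (hm : A ≤ m * c) :
    μ {x | ENNReal.ofReal c ≤ f x} ≤ ENNReal.ofReal m := by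
  refine (meas_ge_le_lintegral_div hf.aemeasurable (by simpa using hc) ENNReal.ofReal_ne_top).trans
    (ENNReal.div_le_of_le_mul (h.trans ?_))
  rw [← ENNReal.ofReal_mul' hc.le]
  exact ENNReal.ofReal_le_ofReal hm

theorem cut (R : ℝ) (hR : 0 < R) : ∃ (η : E3 → ℝ) (B : ℝ), 0 ≤ B ∧ ContDiff ℝ 1 η ∧
    HasCompactSupport η ∧ (∀ x, 0 ≤ η x ∧ η x ≤ 1) ∧ (∀ x ∈ ball (0 : E3) (R + 1), η x = 1) ∧
    (∀ x, ‖gradient η x‖ ^ 2 ≤ B) ∧ ∀ x ∉ ball (0 : E3) (R + 2), η x = 0 ∧ gradient η x = 0 := by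
  let η : ContDiffBump (0 : E3) := ⟨R + 1, R + 3 / 2, by linarith, by linarith⟩
  have η1 : ContDiff ℝ 1 η := η.contDiff
  obtain ⟨B, hB⟩ := (η.hasCompactSupport.fderiv ℝ).exists_bound_of_continuous
    (η1.continuous_fderiv one_ne_zero)
  refine ⟨η, B ^ 2, sq_nonneg B, η1, η.hasCompactSupport, fun x => ⟨η.nonneg, η.le_one⟩,
    fun x hx => η.one_of_mem_closedBall (ball_subset_closedBall hx), fun x => ?_, fun x hx => ?_⟩
  · rw [P366W.norm_gradient]
    exact pow_le_pow_left₀ (norm_nonneg _) (hB x) 2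
  · have : x ∉ tsupport η := fun h => hx (closedBall_subset_ball
      (show R + 3 / 2 < R + 2 by linarith) (η.tsupport_eq ▸ h))
    exact ⟨image_eq_zero_of_notMem_tsupport this, by
      rw [gradient, fderiv_of_notMem_tsupport ℝ this, map_zero]⟩

variable {S : Srf} {Λ A R : ℝ}

theorem intA (hS : S.Ok) (hA : AR Λ S.μ) (x : E3) (r : ℝ) {f : E3 → ℝ} (hf : Continuous f) :
    IntegrableOn f (ball x r) S.μ :=
  have := hA.fin
  (hf.continuousOn.integrableOn_compact (isCompact_closedBall x r)).mono_set ball_subset_closedBall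

theorem en (hS : S.Ok) (hA : AR Λ S.μ) (h0 : 0 ≤ Λ) (hR : 0 < R)
    (h : ∫ x in ball (0 : E3) (R + 2), S.A2 x ∂S.μ ≤ A) {η : E3 → ℝ} {B : ℝ} (B0 : 0 ≤ B)
    (h1 : ∀ x, 0 ≤ η x ∧ η x ≤ 1) (h2 : ∀ x, ‖gradient η x‖ ^ 2 ≤ B)
    (h3 : ∀ x ∉ ball (0 : E3) (R + 2), η x = 0 ∧ gradient η x = 0) :
    ∫ x, (η x ^ 2 * S.A2 x + ‖gradient η x‖ ^ 2) ∂S.μ ≤ A + B * (Λ * (R + 2) ^ 2) := by
  have i1 := intA hS hA 0 (R + 2) hS.sA2.continuous
  have i2 := intA hS hA 0 (R + 2) (continuous_const (y := B))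
  rw [← setIntegral_eq_integral_of_forall_compl_eq_zero (s := ball 0 (R + 2))
    fun x hx => by simp [h3 x hx]]
  refine (integral_mono_of_nonneg ((hS.ae_set _).mono fun x hx => ?_) (i1.add i2)
    ((hS.ae_set _).mono fun x hx => ?_)).trans ?_
  · have := hS.A2_nonneg hx
    positivity
  · exact add_le_add (mul_le_of_le_one_left (hS.A2_nonneg hx)
      (pow_le_one₀ (h1 x).1 (h1 x).2)) (h2 x)
  · rw [integral_add' i1 i2, setIntegral_const, smul_eq_mul, mul_comm]
    exact add_le_add h (mul_le_mul_of_nonneg_left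
      (hA.real h0 (by linarith) ball_subset_closedBall) B0)

theorem loc (hS : S.Ok) (hA : AR Λ S.μ) (h0 : 0 ≤ Λ) {g : E3 → ℝ≥0∞} (hg : Measurable g) {r : ℝ}
    (hr : 0 < r) : (Measurable fun x => ∫⁻ z in ball x r, g z ∂S.μ) ∧
      ∫⁻ x, ∫⁻ z in ball x r, g z ∂S.μ ∂S.μ ≤ (∫⁻ z, g z ∂S.μ) * ENNReal.ofReal (Λ * r ^ 2) := by
  have := hA.fin
  have m : Measurable fun p : E3 × E3 => {p : E3 × E3 | dist p.2 p.1 < r}.indicator
      (fun p => g p.2) p := (hg.comp measurable_snd).indicator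
    (isOpen_lt (by fun_prop) continuous_const).measurableSet
  have e : ∀ x, ∫⁻ z in ball x r, g z ∂S.μ = ∫⁻ z, {p : E3 × E3 | dist p.2 p.1 < r}.indicator
      (fun p => g p.2) (x, z) ∂S.μ := fun x => by
    rw [← lintegral_indicator measurableSet_ball]
    rfl
  simp only [e]
  refine ⟨m.lintegral_prod_right', ?_⟩
  rw [lintegral_lintegral_swap m.aemeasurable, ← lintegral_mul_const _ hg]
  refine lintegral_mono fun z => ?_
  have : ∀ x, {p : E3 × E3 | dist p.2 p.1 < r}.indicator (fun p => g p.2) (x, z) =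
      (ball z r).indicator (fun _ => g z) x := fun x => by
    simp only [indicator, mem_ofPred_eq, mem_ball, dist_comm]
  simp only [this]
  rw [lintegral_indicator measurableSet_ball, setLIntegral_const]
  exact mul_le_mul_right ((measure_mono ball_subset_closedBall).trans (hA z r hr)) _

end Np

open Np in
theorem np (two : TWO) : NP := by
  intro Λ A₀ R η m η0 m0
  rcases le_or_gt R 0 with hR | hR
  · exact ⟨1, one_pos, fun S e _ _ _ _ _ => by simp [ball_eq_empty.2 hR]⟩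
  obtain ⟨K, K1, γ, γ0, two⟩ := two (max Λ 0) η η0
  obtain ⟨C, C0, q8⟩ := q8 fv'
  obtain ⟨ψ, B, B0, c1, c2, c3, c4, c5, c6⟩ := cut R hR
  have L0 := le_max_right Λ 0
  have A0 := le_max_right A₀ 0
  obtain ⟨Q, Q0, hQ⟩ : ∃ Q > (0 : ℝ),
      C * max Λ 0 * (max A₀ 0 + B * (max Λ 0 * (R + 2) ^ 2)) ≤ m / 2 * Q :=
    ⟨(C * max Λ 0 * (max A₀ 0 + B * (max Λ 0 * (R + 2) ^ 2)) + 1) / (m / 2), by positivity, by
      rw [mul_div_cancel₀ _ (half_pos m0).ne']; linarith⟩
  obtain ⟨r, ⟨r2, r3⟩, r0, r1⟩ := (((show ContinuousAt (fun r : ℝ => K ^ 2 * r ^ 2 * Q) 0 by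
    fun_prop).eventually_le_const (show _ < γ by simpa using γ0)).and
    ((show ContinuousAt (fun r : ℝ => max A₀ 0 * (max Λ 0 * r ^ 2)) 0 by
      fun_prop).eventually_le_const (show _ < m / 2 * (γ / 2) by
        simpa using mul_pos (half_pos m0) (half_pos γ0)))
      |>.filter_mono nhdsWithin_le_nhds |>.and (Ioo_mem_nhdsGT one_pos)).exists
  refine ⟨r / (2 * K), by positivity, fun S e hS hA h1 h2 he => ?_⟩
  replace hA := Gs.ar_max hA
  replace h1 := h1.trans (le_max_left A₀ 0)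
  have := hA.fin
  have cn := hS.sn.continuous
  have cψ := c1.continuous
  have b1 := cheb (f := fun x => ∫⁻ y, Near.Q S ψ x y ∂S.μ)
    (Measurable.lintegral_prod_right' (f := fun p : E3 × E3 => Near.Q S ψ p.1 p.2) (by
      unfold Near.Q
      fun_prop)) Q0 ((q8 S _ ψ hS L0 hA c1 c2 c3).trans (ENNReal.ofReal_le_ofReal
      (mul_le_mul_of_nonneg_left (en hS hA L0 hR h1 B0 c3 c5 c6) (by positivity)))) hQ
  have mg : Measurable ((ball (0 : E3) (R + 2)).indicator fun z => ENNReal.ofReal (S.A2 z)) :=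
    hS.sA2.continuous.measurable.ennreal_ofReal.indicator measurableSet_ball
  obtain ⟨m2, b2⟩ := loc hS hA L0 mg r0
  rw [lintegral_indicator measurableSet_ball, ← ofReal_integral_eq_lintegral_ofReal
    (intA hS hA _ _ hS.sA2.continuous) ((hS.ae_set _).mono fun x => hS.A2_nonneg)] at b2
  replace b2 := cheb m2 (half_pos γ0) (b2.trans ((mul_le_mul_left (ENNReal.ofReal_le_ofReal h1)
    _).trans_eq (ENNReal.ofReal_mul A0).symm)) r3
  rw [← add_halves m, ENNReal.ofReal_add (half_pos m0).le (half_pos m0).le]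
  refine le_trans (measure_mono_ae (hS.ae.mono fun x hx ⟨x1, y, y1, y2, y3, y4⟩ => ?_))
    ((measure_union_le _ _).trans (add_le_add b1 b2))
  by_contra hn
  obtain ⟨n1, n2⟩ := not_or.1 hn
  rw [mem_ofPred_eq, not_le] at n1 n2
  replace n1 := n1.le
  replace n2 := n2.le
  have d0 : 0 < ‖y - x‖ := norm_pos_iff.2 (sub_ne_zero.2 y2)
  have d1 : K * ‖y - x‖ ≤ r := by
    rw [le_div_iff₀ (by positivity)] at he
    nlinarith
  have sub : ball x (K * ‖y - x‖) ⊆ ball 0 (R + 1) :=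
    ball_subset_ball' (by linarith [mem_ball.1 x1])
  obtain ⟨ρ, ρ0, ρ1, ρ2⟩ := two S x y hS hA hx y1 y2 y4 (by
    have i1 := intA hS hA x (K * ‖y - x‖) hS.sA2.continuous
    have : ∫ z in ball x (K * ‖y - x‖), S.A2 z ∂S.μ ≤ γ / 2 := by
      rw [← ENNReal.ofReal_le_ofReal_iff (half_pos γ0).le, ofReal_integral_eq_lintegral_ofReal i1
        ((hS.ae_set _).mono fun x => hS.A2_nonneg)]
      refine le_trans ?_ ((lintegral_mono_set (ball_subset_ball d1)).trans n2)
      refine setLIntegral_mono' measurableSet_ball fun z hz => ?_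
      rw [indicator_of_mem (ball_subset_ball (by linarith) (sub hz))]
    refine (integral_mono_of_nonneg (.of_forall fun _ => sq_nonneg _) (i1.const_mul 2)
      ((hS.ae_set _).mono fun z => hS.H_sq_le)).trans ?_
    rw [integral_const_mul]
    linarith) (by
    refine (setLIntegral_mono' (g := fun z => ENNReal.ofReal ((K * ‖y - x‖) ^ 4) * Near.Q S ψ x z)
      measurableSet_ball fun z hz => ?_).trans ((setLIntegral_le_lintegral _ _).trans ?_)
    · rcases eq_or_ne z x with rfl | hz'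
      · simp [hS.norm_n hx]
      have z0 : 0 < ‖x - z‖ := norm_pos_iff.2 (sub_ne_zero.2 hz'.symm)
      rw [Near.Q, c4 x (ball_subset_ball (by linarith) x1), c4 z (sub hz), ← ENNReal.ofReal_mul
        (by positivity), one_pow, one_mul, one_mul, ← mul_div_assoc]
      refine ENNReal.ofReal_le_ofReal ((le_div_iff₀ (by positivity)).2 ?_)
      rw [mul_comm]
      exact mul_le_mul_of_nonneg_right (pow_le_pow_left₀ z0.le
        (mem_ball_iff_norm'.1 hz).le 4) (by positivity)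
    · rw [lintegral_const_mul' _ _ ENNReal.ofReal_ne_top]
      refine (mul_le_mul_right n1 _).trans ?_
      rw [← ENNReal.ofReal_mul (by positivity)]
      refine ENNReal.ofReal_le_ofReal ?_
      have := pow_le_pow_left₀ (by positivity) d1 2
      calc (K * ‖y - x‖) ^ 4 * Q = K ^ 2 * (K * ‖y - x‖) ^ 2 * Q * ‖y - x‖ ^ 2 := by ring
        _ ≤ K ^ 2 * r ^ 2 * Q * ‖y - x‖ ^ 2 := by gcongr
        _ ≤ _ := by gcongr)
  exact absurd (h2 x x1 ρ ⟨ρ0, ρ1.trans (d1.trans r1.le)⟩) (not_le.2 ρ2)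

end Vale.Agent.P218Y
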