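import Vale.Agent.P218Y.Spec
import Vale.Agent.P218R.All1
import Vale.Agent.P218E.Inv
import Vale.Agent.P218E.Curve
import Vale.Agent.P218E.Ldf
import Vale.Agent.P218E.Ray
import Vale.Agent.P218E.Tri

/-!
# P218Y: row RIG, the spine of a shrinker
-/

open MeasureTheory Metric Filter Topology Set
open scoped ContDiff ENNReal RealInnerProductSpace
open Vale.Agent.P366.Stmt (E)
open Vale.Agent.P366W (Fr adj)
open Vale.Agent.P218.H552 (ext)
open Vale.Agent.P218R Vale.Agent.P218E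

noncomputable section

namespace Vale.Agent.P218Y

namespace Rg

variable {S : Srf} {Λ G θ s : ℝ} {z x e : E3}

theorem flow_mu (S : Srf) (hs : s < 0) : S.flow.μ s = ext 2 S.μ s := by
  rw [Flw.μ, flow_sl, mu_sc S 0 (Real.sqrt_pos.2 (neg_pos.2 hs)), P218.H552.ext]
  simp only [sub_zero]

/-- the monotonicity formula for the flow of a shrinker about an arbitrary centre -/
theorem mono (h : Shr S Λ G) {s₁ s₂ : ℝ} (h12 : s₁ ≤ s₂) (h0 : s₂ < 0) (hθ : s₂ < θ) {ψ : E3 → ℝ}
    (c1 : Continuous ψ) (c2 : HasCompactSupport ψ) (c3 : ∀ x, 0 ≤ ψ x ∧ ψ x ≤ 1) :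
    gs (S.flow.μ s₂) z √(θ - s₂) + ∫ t in s₁..s₂, ∫ x, ψ x * hk z θ t x *
      ((S.flow.sl t).H x - ⟪x - z, S.flow.n (t, x)⟫ / (2 * (θ - t))) ^ 2 ∂S.flow.μ t ≤
    gs (S.flow.μ s₁) z √(θ - s₁) :=
  have k := ssf S Λ G (s₁ - 1) h
  hui' S.flow (s₁ - 1) 0 θ s₁ s₂ Λ z ψ k.toOk (sub_one_lt _) h12 h0 hθ
    (fun t ht R hR => k.ar t ⟨(sub_one_lt _).trans_le ht.1, ht.2.trans_lt h0⟩ z R
      (one_pos.trans_le hR)) c1 c2 c3

theorem lim (h : Shr S Λ G) (θ : ℝ) (z : E3) :
    Tendsto (fun r : ℝ => gs (S.flow.μ (-r ^ 2)) z √(θ - -r ^ 2)) atTop (𝓝 (gs S.μ 0 1)) := by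
  have := h.ar.fin
  have t1 : Tendsto (fun r : ℝ => r⁻¹ • z) atTop (𝓝 0) := by
    simpa using (tendsto_inv_atTop_zero (𝕜 := ℝ)).smul_const z
  have t2 : Tendsto (fun r : ℝ => √(θ / r ^ 2 + 1)) atTop (𝓝 1) := by
    simpa using ((tendsto_const_nhds (x := θ).div_atTop
      (tendsto_pow_atTop two_ne_zero)).add_const 1).sqrt
  refine (Gs.gsc (l := atTop) (ν := fun _ : ℝ => S.μ) (.of_forall fun _ => h.ar)
    (fun _ _ _ => tendsto_const_nhds) t1 t2 one_pos).congr' ?_
  filter_upwards [eventually_gt_atTop 0] with r hr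
  rw [Flw.μ, flow_sl, neg_neg, Real.sqrt_sq hr.le, gs_sc S 0 hr, zero_add]
  congr 1
  rw [eq_div_iff hr.ne', ← Real.sqrt_sq hr.le, ← Real.sqrt_mul' _ (by positivity),
    Real.sqrt_sq hr.le]
  congr 1
  field_simp
  ring

/-- the entropy of a shrinker is attained at the origin -/
theorem ent (h : Shr S Λ G) (h0 : s < 0) (hθ : s < θ) :
    gs (S.flow.μ s) z √(θ - s) ≤ gs S.μ 0 1 := by
  refine ge_of_tendsto (lim h θ z) ?_
  filter_upwards [(tendsto_neg_atTop_atBot.comp (tendsto_pow_atTop two_ne_zero)).eventually_le_atBot s]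
    with r hr
  simpa using mono (z := z) (ψ := fun _ => 0) h hr h0 hθ continuous_const HasCompactSupport.zero
    fun _ => by simp

theorem zero_of_int (h : S.Ok) {f : E3 → ℝ} (c1 : Continuous f) (c2 : HasCompactSupport f)
    (c3 : ∀ x, 0 ≤ f x) (h0 : ∫ x, f x ∂S.μ ≤ 0) (hx : S.w x = 0) : f x = 0 := by
  have := (low' S h).1
  by_contra k
  obtain ⟨δ, d0, hd⟩ := Metric.isOpen_iff.1 c1.isOpen_support x k
  exact h0.not_gt ((integral_pos_iff_support_of_nonneg c3
    (c1.integrable_of_hasCompactSupport c2)).2 ((Ray.pos low' h hx d0).trans_le (measure_mono hd)))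

theorem eqn (h : Shr S Λ G) (hc : Cen S.μ θ z (gs S.μ 0 1)) {r : ℝ} (hr : 0 < r) (hθ : -r ^ 2 < θ)
    (hx : S.w x = 0) : θ * ⟪x, S.n x⟫ = -r * ⟪z, S.n x⟫ := by
  set t := -r ^ 2 with ht
  have t0 : t < 0 := neg_neg_of_pos (by positivity)
  have k : S.flow.Ok (t - 2) (min 0 θ) := (h.flow_ok _).mono le_rfl (min_le_left _ _)
  have hs : Icc (t - 1) t ⊆ Ioo (t - 2) (min 0 θ) := Icc_subset_Ioo (by linarith) (lt_min t0 hθ)
  obtain ⟨ψ, p1, -, p2, p3⟩ := exists_continuous_one_zero_of_isCompact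
    (isCompact_singleton (x := r • x)) isClosed_empty (disjoint_empty _)
  obtain ⟨M, -, hM⟩ := Hu.supp_ball p2 z
  have hπ := Real.pi_pos
  have ck : ContinuousOn (fun p : ℝ × E3 => hk z θ p.1 p.2) (Ioo (t - 2) (min 0 θ) ×ˢ univ) := by
    refine ContinuousOn.mul (ContinuousOn.inv₀ (by fun_prop) fun p hp => ?_)
      (ContinuousOn.rexp (ContinuousOn.div (by fun_prop) (by fun_prop) fun p hp => ?_))
    all_goals
      have := sub_pos.2 (hp.1.2.trans_le (min_le_right _ _))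
      positivity
  have cf : ContinuousOn (fun p : ℝ × E3 => ψ p.2 * hk z θ p.1 p.2 * ((S.flow.sl p.1).H p.2 -
      ⟪p.2 - z, S.flow.n p⟫ / (2 * (θ - p.1))) ^ 2) (Ioo (t - 2) (min 0 θ) ×ˢ univ) :=
    ((ψ.continuous.comp continuous_snd).continuousOn.mul ck).mul
      (Hu.contOn_dis z k (min_le_right _ _))
  have cI := (Hu.cnt' cnt' k cf (isCompact_closedBall z M) fun t _ x hx => by
    simp [hM x hx]).mono hs
  have pk : ∀ s, s < θ → ∀ y, 0 < hk z θ s y := fun s hs y => by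
    have := sub_pos.2 hs
    rw [hk]
    positivity
  have nn : ∀ s, s < θ → ∀ y, 0 ≤ ψ y * hk z θ s y *
      ((S.flow.sl s).H y - ⟪y - z, S.flow.n (s, y)⟫ / (2 * (θ - s))) ^ 2 := fun s hs y =>
    mul_nonneg (mul_nonneg (p3 y).1 (pk s hs y).le) (sq_nonneg _)
  have m := mono (z := z) h (sub_one_lt t).le t0 hθ ψ.continuous p2 fun y => p3 y
  have e1 := hc t t0 hθ
  rw [← flow_mu S t0] at e1
  have e2 := ent (z := z) h ((sub_one_lt t).trans t0) ((sub_one_lt t).trans hθ)
  have I0 : ∫ y, ψ y * hk z θ t y *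
      ((S.flow.sl t).H y - ⟪y - z, S.flow.n (t, y)⟫ / (2 * (θ - t))) ^ 2 ∂S.flow.μ t ≤ 0 :=
    not_lt.1 fun q => (intervalIntegral.integral_pos (sub_one_lt t) cI
      (fun s hs => integral_nonneg (nn s (hs.2.trans_lt hθ)))
      ⟨t, right_mem_Icc.2 (sub_one_lt t).le, q⟩).not_ge (by linarith)
  have mt := hs (right_mem_Icc.2 (sub_one_lt t).le)
  have sq : √(-t) = r := by rw [ht, neg_neg, Real.sqrt_sq hr.le]
  have z0 := zero_of_int (S := S.flow.sl t) (x := r • x) (k.sl mt)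
    (cf.comp_continuous (f := fun y => (t, y)) (by fun_prop) fun y => ⟨mt, trivial⟩)
    (HasCompactSupport.intro (isCompact_closedBall z M) fun y hy => by simp [hM y hy])
    (nn t hθ) I0 (by simpa [flow_sl, sq, Srf.sc, smul_smul, hr.ne'] using hx)
  have p1' : ψ (r • x) = 1 := p1 rfl
  simp only [Function.comp_apply, p1', one_mul, mul_eq_zero, (pk t hθ _).ne', false_or,
    pow_eq_zero_iff two_ne_zero, flow_sl, sq, sc_H, zero_add, inv_smul_smul₀ hr.ne'] at z0
  have e3 : S.flow.n (t, r • x) = S.n x := by simp [Srf.flow, sq, smul_smul, hr.ne']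
  have e4 := sub_eq_zero.1 (h.eq x hx)
  have := sub_pos.2 hθ
  rw [e3, e4, inner_sub_left, real_inner_smul_left, sub_eq_zero, ht] at z0
  rw [ht] at this
  field_simp at z0
  linear_combination z0

theorem rg1 : RG1 := fun S Λ G θ z h hc x hx => by
  have a : ∀ r, |θ| + 1 ≤ r → θ * ⟪x, S.n x⟫ = -r * ⟪z, S.n x⟫ := fun r hr =>
    eqn h hc (by linarith [abs_nonneg θ]) (by nlinarith [abs_nonneg θ, neg_abs_le θ]) hx
  have b := a _ le_rfl
  have c := a (|θ| + 2) (by linarith)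
  have d : ⟪z, S.n x⟫ = 0 := by linarith
  exact ⟨by rw [b, d, mul_zero], d⟩

/-- integral curves of tangent fields -/
theorem crv (h : S.Ok) {X : E3 → E3} (hX : ContDiff ℝ ∞ X) (h1 : ∀ x, ‖X x‖ ≤ 1)
    (h2 : ∀ x ∈ S.G, ⟪S.n x, X x⟫ = 0) (hx : S.w x = 0) :
    ∃ c : ℝ → E3, c 0 = x ∧ ∀ t, HasDerivAt c (X (c t)) t ∧ S.w (c t) = 0 := by
  obtain ⟨c, c0, -, hc⟩ := (odeg (fun y => S.P y (X y)) S.G (fun y => (S.w y, 0))
    (h.sP.clm_apply hX) h.closed (fun y => (h.dw y).prodMk (differentiableAt_const _))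
    (fun y hy => (h.norm_P_le hy _).trans (h1 y)) fun y hy =>
      ((h.ev_grad hy).and (h.ev_norm hy)).mono fun y' q => ⟨by
        rw [((h.dw y').hasFDerivAt.prodMk (hasFDerivAt_const _ _)).fderiv]
        simp only [ContinuousLinearMap.prod_apply, ← P366W.inner_grad]
        rw [q.1, real_inner_smul_left, Srf.P_apply, inner_sub_right, real_inner_smul_right,
          real_inner_self_eq_norm_sq, q.2]
        simp, fun q => (congrArg Prod.fst q).trans hy⟩).1 x hx
  exact ⟨c, c0, fun t => ⟨Srf.P_tan (h2 _ (hc t).2) ▸ (hc t).1, (hc t).2⟩⟩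

theorem transl (h : S.Ok) (he : ‖e‖ = 1) (h2 : ∀ x ∈ S.G, ⟪e, S.n x⟫ = 0) (x : E3) (t : ℝ)
    (hx : S.w x = 0) : S.w (x + t • e) = 0 := by
  obtain ⟨c, c0, hc⟩ := crv h (X := fun _ => e) contDiff_const (fun _ => he.le)
    (fun y hy => real_inner_comm e _ ▸ h2 y hy) hx
  have d : ∀ t, HasDerivAt (fun t => c t - t • e) 0 t := fun t =>
    ((hc t).1.sub ((hasDerivAt_id t).smul_const e)).congr_deriv (by simp)
  have := is_const_of_deriv_eq_zero (fun t => (d t).differentiableAt) (fun t => (d t).deriv) t 0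
  rw [c0, zero_smul, sub_zero, sub_eq_iff_eq_add] at this
  exact this ▸ (hc t).2

theorem dil (h : S.Ok) (h2 : ∀ x ∈ S.G, ⟪x, S.n x⟫ = 0) {l : ℝ} (l0 : 0 < l) (l1 : l ≤ 1)
    (hx : S.w x = 0) : S.w (l • x) = 0 := by
  have p : ∀ y : E3, 0 < 1 + ‖y‖ ^ 2 := fun y => by positivity
  obtain ⟨c, c0, hc⟩ := crv h (X := fun y => (1 + ‖y‖ ^ 2)⁻¹ • y)
    (((contDiff_const.add (contDiff_norm_sq ℝ)).inv fun y => (p y).ne').smul contDiff_id)
    (fun y => by
      rw [norm_smul, norm_inv, Real.norm_of_nonneg (p y).le, inv_mul_le_one₀ (p y)]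
      nlinarith [sq_nonneg (‖y‖ - 1)])
    (fun y hy => by rw [real_inner_smul_right, real_inner_comm, h2 y hy, mul_zero]) hx
  have cc : Continuous c := continuous_iff_continuousAt.2 fun t => (hc t).1.continuousAt
  set b : ℝ → ℝ := fun t => (1 + ‖c t‖ ^ 2)⁻¹ with hb
  have cb : Continuous b := (by fun_prop : Continuous fun t => 1 + ‖c t‖ ^ 2).inv₀
    fun t => (p _).ne'
  set A : ℝ → ℝ := fun t => ∫ s in (0 : ℝ)..t, b s with hA
  have dA : ∀ t, HasDerivAt A (b t) t := fun t => (cb.integral_hasStrictDerivAt 0 t).hasDerivAt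
  have A0 : A 0 = 0 := intervalIntegral.integral_same
  have d : ∀ t, HasDerivAt (fun t => Real.exp (-A t) • c t) 0 t := fun t =>
    ((dA t).neg.exp.smul (hc t).1).congr_deriv (by
      simp only [smul_smul, ← add_smul, hb, Pi.neg_apply]
      rw [mul_neg, add_neg_cancel, zero_smul])
  have ce : ∀ t, c t = Real.exp (A t) • x := fun t => by
    have := is_const_of_deriv_eq_zero (fun t => (d t).differentiableAt) (fun t => (d t).deriv) t 0
    rw [A0, neg_zero, Real.exp_zero, one_smul, c0] at this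
    rw [← this, smul_smul, ← Real.exp_add, add_neg_cancel, Real.exp_zero, one_smul]
  have An : ∀ t ≤ 0, A t ≤ 0 := fun t ht => by
    rw [hA]
    simp only
    rw [intervalIntegral.integral_symm, neg_nonpos]
    exact intervalIntegral.integral_nonneg ht fun s _ => (inv_pos.2 (p _)).le
  have lo : ∀ t ≤ 0, A t ≤ t * (1 + ‖x‖ ^ 2)⁻¹ := fun t ht => by
    have := intervalIntegral.integral_mono_on (μ := volume) ht (f := fun _ => (1 + ‖x‖ ^ 2)⁻¹)
      (g := b) intervalIntegrable_const (cb.intervalIntegrable _ _) fun s hs => by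
        refine inv_anti₀ (p _) ?_
        rw [ce s, norm_smul, Real.norm_of_nonneg (Real.exp_pos _).le]
        have := Real.exp_le_one_iff.2 (An s hs.2)
        gcongr
        exact mul_le_of_le_one_left (norm_nonneg _) this
    rw [intervalIntegral.integral_const, intervalIntegral.integral_symm] at this
    simp only [smul_eq_mul] at this
    linarith
  have ll := Real.log_nonpos l0.le l1
  have t0 : Real.log l * (1 + ‖x‖ ^ 2) ≤ 0 := mul_nonpos_of_nonpos_of_nonneg ll (p x).le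
  obtain ⟨t, -, ht⟩ := intermediate_value_Icc t0
    (continuous_iff_continuousAt.2 fun t => (dA t).continuousAt).continuousOn
    (show Real.log l ∈ Icc (A _) (A 0) from
      ⟨(lo _ t0).trans_eq (mul_inv_cancel_right₀ (p x).ne' _), ll.trans_eq A0.symm⟩)
  have := (hc t).2
  rwa [ce, ht, Real.exp_log l0] at this

theorem cone (h : Shr S Λ G) (h2 : ∀ x ∈ S.G, ⟪x, S.n x⟫ = 0) : gs S.μ 0 1 ≤ 1 := by
  refine le_of_forall_pos_le_add fun ε e0 => ?_
  obtain ⟨ρ, r0, k⟩ := sml'.1 S Λ 0 h.ok h.ar ε e0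
  have m0 := lt_min r0 one_pos
  have k := k 0 _ (by simp) m0 (min_le_left _ _)
  have i0 := inv_pos.2 m0
  have e1 := gs_sc S 0 i0 0 1
  rw [smul_zero, add_zero, one_div, inv_inv] at e1
  refine le_trans ?_ (e1.trans_le k)
  refine mul_le_mul_of_nonneg_left (integral_mono_measure (Measure.restrict_mono (fun y hy => ?_)
    le_rfl) (.of_forall fun y => (Real.exp_pos _).le) (Gs.intg (le_max_right _ _)
      (Gs.ar_max (h.ar.sc 0 i0)) 0 (by positivity))) (by have := Real.pi_pos; positivity)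
  simpa [Srf.G, Srf.sc] using dil h.ok h2 m0 (min_le_right _ _) hy

/-- the parametrisation of the cylinder -/
def cy (e : E3) (L : E 2 →ₗᵢ[ℝ] E3) (p : E 2) : E3 :=
  L !₂[√2 * Real.cos (p 0 / √2), √2 * Real.sin (p 0 / √2)] + p 1 • e

theorem n2 (p : E 2) : ‖p‖ ^ 2 = p 0 ^ 2 + p 1 ^ 2 := by
  simp [EuclideanSpace.norm_sq_eq]

theorem cy_lip {L : E 2 →ₗᵢ[ℝ] E3} (hL : Fr e L) : LipschitzWith 1 (cy e L) :=
  LipschitzWith.of_dist_le_mul fun p q => by
    rw [NNReal.coe_one, one_mul, dist_eq_norm, dist_eq_norm, cy, cy, add_sub_add_comm, ← map_sub,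
      ← sub_smul]
    refine abs_le_of_sq_le_sq' ?_ (norm_nonneg _) |>.2
    rw [hL.norm_sq, n2, n2]
    have s2 : √2 ^ 2 = 2 := Real.sq_sqrt zero_le_two
    have k := Real.one_sub_sq_div_two_le_cos (x := p 0 / √2 - q 0 / √2)
    rw [Real.cos_sub, ← sub_div, div_pow, s2] at k
    simp only [PiLp.sub_apply, Matrix.cons_val_zero, Matrix.cons_val_one, ← mul_sub, mul_pow, s2]
    nlinarith [Real.cos_sq_add_sin_sq (p 0 / √2), Real.cos_sq_add_sin_sq (q 0 / √2)]

theorem cyl : CYL := fun e he => by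
  obtain ⟨L, hL⟩ := ex_fr he
  have s0 : 0 < √2 := by positivity
  have s2 : √2 ^ 2 = 2 := Real.sq_sqrt zero_le_two
  have hπ := Real.pi_pos
  set T : Set (E 2) := {p | p 0 ∈ Icc (-(Real.pi * √2)) (Real.pi * √2)} with hT
  have cc := (cy_lip hL).continuous
  have le : H2.restrict {x | rad e x = √2} ≤ (volume.restrict T).map (cy e L) := by
    refine Measure.le_iff.2 fun B hB => ?_
    rw [Measure.restrict_apply hB, Measure.map_apply cc.measurable hB,
      Measure.restrict_apply (cc.measurable hB),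
      ← EuclideanSpace.euclideanHausdorffMeasure_eq_volume]
    refine (measure_mono (t := cy e L '' (cy e L ⁻¹' B ∩ T)) fun x hx => ?_).trans ?_
    · have h1 : ‖adj L x‖ = √2 := by
        rw [← show rad e x = √2 from hx.2, rad, ← L.norm_map, eq_sub_of_add_eq (hL.dec x)]
      set w : ℂ := ⟨adj L x 0, adj L x 1⟩ with hw
      have h2 : ‖w‖ = √2 := by
        rw [← h1, ← sq_eq_sq₀ (norm_nonneg _) (norm_nonneg _), n2, Complex.sq_norm,
          Complex.normSq_mk, sq, sq]
      have h3 : cy e L !₂[w.arg * √2, ⟪e, x⟫] = x := by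
        have a := Complex.norm_mul_cos_arg w
        have b := Complex.norm_mul_sin_arg w
        rw [h2] at a b
        simp only [cy, Matrix.cons_val_zero, Matrix.cons_val_one, mul_div_cancel_right₀ _ s0.ne', a, b]
        conv_rhs => rw [← hL.dec x]
        congr 2
        ext i
        fin_cases i <;> rfl
      refine ⟨_, ⟨by rw [mem_preimage, h3]; exact hx.1, ?_, ?_⟩, h3⟩
      · simpa [← neg_mul] using mul_le_mul_of_nonneg_right (Complex.neg_pi_lt_arg w).le s0.le
      · simpa using Complex.arg_le_pi w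
    · simp only [H2, Measure.euclideanHausdorffMeasure_def, Measure.smul_apply,
        ENNReal.smul_def, smul_eq_mul]
      gcongr
      simpa using (cy_lip hL).hausdorffMeasure_image_le (d := 2) (by norm_num) _
  have mp : MeasurePreserving (fun p : E 2 => (p 0, p 1)) volume (volume.prod volume) :=
    (volume_preserving_finTwoArrow ℝ).comp (PiLp.volume_preserving_ofLp (Fin 2))
  have me : MeasurableEmbedding fun p : E 2 => (p 0, p 1) :=
    (MeasurableEquiv.finTwoArrow (α := ℝ)).measurableEmbedding.comp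
      (MeasurableEquiv.toLp 2 (Fin 2 → ℝ)).symm.measurableEmbedding
  have mT : MeasurableSet T := (isClosed_Icc.preimage (by fun_prop)).measurableSet
  set f : ℝ → ℝ := (Icc (-(Real.pi * √2)) (Real.pi * √2)).indicator fun _ => Real.exp (-1 / 2)
  have ef : T.indicator (fun p => Real.exp (-‖cy e L p - 0‖ ^ 2 / (4 * 1 ^ 2))) =
      (fun q : ℝ × ℝ => f q.1 * Real.exp (-(1 / 4) * q.2 ^ 2)) ∘ fun p : E 2 => (p 0, p 1) := by
    ext p
    by_cases hp : p ∈ T
    · rw [indicator_of_mem hp, Function.comp_apply, show f (p 0) = _ from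
        indicator_of_mem (s := Icc _ _) hp _,
        ← Real.exp_add, sub_zero, cy, hL.norm_sq, n2]
      congr 1
      simp only [Matrix.cons_val_zero, Matrix.cons_val_one, mul_pow, s2]
      linear_combination (-1 / 2) * Real.cos_sq_add_sin_sq (p 0 / √2)
    · rw [indicator_of_notMem hp, Function.comp_apply, show f (p 0) = 0 from
        indicator_of_notMem (s := Icc _ _) hp _,
        zero_mul]
  have fi : Integrable f := (integrable_indicator_iff measurableSet_Icc).2
    continuousOn_const.integrableOn_Icc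
  have cg : Continuous fun y : E3 => Real.exp (-‖y - 0‖ ^ 2 / (4 * 1 ^ 2)) := by fun_prop
  have k := integral_mono_measure le (.of_forall fun y => (Real.exp_pos _).le)
    ((integrable_map_measure cg.aestronglyMeasurable cc.aemeasurable).2
      ((integrable_indicator_iff mT).1 (ef ▸ (mp.integrable_comp_emb me).2
        (fi.mul_prod (integrable_exp_neg_mul_sq (by norm_num))))))
  rw [integral_map cc.aemeasurable cg.aestronglyMeasurable, ← integral_indicator mT, ef] at k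
  erw [mp.integral_comp me (fun q : ℝ × ℝ => f q.1 * Real.exp (-(1 / 4) * q.2 ^ 2))] at k
  rw [integral_prod_mul f fun t => Real.exp (-(1 / 4) * t ^ 2), integral_gaussian,
    integral_indicator measurableSet_Icc, setIntegral_const, Real.volume_real_Icc_of_le
      (by linarith [mul_pos hπ s0]), smul_eq_mul] at k
  rw [gs, inv_mul_lt_iff₀ (by positivity)]
  refine k.trans_lt ?_
  have a1 : √(Real.pi / (1 / 4)) < 4 := (Real.sqrt_lt' (by norm_num)).2 (by
    linarith [Real.pi_lt_four])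
  have a2 : √2 * Real.exp (-1 / 2) ≤ 1 := by
    have : Real.exp (-1 / 2) ^ 2 * Real.exp 1 = 1 := by
      rw [sq, ← Real.exp_add, ← Real.exp_add]; norm_num
    refine abs_le_of_sq_le_sq' ?_ zero_le_one |>.2
    rw [mul_pow, s2]
    nlinarith [Real.add_one_le_exp 1, sq_nonneg (Real.exp (-1 / 2))]
  calc _ = 2 * Real.pi * (√2 * Real.exp (-1 / 2)) * √(Real.pi / (1 / 4)) := by ring
    _ ≤ 2 * Real.pi * 1 * √(Real.pi / (1 / 4)) := by gcongr
    _ < 2 * Real.pi * 1 * 4 := by gcongr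
    _ = _ := by ring

end Rg

open Rg in
/-- **Row RIG.** -/
theorem rig : RIG := fun S Λ G h h1 => by
  have t0 : ∀ θ z, Cen S.μ θ z (gs S.μ 0 1) → θ = 0 := fun θ z hc => by_contra fun k =>
    h1.not_ge (cone h fun x hx => (mul_eq_zero.1 (rg1 S Λ G θ z h hc x hx).1).resolve_left k)
  have key : ∀ θ z, Cen S.μ θ z (gs S.μ 0 1) → z ≠ 0 → ∃ e : E3, ‖e‖ = 1 ∧ z = ‖z‖ • e ∧
      S.G = {x | rad e x = √2} ∧ ∀ x (t : ℝ), S.w x = 0 → S.w (x + t • e) = 0 := fun θ z hc z0 => by
    have n0 := norm_ne_zero_iff.2 z0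
    have he : ‖‖z‖⁻¹ • z‖ = 1 := by rw [norm_smul, norm_inv, norm_norm, inv_mul_cancel₀ n0]
    have tr := transl h.ok he fun x hx => by
      rw [real_inner_smul_left, (rg1 S Λ G θ z h hc x hx).2, mul_zero]
    refine ⟨_, he, (smul_inv_smul₀ n0 z).symm, ?_, tr⟩
    rcases inv' curve odeg S _ h.ok h.eq he tr with k | ⟨ν, k1, k⟩ | k
    · simp [gs, Srf.μ, k] at h1
      linarith
    · have := sml'.2.2.1 0 ν 0 1 k1 one_pos
      simp only [sub_zero, inner_zero_right] at this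
      rw [Srf.μ, k, this] at h1
      simp at h1
    · exact k
  by_cases hz : ∃ θ z, Cen S.μ θ z (gs S.μ 0 1) ∧ z ≠ 0
  · obtain ⟨θ₀, z₀, c0, z0⟩ := hz
    obtain ⟨e, he, -, hG, -⟩ := key θ₀ z₀ c0 z0
    refine ⟨e, he, fun θ z hc => ⟨t0 θ z hc, ?_, fun k => ?_⟩⟩
    · by_cases z1 : z = 0
      · exact ⟨0, by simp [z1]⟩
      obtain ⟨e', he', e1, -, tr⟩ := key θ z hc z1
      obtain ⟨q, q1, -⟩ := Tri.ex_cyl he
      have a : ∀ t : ℝ, rad e (q + t • e') = √2 := fun t =>
        hG.subset (tr q t (hG.superset q1))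
      have b := fun t : ℝ => Tri.rad_sq he (q + t • e')
      simp only [a, norm_add_sq_real, inner_add_right, real_inner_smul_right, norm_smul, he',
        Real.norm_eq_abs, mul_one, sq_abs] at b
      have c := Tri.rad_sq he e'
      rw [he'] at c
      have d : rad e e' = 0 := pow_eq_zero_iff two_ne_zero |>.1 (by nlinarith [b 0, b 1, b (-1)])
      rw [rad, norm_eq_zero, sub_eq_zero] at d
      exact ⟨‖z‖ * ⟪e, e'⟫, by rw [← smul_smul, ← d, ← e1]⟩
    · rw [Srf.μ, hG] at k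
      exact absurd (cyl e he) k.not_gt
  · push Not at hz
    exact ⟨EuclideanSpace.single 0 1, by simp, fun θ z hc =>
      ⟨t0 θ z hc, ⟨0, by simp [hz θ z hc]⟩, fun _ => hz θ z hc⟩⟩

end Vale.Agent.P218Y
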