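import Vale.Agent.P218Y.Blw

/-!
# P218Y: the spine, with uniform constants and at small scales
-/

open MeasureTheory Metric Filter Topology Set
open scoped ContDiff ENNReal RealInnerProductSpace NNReal
open Vale.Agent.P218 (limitSet WeakTendsto Slow)
open Vale.Agent.P218.H552 (NN ext weakTendsto_ext locFin_ext)
open Vale.Agent.P218R Vale.Agent.P218E Vale.Agent.P218Z

noncomputable section

namespace Vale.Agent.P218Y

theorem sub2 {θ : ℕ → ℝ} {z : ℕ → E3} (h1 : ∀ i, |θ i| ≤ 1) (h2 : ∀ i, ‖z i‖ ≤ 1) :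
    ∃ (θ' : ℝ) (z' : E3) (φ : ℕ → ℕ), |θ'| ≤ 1 ∧ ‖z'‖ ≤ 1 ∧ StrictMono φ ∧
      Tendsto (fun i => θ (φ i)) atTop (𝓝 θ') ∧ Tendsto (fun i => z (φ i)) atTop (𝓝 z') := by
  obtain ⟨q, hq, φ, hφ, h⟩ := ((isCompact_closedBall (0 : ℝ) 1).prod
    (isCompact_closedBall (0 : E3) 1)).tendsto_subseq (x := fun i => (θ i, z i))
    fun i => ⟨mem_closedBall_zero_iff.2 (h1 i), mem_closedBall_zero_iff.2 (h2 i)⟩
  exact ⟨q.1, q.2, φ, mem_closedBall_zero_iff.1 hq.1, mem_closedBall_zero_iff.1 hq.2, hφ,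
    (continuous_fst.tendsto q).comp h, (continuous_snd.tendsto q).comp h⟩

theorem ar_ext {κ : Measure E3} {Λ s : ℝ} (h : AR Λ κ) (hs : s < 0) : AR Λ (ext 2 κ s) := by
  have := zm_ar h 0 (Real.sqrt_pos.2 (neg_pos.2 hs))
  simp only [zm, sub_zero] at this
  exact this

theorem spn (cmc : CMC) (rig : RIG) : SPN := by
  intro Λ G ε₀ η h0 hη
  by_contra hc
  push Not at hc
  choose S h1 h2 h3 using fun j : ℕ => hc (1 / ((j : ℝ) + 1)) Nat.one_div_pos_of_nat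
  obtain ⟨ψ, T, hψ, hT, hw⟩ := cmc S Λ G h1
  have lf := hT.ar.fin
  have g1 := Gs.gs_lim (.of_forall fun j => (h1 (ψ j)).ar) hw 0 one_pos
  obtain ⟨e, e1, he⟩ := rig T Λ G hT
    ((lt_add_of_pos_right 1 h0).trans_le (ge_of_tendsto' g1 fun j => h2 _))
  choose θ z a1 a2 a3 a4 using fun j => h3 (ψ j) e e1
  obtain ⟨θ', z', φ, -, -, hφ, t1, t2⟩ := sub2 a1 a2
  have g2 := g1.comp hφ.tendsto_atTop
  obtain ⟨rfl, ⟨c, hc⟩, h4⟩ := he θ' z' fun s s0 s1 => by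
    refine le_of_tendsto_of_tendsto (by simpa using g2.sub (tendsto_one_div_add_atTop_nhds_zero_nat
      (𝕜 := ℝ) |>.comp (hψ.comp hφ).tendsto_atTop)) (gs_lim3 (locFin_ext 2 T.μ s0)
      (.of_forall fun j => ar_ext (h1 (ψ (φ j))).ar s0)
      (weakTendsto_ext (fun f f1 f2 => (hw f f1 f2).comp hφ.tendsto_atTop) 2 s0) t2
      (t1.sub_const s).sqrt (Real.sqrt_pos.2 (sub_pos.2 s1))) ?_
    filter_upwards [t1.eventually_const_lt s1] with j hj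
    simpa using a3 (φ j) s s0 hj
  have b1 := t1.abs.eventually_lt_const (show |(0 : ℝ)| < η ^ 2 by simpa using pow_pos hη 2)
  have b2 := (t2.sub_const (c • e)).norm.eventually_lt_const
    (show ‖z' - c • e‖ < η by rwa [hc, sub_self, norm_zero])
  have b3 : ∀ᶠ j in atTop, 2 ≤ gs (S (ψ (φ j))).μ 0 1 ∧ η ≤ ‖z (φ j)‖ :=
    (b1.and b2).mono fun j hj => a4 (φ j) hj.1 ⟨c, hj.2⟩
  have := ge_of_tendsto t2.norm (b3.mono fun j hj => hj.2)
  rw [h4 (ge_of_tendsto g2 (b3.mono fun j hj => hj.1)), norm_zero] at this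
  exact absurd hη (not_lt.2 this)

theorem lcs (spn : SPN) : LCS := by
  intro Λ G ε₀ η h0 hη
  obtain ⟨δ, d0, h⟩ := spn Λ G ε₀ η h0 hη
  refine ⟨δ, d0, fun F a b τ₀ ⟨t, x⟩ hF ht hp hs hg => ?_⟩
  by_contra hc
  simp only [Lin, not_exists, not_and, not_forall, exists_prop] at hc
  choose r hr hc using fun j : ℕ => hc (1 / ((j : ℝ) + 1)) Nat.one_div_pos_of_nat
  obtain ⟨ψ, κ, -, hκ, e1, hb⟩ := blw F a b Λ G τ₀ t x r hF.toYm ht hs (fun i => (hr i).1)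
    (squeeze_zero (fun i => (hr i).1.le) (fun i => (hr i).2.le)
      tendsto_one_div_add_atTop_nhds_zero_nat)
  obtain ⟨S, hS, rfl⟩ := hg κ hκ
  obtain ⟨e, e2, he⟩ := h S hS (e1 ▸ (thb F a b Λ G hF.toYm).2.2.2 _ _ ht.1 fun s hs =>
    hF.gap t s x hs.1 hs.2 ht.2 hp)
  choose q a1 a2 a3 a4 using fun i => hc (ψ i) e e2
  have r0 := fun i => (hr (ψ i)).1
  have n1 : ∀ i, |((q i).1 - t) / r (ψ i) ^ 2| = |(q i).1 - t| / r (ψ i) ^ 2 := fun i => by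
    rw [abs_div, abs_of_pos (pow_pos (r0 i) 2)]
  have n2 : ∀ i (v : E3), ‖(r (ψ i))⁻¹ • v‖ = ‖v‖ / r (ψ i) := fun i v => by
    rw [norm_smul, Real.norm_of_nonneg (inv_pos.2 (r0 i)).le, div_eq_inv_mul]
  obtain ⟨θ', z', φ, c1, c2, hφ, t1, t2⟩ := sub2 (θ := fun i => ((q i).1 - t) / r (ψ i) ^ 2)
    (z := fun i => (r (ψ i))⁻¹ • ((q i).2 - x))
    (fun i => by rw [n1, div_le_one (pow_pos (r0 i) 2)]; exact a1 i)
    fun i => by rw [n2, div_le_one (r0 i)]; exact a2 i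
  obtain ⟨b1, ⟨c, b2⟩, b3⟩ := he θ' z' c1 c2 (hb φ _ _ θ' _ z' hφ.tendsto_atTop t1 t2 fun i => by
    rw [div_mul_cancel₀ _ (pow_pos (r0 _) 2).ne', smul_inv_smul₀ (r0 _).ne', add_sub_cancel,
      add_sub_cancel, e1]
    exact a3 _)
  have b4 : ∀ᶠ i in atTop, 2 ≤ Th F a (t, x) → ‖(r (ψ (φ i)))⁻¹ • ((q (φ i)).2 - x)‖ < η := by
    by_cases h2 : 2 ≤ Th F a (t, x)
    · exact (t2.norm.eventually_lt_const (b3 (e1 ▸ h2))).mono fun _ h _ => h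
    · exact .of_forall fun _ h => absurd h h2
  obtain ⟨i, i1, i2, i3⟩ := ((t1.abs.eventually_lt_const b1).and
    (((t2.sub_const (c • e)).norm.eventually_lt_const b2).and b4)).exists
  rw [n1, div_lt_iff₀ (pow_pos (r0 _) 2), ← mul_pow] at i1
  simp only [n2, div_lt_iff₀ (r0 _)] at i3
  obtain ⟨j1, j2⟩ := a4 (φ i) i1 ⟨r (ψ (φ i)) * c, by
    rw [← div_lt_iff₀ (r0 _), ← n2, smul_sub, smul_smul, inv_mul_cancel_left₀ (r0 _).ne']
    exact i2⟩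
  exact j2 (i3 j1)

end Vale.Agent.P218Y
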