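import Vale.Agent.P218Y.Pny
import Vale.Agent.P218Y.Dny
import Vale.Agent.P218Y.Blw
import Vale.Agent.P218Y.Spn
import Vale.Agent.P218Y.Din
import Vale.Agent.P218Y.Cmc
import Vale.Agent.P218Y.Rig
import Vale.Agent.P218Y.Np
import Vale.Agent.P218Z.All

/-!
# P218Y: uniqueness of tangent flows for almost regular flows, from the remaining rows
-/

open MeasureTheory Set
open Vale.Agent.P218 (IsIntegralBrakkeFlow TangentFlowUnique)
open Vale.Agent.P218R Vale.Agent.P218E Vale.Agent.P218Z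

namespace Vale.Agent.P218Y

theorem finY (cov : COV) (dns : DNS) (los : LOS) (dps : DPS) (two : TWO) {μ : ℝ → Measure E3}
    {x₀ : E3} {t₀ a : ℝ} {M : ℝ → Set E3} (hS : P218T.TStar) (hB : IsIntegralBrakkeFlow 2 μ)
    (h0 : μ 0 univ < ⊤) (ht : 0 < t₀) (ha : a < t₀) (hM : IsAlmostReg M a t₀)
    (hμ : ∀ t ∈ Ioo a t₀, μ t = (μH[2] : Measure E3).restrict (M t)) :
    TangentFlowUnique 2 μ x₀ t₀ := by
  obtain ⟨c, h1, h2, h3⟩ := small (pny thb (lcs (spn (cmc dns los) rig)) cov din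
    (dny (np two) dps)) hB h0 ht ha hM hμ
  exact fin3 hS hB h0 ht h2 h3 fun t h => hμ t ⟨h1.trans h.1, h.2⟩

end Vale.Agent.P218Y
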