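import Vale.Agent.P218Y.Port

/-!
# P218Y: the singular set of an almost regular flow is small
-/

open MeasureTheory Metric Filter Topology Set
open scoped ContDiff ENNReal RealInnerProductSpace
open Vale.Agent.P218 (IsIntegralBrakkeFlow)
open Vale.Agent.P218R Vale.Agent.P218E Vale.Agent.P218Z

noncomputable section

namespace Vale.Agent.P218Y

theorem pny (thb : THB) (lcs : LCS) (cov : COV) (din : DIN) (dny : DNY) : PNY := by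
  intro F a b Λ G ε₀ h0 hF sl
  obtain ⟨-, t2, ⟨C, t3⟩, -⟩ := thb F a b Λ G hF.toYm
  have lin : ∀ η > (0 : ℝ), ∃ δ > (0 : ℝ), ∀ p ∈ Sing (trk F), p.1 ∈ Ioo a b → Gd F Λ G p →
      Lin (Th F a) η δ p := fun η hη => by
    obtain ⟨δ, d0, h⟩ := lcs Λ G ε₀ η h0 hη
    refine ⟨δ, d0, fun p hp ht hg => ?_⟩
    obtain ⟨τ₀, hs⟩ := sl p.1 ht p.2
    exact h F a b τ₀ p hF ht hp hs hg
  have pn : ∀ u t, a ≤ u → t ≤ b → (∀ p ∈ Sing (trk F), p.1 ∈ Ioo u t → Gd F Λ G p) →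
      PNull (Sing (trk F) ∩ Ioo u t ×ˢ univ) := fun u t hu ht h => cov _ (Th F a) fun η hη => by
    obtain ⟨δ, d0, h'⟩ := lin η hη
    exact ⟨δ, d0, fun p hp => h' p hp.1 (Ioo_subset_Ioo hu ht hp.2.1) (h p hp.1 hp.2.1)⟩
  obtain ⟨δ, d0, hδ⟩ := lin (1 / 2) one_half_pos
  refine pn a b le_rfl le_rfl (din _ _ (Th F a) a b δ C d0 (fun c d => Tp.sing_cpt hF.cpt)
    (hF.ae.mono fun t h ht x hx => hx.2 (h ht x hx.1))
    (fun p hp => ⟨(t3 p hp).2, fun c hc => (t2 p hp c hc).2⟩) (fun p _ ht h2 κ hκ => ?_) hδ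
    fun u t hu hut ht h x κ hκ => ?_)
  · obtain ⟨τ₀, hs⟩ := sl p.1 ht p.2
    have hY := hF.mono' le_rfl ht.2.le
    refine tfy0 F a p.1 Λ G ε₀ τ₀ p.2 κ ht.1 h0 hY hs hκ
      (dny F a p.1 Λ G τ₀ p.2 κ hY.toYm hs hκ ?_)
    obtain ⟨s, h1, h2⟩ := ((t2 p ht 2 h2).1.and (Ioo_mem_nhdsLT ht.1)).exists
    exact ⟨s, h2, h1⟩
  · obtain ⟨τ₀, hs⟩ := sl t ⟨hu.trans hut, ht⟩ x
    have hY := hF.mono' hu.le ht.le
    exact tfz' F u t Λ G ε₀ τ₀ x κ hut h0 ⟨⟨⟨hY.cpt, fun c d hc hd δ =>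
      Tp.cover hY.cpt (pn u t hu.le ht.le h) hc hd, hY.ok, hY.ar⟩, hY.mono, hY.ld⟩, hY.gap⟩ hs hκ

/-- an almost regular Brakke flow has a small singular set -/
theorem small (pny : PNY) {μ : ℝ → Measure E3} {M : ℝ → Set E3} {a b : ℝ}
    (hB : IsIntegralBrakkeFlow 2 μ) (h0 : μ 0 univ < ⊤) (b0 : 0 < b) (hab : a < b)
    (hM : IsAlmostReg M a b) (hμ : ∀ t ∈ Ioo a b, μ t = (μH[2] : Measure E3).restrict (M t)) :
    ∃ c, a < c ∧ c < b ∧ IsSmallSing M c b := by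
  obtain ⟨c, c0, ac, cb⟩ : ∃ c, 0 < c ∧ a < c ∧ c < b := by
    obtain ⟨c, h1, h2⟩ := exists_between (max_lt hab b0)
    exact ⟨c, (le_max_right _ _).trans_lt h1, (le_max_left _ _).trans_lt h1, h2⟩
  have sub : Ioo c b ⊆ Ioo a b := Ioo_subset_Ioo_left ac.le
  obtain ⟨F, hF, ok⟩ := slc M
  obtain rfl : trk F = M := funext hF
  obtain ⟨⟨Λ, ar⟩, mono, -, -⟩ := brf μ _ c b hB h0 c0 cb fun t ht => hμ t (sub ht)
  obtain ⟨g, hg⟩ := hM.genus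
  obtain ⟨G, hG⟩ := gbz chi' Λ g
  obtain ⟨cp, -⟩ := top.2.1 _ a b hM.cpt
  have hc : Yc F c b Λ G := ⟨fun c' d h1 => hM.cpt c' d (ac.trans h1),
    hM.ae.mono fun t h ht => h (sub ht), fun t ht rt =>
      have o := ok t (cp t (sub ht)).isClosed rt
      ⟨o, hG _ o (cp t (sub ht)) (ar t ht) (hg t (sub ht) rt _ o rfl)⟩, ar⟩
  have hm := ldz F c b Λ G hc mono fun t ht => hM.dense t (sub ht)
  obtain ⟨ε, e0, gap⟩ := gap0 Λ
  have hf : Yf F c b Λ G ε := ⟨hm, fun s t y h1 h2 h3 h4 => not_lt.1 fun h5 =>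
    h4.2 (hM.unit s (sub ⟨h1.trans h2, h3⟩) y h4.1
      (gap μ F c b G t s y hB h0 c0.le (fun t ht => hμ t (sub ht)) hm h1 h2 h3 h4.1 h5))⟩
  exact ⟨c, ac, cb, hc.cpt, fun t ht => hM.dense t (sub ht), pny F c b Λ G ε e0 hf fun t ht =>
    (brf μ _ c t hB h0 c0 ht.1 fun s hs => hμ s (sub ⟨hs.1, hs.2.trans ht.2⟩)).2.2.1,
    fun t ht => hM.unit t (sub ht), g, fun t ht => hg t (sub ht)⟩

end Vale.Agent.P218Y
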